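import Vale.Agent.P098.Six.S22.Root

/-!
# P098, six dimensions: checked pieces of the tree
-/

namespace Vale.Agent.P098.Six.S22

/-- A piece of the tree. -/
noncomputable def tree29 : Tree LeafX :=
  .s1
    (.s0
    (.s3
    (.s3
    (.leaf (.box ⟨214, 3, -2048, 8, 29, 211, 797944, 0, 0, 0, 0, 0, 0⟩ ⟨0, 0, 0, 0, 0, 0, 914401, 0, 0, 0, 0, 0, 0⟩ ⟨0, 0, 0, 0, 0, 0, 914401, 0, 0, 0, 0, 0, 0⟩ ⟨0, 0, 0, 0, 0, 0, 1070659, 0, 0, 0, 0, 0, 0⟩ ⟨0, 0, 0, 0, 0, 0, 1070659, 0, 0, 0, 0, 0, 0⟩ ⟨522, 2, -4815, 6, 38, 498, 1291327, 0, 0, 0, 0, 0, 0⟩))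
    (.leaf (.box ⟨236, 2, -2206, 6, 26, 226, 929831, 0, 0, 0, 0, 0, 0⟩ ⟨0, 0, 0, 0, 0, 0, 1057669, 0, 0, 0, 0, 0, 0⟩ ⟨0, 0, 0, 0, 0, 0, 1057669, 0, 0, 0, 0, 0, 0⟩ ⟨0, 0, 0, 0, 0, 0, 1226262, 0, 0, 0, 0, 0, 0⟩ ⟨0, 0, 0, 0, 0, 0, 1226262, 0, 0, 0, 0, 0, 0⟩ ⟨540, 2, -4959, 6, 34, 513, 1458794, 0, 0, 0, 0, 0, 0⟩)))
    (.s3
    (.leaf (.box ⟨256, 2, -2358, 6, 24, 243, 1114652, 0, 0, 0, 0, 0, 0⟩ ⟨0, 0, 0, 0, 0, 0, 1254889, 0, 0, 0, 0, 0, 0⟩ ⟨0, 0, 0, 0, 0, 0, 1254889, 0, 0, 0, 0, 0, 0⟩ ⟨0, 0, 0, 0, 0, 0, 1435490, 0, 0, 0, 0, 0, 0⟩ ⟨0, 0, 0, 0, 0, 0, 1435490, 0, 0, 0, 0, 0, 0⟩ ⟨585, 2, -5350, 6, 32, 553, 1676814, 0, 0, 0, 0, 0, 0⟩))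
    (.leaf (.box ⟨544, 2, -4986, 6, 36, 511, 1391308, 0, 0, 0, 0, 0, 0⟩ ⟨0, 0, 0, 0, 0, 0, 1542410, 0, 0, 0, 0, 0, 0⟩ ⟨0, 0, 0, 0, 0, 0, 1542410, 0, 0, 0, 0, 0, 0⟩ ⟨0, 0, 0, 0, 0, 0, 1730331, 0, 0, 0, 0, 0, 0⟩ ⟨0, 0, 0, 0, 0, 0, 1730331, 0, 0, 0, 0, 0, 0⟩ ⟨652, 2, -5949, 6, 31, 616, 1970396, 0, 0, 0, 0, 0, 0⟩))))
    (.s3
    (.s3
    (.leaf (.box ⟨284, 2, -2841, 6, 38, 311, 862922, 0, 0, 0, 0, 0, 0⟩ ⟨0, 0, 0, 0, 0, 0, 988721, 0, 0, 0, 0, 0, 0⟩ ⟨0, 0, 0, 0, 0, 0, 988721, 0, 0, 0, 0, 0, 0⟩ ⟨0, 0, 0, 0, 0, 0, 1157458, 0, 0, 0, 0, 0, 0⟩ ⟨0, 0, 0, 0, 0, 0, 1157458, 0, 0, 0, 0, 0, 0⟩ ⟨454, 3, -4436, 6, 37, 485, 1395640, 0, 0, 0, 0, 0, 0⟩))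
    (.leaf (.box ⟨368, 3, -3591, 6, 41, 393, 1004809, 0, 0, 0, 0, 0, 0⟩ ⟨0, 0, 0, 0, 0, 0, 1142828, 0, 0, 0, 0, 0, 0⟩ ⟨0, 0, 0, 0, 0, 0, 1142828, 0, 0, 0, 0, 0, 0⟩ ⟨0, 0, 0, 0, 0, 0, 1324801, 0, 0, 0, 0, 0, 0⟩ ⟨0, 0, 0, 0, 0, 0, 1324801, 0, 0, 0, 0, 0, 0⟩ ⟨537, 3, -5339, 6, 39, 584, 1575699, 0, 0, 0, 0, 0, 0⟩)))
    (.s3
    (.leaf (.box ⟨432, 3, -4286, 6, 41, 469, 1203646, 0, 0, 0, 0, 0, 0⟩ ⟨0, 0, 0, 0, 0, 0, 1354971, 0, 0, 0, 0, 0, 0⟩ ⟨0, 0, 0, 0, 0, 0, 1354971, 0, 0, 0, 0, 0, 0⟩ ⟨0, 0, 0, 0, 0, 0, 1549817, 0, 0, 0, 0, 0, 0⟩ ⟨0, 0, 0, 0, 0, 0, 1549817, 0, 0, 0, 0, 0, 0⟩ ⟨611, 3, -6091, 6, 39, 666, 1810112, 0, 0, 0, 0, 0, 0⟩))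
    (.leaf (.box ⟨529, 3, -5192, 6, 40, 568, 1501261, 0, 0, 0, 0, 0, 0⟩ ⟨0, 0, 0, 0, 0, 0, 1664226, 0, 0, 0, 0, 0, 0⟩ ⟨0, 0, 0, 0, 0, 0, 1664226, 0, 0, 0, 0, 0, 0⟩ ⟨0, 0, 0, 0, 0, 0, 1866879, 0, 0, 0, 0, 0, 0⟩ ⟨0, 0, 0, 0, 0, 0, 1866879, 0, 0, 0, 0, 0, 0⟩ ⟨751, 3, -7379, 6, 40, 807, 2125728, 0, 0, 0, 0, 0, 0⟩)))))
    (.s3
    (.s0
    (.s3
    (.leaf (.box ⟨292, 1, -2612, 6, 34, 296, 776363, 0, 0, 0, 0, 0, 0⟩ ⟨0, 0, 0, 0, 0, 0, 889795, 0, 0, 0, 0, 0, 0⟩ ⟨0, 0, 0, 0, 0, 0, 889795, 0, 0, 0, 0, 0, 0⟩ ⟨0, 0, 0, 0, 0, 0, 1042045, 0, 0, 0, 0, 0, 0⟩ ⟨0, 0, 0, 0, 0, 0, 1042045, 0, 0, 0, 0, 0, 0⟩ ⟨466, 1, -4084, 6, 33, 464, 1257152, 0, 0, 0, 0, 0, 0⟩))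
    (.leaf (.box ⟨377, 1, -3286, 6, 37, 373, 905341, 0, 0, 0, 0, 0, 0⟩ ⟨0, 0, 0, 0, 0, 0, 1029926, 0, 0, 0, 0, 0, 0⟩ ⟨0, 0, 0, 0, 0, 0, 1029926, 0, 0, 0, 0, 0, 0⟩ ⟨0, 0, 0, 0, 0, 0, 1194271, 0, 0, 0, 0, 0, 0⟩ ⟨0, 0, 0, 0, 0, 0, 1194271, 0, 0, 0, 0, 0, 0⟩ ⟨509, 1, -4526, 6, 32, 515, 1421022, 0, 0, 0, 0, 0, 0⟩)))
    (.s3
    (.leaf (.box ⟨208, 2, -2048, 7, 31, 244, 838279, 0, 0, 0, 0, 0, 0⟩ ⟨0, 0, 0, 0, 0, 0, 960652, 0, 0, 0, 0, 0, 0⟩ ⟨0, 0, 0, 0, 0, 0, 960652, 0, 0, 0, 0, 0, 0⟩ ⟨0, 0, 0, 0, 0, 0, 1124860, 0, 0, 0, 0, 0, 0⟩ ⟨0, 0, 0, 0, 0, 0, 1124860, 0, 0, 0, 0, 0, 0⟩ ⟨442, 2, -4182, 6, 36, 499, 1356778, 0, 0, 0, 0, 0, 0⟩))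
    (.leaf (.box ⟨343, 2, -3247, 6, 38, 388, 976987, 0, 0, 0, 0, 0, 0⟩ ⟨0, 0, 0, 0, 0, 0, 1111336, 0, 0, 0, 0, 0, 0⟩ ⟨0, 0, 0, 0, 0, 0, 1111336, 0, 0, 0, 0, 0, 0⟩ ⟨0, 0, 0, 0, 0, 0, 1288524, 0, 0, 0, 0, 0, 0⟩ ⟨0, 0, 0, 0, 0, 0, 1288524, 0, 0, 0, 0, 0, 0⟩ ⟨465, 2, -4443, 6, 34, 531, 1532930, 0, 0, 0, 0, 0, 0⟩))))
    (.s0
    (.s2
    (.leaf (.box ⟨465, 2, -4517, 6, 44, 523, 1085146, 0, 0, 0, 0, 0, 0⟩ ⟨0, 0, 0, 0, 0, 0, 1221818, 0, 0, 0, 0, 0, 0⟩ ⟨0, 0, 0, 0, 0, 0, 1221818, 0, 0, 0, 0, 0, 0⟩ ⟨0, 0, 0, 0, 0, 0, 1397877, 0, 0, 0, 0, 0, 0⟩ ⟨0, 0, 0, 0, 0, 0, 1397877, 0, 0, 0, 0, 0, 0⟩ ⟨689, 2, -6767, 6, 44, 785, 1633217, 0, 0, 0, 0, 0, 0⟩))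
    (.leaf (.box ⟨434, 1, -4374, 6, 39, 491, 1091996, 0, 0, 0, 0, 0, 0⟩ ⟨0, 0, 0, 0, 0, 0, 1229549, 0, 0, 0, 0, 0, 0⟩ ⟨0, 0, 0, 0, 0, 0, 1229549, 0, 0, 0, 0, 0, 0⟩ ⟨0, 0, 0, 0, 0, 0, 1406748, 0, 0, 0, 0, 0, 0⟩ ⟨0, 0, 0, 0, 0, 0, 1406748, 0, 0, 0, 0, 0, 0⟩ ⟨676, 1, -6583, 6, 39, 740, 1643623, 0, 0, 0, 0, 0, 0⟩)))
    (.s3
    (.leaf (.box ⟨415, 2, -3929, 6, 39, 470, 1171356, 0, 0, 0, 0, 0, 0⟩ ⟨478, 2, -4345, 6, 38, 520, 1320236, 0, 0, 0, 0, 0, 0⟩ ⟨478, 2, -4345, 6, 38, 520, 1320236, 0, 0, 0, 0, 0, 0⟩ ⟨563, 2, -5129, 6, 39, 614, 1512735, 0, 0, 0, 0, 0, 0⟩ ⟨563, 2, -5129, 6, 39, 614, 1512735, 0, 0, 0, 0, 0, 0⟩ ⟨638, 2, -5886, 6, 39, 705, 1762229, 0, 0, 0, 0, 0, 0⟩))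
    (.leaf (.box ⟨487, 2, -4510, 6, 36, 541, 1462339, 0, 0, 0, 0, 0, 0⟩ ⟨0, 0, 0, 0, 0, 0, 1621172, 0, 0, 0, 0, 0, 0⟩ ⟨0, 0, 0, 0, 0, 0, 1621172, 0, 0, 0, 0, 0, 0⟩ ⟨0, 0, 0, 0, 0, 0, 1818712, 0, 0, 0, 0, 0, 0⟩ ⟨0, 0, 0, 0, 0, 0, 1818712, 0, 0, 0, 0, 0, 0⟩ ⟨649, 2, -6031, 6, 34, 723, 2071072, 0, 0, 0, 0, 0, 0⟩)))))

/-- A piece of the tree. -/
noncomputable def tree30 : Tree LeafX :=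
  .s1
    (.s3
    (.s3
    (.leaf (.box ⟨500, 1, -2048, 16, 45, 249, 424411, 0, 0, 0, 0, 0, 0⟩ ⟨0, 0, 0, 0, 0, 0, 494689, 0, 0, 0, 0, 0, 0⟩ ⟨0, 0, 0, 0, 0, 0, 494689, 0, 0, 0, 0, 0, 0⟩ ⟨0, 0, 0, 0, 0, 0, 592859, 0, 0, 0, 0, 0, 0⟩ ⟨0, 0, 0, 0, 0, 0, 592859, 0, 0, 0, 0, 0, 0⟩ ⟨507, 1, -2048, 10, 24, 256, 739639, 0, 0, 0, 0, 0, 0⟩))
    (.leaf (.box ⟨528, 1, -2048, 17, 41, 252, 519419, 0, 0, 0, 0, 0, 0⟩ ⟨0, 0, 0, 0, 0, 0, 601518, 0, 0, 0, 0, 0, 0⟩ ⟨0, 0, 0, 0, 0, 0, 601518, 0, 0, 0, 0, 0, 0⟩ ⟨0, 0, 0, 0, 0, 0, 714442, 0, 0, 0, 0, 0, 0⟩ ⟨0, 0, 0, 0, 0, 0, 714442, 0, 0, 0, 0, 0, 0⟩ ⟨513, 0, -2048, 8, 21, 258, 879562, 0, 0, 0, 0, 0, 0⟩)))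
    (.s3
    (.leaf (.box ⟨536, 1, -2048, 10, 28, 259, 668851, 0, 0, 0, 0, 0, 0⟩ ⟨0, 0, 0, 0, 0, 0, 766795, 0, 0, 0, 0, 0, 0⟩ ⟨0, 0, 0, 0, 0, 0, 766795, 0, 0, 0, 0, 0, 0⟩ ⟨0, 0, 0, 0, 0, 0, 898343, 0, 0, 0, 0, 0, 0⟩ ⟨0, 0, 0, 0, 0, 0, 898343, 0, 0, 0, 0, 0, 0⟩ ⟨536, 0, -2048, 7, 17, 261, 1084375, 0, 0, 0, 0, 0, 0⟩))
    (.leaf (.box ⟨559, 0, -2048, 8, 20, 263, 938237, 0, 0, 0, 0, 0, 0⟩ ⟨0, 0, 0, 0, 0, 0, 1056542, 0, 0, 0, 0, 0, 0⟩ ⟨0, 0, 0, 0, 0, 0, 1056542, 0, 0, 0, 0, 0, 0⟩ ⟨0, 0, 0, 0, 0, 0, 1208986, 0, 0, 0, 0, 0, 0⟩ ⟨0, 0, 0, 0, 0, 0, 1208986, 0, 0, 0, 0, 0, 0⟩ ⟨656, 0, -2371, 6, 16, 305, 1412838, 0, 0, 0, 0, 0, 0⟩))))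
    (.s3
    (.leaf (.box ⟨758, -1, -2048, 18, 47, 299, 424429, 0, 0, 0, 0, 0, 0⟩ ⟨0, 0, 0, 0, 0, 0, 494727, 0, 0, 0, 0, 0, 0⟩ ⟨0, 0, 0, 0, 0, 0, 494727, 0, 0, 0, 0, 0, 0⟩ ⟨0, 0, 0, 0, 0, 0, 592934, 0, 0, 0, 0, 0, 0⟩ ⟨0, 0, 0, 0, 0, 0, 592934, 0, 0, 0, 0, 0, 0⟩ ⟨767, -1, -2048, 11, 27, 303, 739787, 0, 0, 0, 0, 0, 0⟩))
    (.leaf (.box ⟨844, -1, -2048, 12, 31, 310, 669115, 0, 0, 0, 0, 0, 0⟩ ⟨0, 0, 0, 0, 0, 0, 767113, 0, 0, 0, 0, 0, 0⟩ ⟨0, 0, 0, 0, 0, 0, 767113, 0, 0, 0, 0, 0, 0⟩ ⟨0, 0, 0, 0, 0, 0, 898742, 0, 0, 0, 0, 0, 0⟩ ⟨0, 0, 0, 0, 0, 0, 898742, 0, 0, 0, 0, 0, 0⟩ ⟨845, -1, -2048, 8, 19, 312, 1084899, 0, 0, 0, 0, 0, 0⟩)))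

/-- A piece of the tree. -/
noncomputable def tree31 : Tree LeafX :=
  .s1
    (.s0
    (.s3
    (.s2
    (.s2
    (.leaf (.box ⟨244, 2, -2048, 7, 54, 284, 483164, 0, 0, 0, 0, 0, 0⟩ ⟨0, 0, 0, 0, 0, 0, 562908, 0, 0, 0, 0, 0, 0⟩ ⟨0, 0, 0, 0, 0, 0, 562908, 0, 0, 0, 0, 0, 0⟩ ⟨0, 0, 0, 0, 0, 0, 674178, 0, 0, 0, 0, 0, 0⟩ ⟨0, 0, 0, 0, 0, 0, 674178, 0, 0, 0, 0, 0, 0⟩ ⟨344, 1, -2918, 6, 45, 407, 840273, 0, 0, 0, 0, 0, 0⟩))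
    (.leaf (.box ⟨226, 1, -2048, 7, 48, 270, 484630, 0, 0, 0, 0, 0, 0⟩ ⟨0, 0, 0, 0, 0, 0, 564677, 0, 0, 0, 0, 0, 0⟩ ⟨0, 0, 0, 0, 0, 0, 564677, 0, 0, 0, 0, 0, 0⟩ ⟨0, 0, 0, 0, 0, 0, 676398, 0, 0, 0, 0, 0, 0⟩ ⟨0, 0, 0, 0, 0, 0, 676398, 0, 0, 0, 0, 0, 0⟩ ⟨367, 1, -3325, 6, 46, 441, 843229, 0, 0, 0, 0, 0, 0⟩)))
    (.leaf (.box ⟨238, 1, -2048, 7, 42, 255, 487240, 0, 0, 0, 0, 0, 0⟩ ⟨0, 0, 0, 0, 0, 0, 567772, 0, 0, 0, 0, 0, 0⟩ ⟨0, 0, 0, 0, 0, 0, 567772, 0, 0, 0, 0, 0, 0⟩ ⟨0, 0, 0, 0, 0, 0, 680195, 0, 0, 0, 0, 0, 0⟩ ⟨0, 0, 0, 0, 0, 0, 680195, 0, 0, 0, 0, 0, 0⟩ ⟨327, 1, -2780, 6, 33, 349, 848132, 0, 0, 0, 0, 0, 0⟩)))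
    (.s2
    (.leaf (.box ⟨292, 1, -2048, 7, 43, 280, 589729, 0, 0, 0, 0, 0, 0⟩ ⟨0, 0, 0, 0, 0, 0, 682697, 0, 0, 0, 0, 0, 0⟩ ⟨0, 0, 0, 0, 0, 0, 682697, 0, 0, 0, 0, 0, 0⟩ ⟨0, 0, 0, 0, 0, 0, 810463, 0, 0, 0, 0, 0, 0⟩ ⟨0, 0, 0, 0, 0, 0, 810463, 0, 0, 0, 0, 0, 0⟩ ⟨386, 1, -2769, 6, 34, 380, 997060, 0, 0, 0, 0, 0, 0⟩))
    (.leaf (.box ⟨253, 1, -2093, 6, 36, 263, 595475, 0, 0, 0, 0, 0, 0⟩ ⟨0, 0, 0, 0, 0, 0, 689453, 0, 0, 0, 0, 0, 0⟩ ⟨0, 0, 0, 0, 0, 0, 689453, 0, 0, 0, 0, 0, 0⟩ ⟨0, 0, 0, 0, 0, 0, 818652, 0, 0, 0, 0, 0, 0⟩ ⟨0, 0, 0, 0, 0, 0, 818652, 0, 0, 0, 0, 0, 0⟩ ⟨413, 1, -3463, 6, 35, 437, 1007439, 0, 0, 0, 0, 0, 0⟩))))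
    (.s3
    (.s2
    (.s1
    (.s3
    (.leaf (.box ⟨205, 2, -2048, 7, 53, 280, 522034, 0, 0, 0, 0, 0, 0⟩ ⟨0, 0, 0, 0, 0, 0, 607975, 0, 0, 0, 0, 0, 0⟩ ⟨0, 0, 0, 0, 0, 0, 607975, 0, 0, 0, 0, 0, 0⟩ ⟨0, 0, 0, 0, 0, 0, 727787, 0, 0, 0, 0, 0, 0⟩ ⟨0, 0, 0, 0, 0, 0, 727787, 0, 0, 0, 0, 0, 0⟩ ⟨271, 2, -2984, 6, 45, 406, 906412, 0, 0, 0, 0, 0, 0⟩))
    (.leaf (.box ⟨192, 2, -2048, 7, 48, 279, 573318, 0, 0, 0, 0, 0, 0⟩ ⟨0, 0, 0, 0, 0, 0, 665812, 0, 0, 0, 0, 0, 0⟩ ⟨0, 0, 0, 0, 0, 0, 665812, 0, 0, 0, 0, 0, 0⟩ ⟨0, 0, 0, 0, 0, 0, 793892, 0, 0, 0, 0, 0, 0⟩ ⟨0, 0, 0, 0, 0, 0, 793892, 0, 0, 0, 0, 0, 0⟩ ⟨297, 2, -3231, 6, 45, 441, 982983, 0, 0, 0, 0, 0, 0⟩)))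
    (.leaf (.box ⟨199, 2, -2048, 7, 55, 294, 515384, 0, 0, 0, 0, 0, 0⟩ ⟨0, 0, 0, 0, 0, 0, 600343, 0, 0, 0, 0, 0, 0⟩ ⟨0, 0, 0, 0, 0, 0, 600343, 0, 0, 0, 0, 0, 0⟩ ⟨0, 0, 0, 0, 0, 0, 718839, 0, 0, 0, 0, 0, 0⟩ ⟨0, 0, 0, 0, 0, 0, 718839, 0, 0, 0, 0, 0, 0⟩ ⟨266, 1, -2647, 6, 41, 383, 895617, 0, 0, 0, 0, 0, 0⟩)))
    (.s3
    (.leaf (.box ⟨213, 1, -2048, 7, 45, 266, 526291, 0, 0, 0, 0, 0, 0⟩ ⟨0, 0, 0, 0, 0, 0, 613181, 0, 0, 0, 0, 0, 0⟩ ⟨0, 0, 0, 0, 0, 0, 613181, 0, 0, 0, 0, 0, 0⟩ ⟨0, 0, 0, 0, 0, 0, 734436, 0, 0, 0, 0, 0, 0⟩ ⟨0, 0, 0, 0, 0, 0, 734436, 0, 0, 0, 0, 0, 0⟩ ⟨320, 1, -2994, 6, 38, 391, 915465, 0, 0, 0, 0, 0, 0⟩))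
    (.leaf (.box ⟨220, 1, -2048, 6, 41, 267, 578651, 0, 0, 0, 0, 0, 0⟩ ⟨0, 0, 0, 0, 0, 0, 672248, 0, 0, 0, 0, 0, 0⟩ ⟨0, 0, 0, 0, 0, 0, 672248, 0, 0, 0, 0, 0, 0⟩ ⟨0, 0, 0, 0, 0, 0, 801966, 0, 0, 0, 0, 0, 0⟩ ⟨0, 0, 0, 0, 0, 0, 801966, 0, 0, 0, 0, 0, 0⟩ ⟨350, 1, -3263, 6, 38, 427, 993713, 0, 0, 0, 0, 0, 0⟩))))
    (.s2
    (.s1
    (.s3
    (.leaf (.box ⟨212, 2, -2241, 6, 48, 306, 636020, 0, 0, 0, 0, 0, 0⟩ ⟨0, 0, 0, 0, 0, 0, 736074, 0, 0, 0, 0, 0, 0⟩ ⟨0, 0, 0, 0, 0, 0, 736074, 0, 0, 0, 0, 0, 0⟩ ⟨0, 0, 0, 0, 0, 0, 873482, 0, 0, 0, 0, 0, 0⟩ ⟨0, 0, 0, 0, 0, 0, 873482, 0, 0, 0, 0, 0, 0⟩ ⟨351, 2, -3775, 6, 48, 517, 1073967, 0, 0, 0, 0, 0, 0⟩))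
    (.leaf (.box ⟨225, 2, -2403, 6, 46, 329, 714431, 0, 0, 0, 0, 0, 0⟩ ⟨0, 0, 0, 0, 0, 0, 823243, 0, 0, 0, 0, 0, 0⟩ ⟨0, 0, 0, 0, 0, 0, 823243, 0, 0, 0, 0, 0, 0⟩ ⟨0, 0, 0, 0, 0, 0, 971154, 0, 0, 0, 0, 0, 0⟩ ⟨0, 0, 0, 0, 0, 0, 971154, 0, 0, 0, 0, 0, 0⟩ ⟨386, 2, -4115, 6, 48, 566, 1183855, 0, 0, 0, 0, 0, 0⟩)))
    (.leaf (.box ⟨211, 2, -2048, 7, 46, 297, 628365, 0, 0, 0, 0, 0, 0⟩ ⟨0, 0, 0, 0, 0, 0, 727331, 0, 0, 0, 0, 0, 0⟩ ⟨0, 0, 0, 0, 0, 0, 727331, 0, 0, 0, 0, 0, 0⟩ ⟨0, 0, 0, 0, 0, 0, 863299, 0, 0, 0, 0, 0, 0⟩ ⟨0, 0, 0, 0, 0, 0, 863299, 0, 0, 0, 0, 0, 0⟩ ⟨314, 1, -3116, 6, 42, 454, 1061789, 0, 0, 0, 0, 0, 0⟩)))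
    (.s2
    (.leaf (.box ⟨197, 1, -2048, 8, 42, 272, 642268, 0, 0, 0, 0, 0, 0⟩ ⟨0, 0, 0, 0, 0, 0, 743559, 0, 0, 0, 0, 0, 0⟩ ⟨0, 0, 0, 0, 0, 0, 743559, 0, 0, 0, 0, 0, 0⟩ ⟨0, 0, 0, 0, 0, 0, 882780, 0, 0, 0, 0, 0, 0⟩ ⟨0, 0, 0, 0, 0, 0, 882780, 0, 0, 0, 0, 0, 0⟩ ⟨410, 1, -4041, 6, 45, 539, 1086145, 0, 0, 0, 0, 0, 0⟩))
    (.leaf (.box ⟨267, 1, -2734, 6, 47, 354, 651747, 0, 0, 0, 0, 0, 0⟩ ⟨0, 0, 0, 0, 0, 0, 754590, 0, 0, 0, 0, 0, 0⟩ ⟨0, 0, 0, 0, 0, 0, 754590, 0, 0, 0, 0, 0, 0⟩ ⟨0, 0, 0, 0, 0, 0, 895968, 0, 0, 0, 0, 0, 0⟩ ⟨0, 0, 0, 0, 0, 0, 895968, 0, 0, 0, 0, 0, 0⟩ ⟨449, 1, -4766, 6, 49, 618, 1102538, 0, 0, 0, 0, 0, 0⟩))))))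
    (.s0
    (.s2
    (.leaf (.box ⟨397, 1, -2048, 11, 56, 321, 479528, 0, 0, 0, 0, 0, 0⟩ ⟨398, 1, -2048, 9, 48, 322, 561323, 0, 0, 0, 0, 0, 0⟩ ⟨398, 1, -2048, 9, 48, 322, 561323, 0, 0, 0, 0, 0, 0⟩ ⟨400, 1, -2048, 8, 40, 323, 673732, 0, 0, 0, 0, 0, 0⟩ ⟨400, 1, -2048, 8, 40, 323, 673732, 0, 0, 0, 0, 0, 0⟩ ⟨426, 1, -2169, 6, 35, 343, 834586, 0, 0, 0, 0, 0, 0⟩))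
    (.leaf (.box ⟨267, 0, -2048, 8, 45, 289, 486269, 0, 0, 0, 0, 0, 0⟩ ⟨0, 0, 0, 0, 0, 0, 566689, 0, 0, 0, 0, 0, 0⟩ ⟨0, 0, 0, 0, 0, 0, 566689, 0, 0, 0, 0, 0, 0⟩ ⟨0, 0, 0, 0, 0, 0, 678978, 0, 0, 0, 0, 0, 0⟩ ⟨0, 0, 0, 0, 0, 0, 678978, 0, 0, 0, 0, 0, 0⟩ ⟨372, 0, -2899, 6, 37, 412, 846763, 0, 0, 0, 0, 0, 0⟩)))
    (.s2
    (.s3
    (.leaf (.box ⟨296, 1, -2048, 10, 59, 323, 510697, 0, 0, 0, 0, 0, 0⟩ ⟨0, 0, 0, 0, 0, 0, 594985, 0, 0, 0, 0, 0, 0⟩ ⟨0, 0, 0, 0, 0, 0, 594985, 0, 0, 0, 0, 0, 0⟩ ⟨0, 0, 0, 0, 0, 0, 712596, 0, 0, 0, 0, 0, 0⟩ ⟨0, 0, 0, 0, 0, 0, 712596, 0, 0, 0, 0, 0, 0⟩ ⟨323, 1, -2210, 6, 37, 352, 888156, 0, 0, 0, 0, 0, 0⟩))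
    (.leaf (.box ⟨310, 1, -2048, 9, 49, 328, 623334, 0, 0, 0, 0, 0, 0⟩ ⟨0, 0, 0, 0, 0, 0, 721600, 0, 0, 0, 0, 0, 0⟩ ⟨0, 0, 0, 0, 0, 0, 721600, 0, 0, 0, 0, 0, 0⟩ ⟨0, 0, 0, 0, 0, 0, 856645, 0, 0, 0, 0, 0, 0⟩ ⟨0, 0, 0, 0, 0, 0, 856645, 0, 0, 0, 0, 0, 0⟩ ⟨418, 1, -2706, 6, 39, 436, 1053875, 0, 0, 0, 0, 0, 0⟩)))
    (.leaf (.box ⟨242, 0, -2048, 8, 47, 298, 524240, 0, 0, 0, 0, 0, 0⟩ ⟨0, 0, 0, 0, 0, 0, 610884, 0, 0, 0, 0, 0, 0⟩ ⟨0, 0, 0, 0, 0, 0, 610884, 0, 0, 0, 0, 0, 0⟩ ⟨0, 0, 0, 0, 0, 0, 731838, 0, 0, 0, 0, 0, 0⟩ ⟨0, 0, 0, 0, 0, 0, 731838, 0, 0, 0, 0, 0, 0⟩ ⟨311, 0, -2648, 6, 35, 388, 912514, 0, 0, 0, 0, 0, 0⟩))))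

/-- A piece of the tree. -/
noncomputable def tree32 : Tree LeafX :=
  .s1
    (.s0
    (.s2
    (.s3
    (.leaf (.box ⟨304, 1, -2094, 6, 35, 289, 757336, 0, 0, 0, 0, 0, 0⟩ ⟨0, 0, 0, 0, 0, 0, 868024, 0, 0, 0, 0, 0, 0⟩ ⟨0, 0, 0, 0, 0, 0, 868024, 0, 0, 0, 0, 0, 0⟩ ⟨0, 0, 0, 0, 0, 0, 1016605, 0, 0, 0, 0, 0, 0⟩ ⟨0, 0, 0, 0, 0, 0, 1016605, 0, 0, 0, 0, 0, 0⟩ ⟨474, 1, -3289, 6, 34, 456, 1226556, 0, 0, 0, 0, 0, 0⟩))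
    (.leaf (.box ⟨435, 1, -2841, 6, 34, 397, 1059490, 0, 0, 0, 0, 0, 0⟩ ⟨0, 0, 0, 0, 0, 0, 1192931, 0, 0, 0, 0, 0, 0⟩ ⟨0, 0, 0, 0, 0, 0, 1192931, 0, 0, 0, 0, 0, 0⟩ ⟨0, 0, 0, 0, 0, 0, 1364829, 0, 0, 0, 0, 0, 0⟩ ⟨0, 0, 0, 0, 0, 0, 1364829, 0, 0, 0, 0, 0, 0⟩ ⟨596, 1, -3947, 6, 32, 553, 1594606, 0, 0, 0, 0, 0, 0⟩)))
    (.leaf (.box ⟨255, 1, -2048, 8, 31, 260, 765394, 0, 0, 0, 0, 0, 0⟩ ⟨0, 0, 0, 0, 0, 0, 877360, 0, 0, 0, 0, 0, 0⟩ ⟨0, 0, 0, 0, 0, 0, 877360, 0, 0, 0, 0, 0, 0⟩ ⟨0, 0, 0, 0, 0, 0, 1027698, 0, 0, 0, 0, 0, 0⟩ ⟨0, 0, 0, 0, 0, 0, 1027698, 0, 0, 0, 0, 0, 0⟩ ⟨516, 1, -4126, 6, 35, 526, 1240209, 0, 0, 0, 0, 0, 0⟩)))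
    (.s3
    (.s2
    (.s3
    (.leaf (.box ⟨283, 2, -2259, 6, 39, 320, 807200, 0, 0, 0, 0, 0, 0⟩ ⟨0, 0, 0, 0, 0, 0, 925041, 0, 0, 0, 0, 0, 0⟩ ⟨0, 0, 0, 0, 0, 0, 925041, 0, 0, 0, 0, 0, 0⟩ ⟨0, 0, 0, 0, 0, 0, 1083169, 0, 0, 0, 0, 0, 0⟩ ⟨0, 0, 0, 0, 0, 0, 1083169, 0, 0, 0, 0, 0, 0⟩ ⟨468, 2, -3730, 6, 40, 530, 1306504, 0, 0, 0, 0, 0, 0⟩))
    (.leaf (.box ⟨361, 2, -2794, 6, 42, 398, 940791, 0, 0, 0, 0, 0, 0⟩ ⟨0, 0, 0, 0, 0, 0, 1070167, 0, 0, 0, 0, 0, 0⟩ ⟨0, 0, 0, 0, 0, 0, 1070167, 0, 0, 0, 0, 0, 0⟩ ⟨0, 0, 0, 0, 0, 0, 1240798, 0, 0, 0, 0, 0, 0⟩ ⟨0, 0, 0, 0, 0, 0, 1240798, 0, 0, 0, 0, 0, 0⟩ ⟨509, 2, -4024, 6, 39, 574, 1476162, 0, 0, 0, 0, 0, 0⟩)))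
    (.leaf (.box ⟨290, 1, -2583, 6, 37, 341, 825192, 0, 0, 0, 0, 0, 0⟩ ⟨0, 0, 0, 0, 0, 0, 945830, 0, 0, 0, 0, 0, 0⟩ ⟨0, 0, 0, 0, 0, 0, 945830, 0, 0, 0, 0, 0, 0⟩ ⟨0, 0, 0, 0, 0, 0, 1107780, 0, 0, 0, 0, 0, 0⟩ ⟨0, 0, 0, 0, 0, 0, 1107780, 0, 0, 0, 0, 0, 0⟩ ⟨474, 1, -4280, 6, 38, 566, 1336648, 0, 0, 0, 0, 0, 0⟩)))
    (.s2
    (.s3
    (.leaf (.box ⟨401, 2, -3095, 6, 39, 443, 1128001, 0, 0, 0, 0, 0, 0⟩ ⟨0, 0, 0, 0, 0, 0, 1269943, 0, 0, 0, 0, 0, 0⟩ ⟨0, 0, 0, 0, 0, 0, 1269943, 0, 0, 0, 0, 0, 0⟩ ⟨0, 0, 0, 0, 0, 0, 1452748, 0, 0, 0, 0, 0, 0⟩ ⟨0, 0, 0, 0, 0, 0, 1452748, 0, 0, 0, 0, 0, 0⟩ ⟨566, 2, -4330, 6, 36, 621, 1697032, 0, 0, 0, 0, 0, 0⟩))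
    (.leaf (.box ⟨520, 2, -4001, 6, 41, 575, 1408238, 0, 0, 0, 0, 0, 0⟩ ⟨0, 0, 0, 0, 0, 0, 1561197, 0, 0, 0, 0, 0, 0⟩ ⟨0, 0, 0, 0, 0, 0, 1561197, 0, 0, 0, 0, 0, 0⟩ ⟨0, 0, 0, 0, 0, 0, 1751433, 0, 0, 0, 0, 0, 0⟩ ⟨0, 0, 0, 0, 0, 0, 1751433, 0, 0, 0, 0, 0, 0⟩ ⟨714, 2, -5443, 6, 39, 783, 1994462, 0, 0, 0, 0, 0, 0⟩)))
    (.leaf (.box ⟨399, 1, -3552, 6, 37, 472, 1154958, 0, 0, 0, 0, 0, 0⟩ ⟨0, 0, 0, 0, 0, 0, 1300441, 0, 0, 0, 0, 0, 0⟩ ⟨0, 0, 0, 0, 0, 0, 1300441, 0, 0, 0, 0, 0, 0⟩ ⟨0, 0, 0, 0, 0, 0, 1487857, 0, 0, 0, 0, 0, 0⟩ ⟨0, 0, 0, 0, 0, 0, 1487857, 0, 0, 0, 0, 0, 0⟩ ⟨597, 1, -5333, 6, 37, 709, 1738389, 0, 0, 0, 0, 0, 0⟩)))))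
    (.s0
    (.leaf (.box ⟨548, 0, -2048, 10, 33, 312, 752714, 0, 0, 0, 0, 0, 0⟩ ⟨0, 0, 0, 0, 0, 0, 862810, 0, 0, 0, 0, 0, 0⟩ ⟨0, 0, 0, 0, 0, 0, 862810, 0, 0, 0, 0, 0, 0⟩ ⟨0, 0, 0, 0, 0, 0, 1010630, 0, 0, 0, 0, 0, 0⟩ ⟨0, 0, 0, 0, 0, 0, 1010630, 0, 0, 0, 0, 0, 0⟩ ⟨575, 0, -2170, 6, 22, 332, 1219570, 0, 0, 0, 0, 0, 0⟩))
    (.s3
    (.s2
    (.leaf (.box ⟨330, 1, -2048, 7, 39, 332, 800491, 0, 0, 0, 0, 0, 0⟩ ⟨0, 0, 0, 0, 0, 0, 917486, 0, 0, 0, 0, 0, 0⟩ ⟨0, 0, 0, 0, 0, 0, 917486, 0, 0, 0, 0, 0, 0⟩ ⟨0, 0, 0, 0, 0, 0, 1074533, 0, 0, 0, 0, 0, 0⟩ ⟨0, 0, 0, 0, 0, 0, 1074533, 0, 0, 0, 0, 0, 0⟩ ⟨482, 1, -2982, 6, 35, 486, 1296446, 0, 0, 0, 0, 0, 0⟩))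
    (.leaf (.box ⟨286, 0, -2362, 6, 36, 349, 824025, 0, 0, 0, 0, 0, 0⟩ ⟨0, 0, 0, 0, 0, 0, 944536, 0, 0, 0, 0, 0, 0⟩ ⟨0, 0, 0, 0, 0, 0, 944536, 0, 0, 0, 0, 0, 0⟩ ⟨0, 0, 0, 0, 0, 0, 1106333, 0, 0, 0, 0, 0, 0⟩ ⟨0, 0, 0, 0, 0, 0, 1106333, 0, 0, 0, 0, 0, 0⟩ ⟨467, 0, -4044, 6, 38, 599, 1335018, 0, 0, 0, 0, 0, 0⟩)))
    (.leaf (.box ⟨405, 1, -2048, 7, 26, 327, 1119859, 0, 0, 0, 0, 0, 0⟩ ⟨0, 0, 0, 0, 0, 0, 1260904, 0, 0, 0, 0, 0, 0⟩ ⟨0, 0, 0, 0, 0, 0, 1260904, 0, 0, 0, 0, 0, 0⟩ ⟨0, 0, 0, 0, 0, 0, 1442596, 0, 0, 0, 0, 0, 0⟩ ⟨0, 0, 0, 0, 0, 0, 1442596, 0, 0, 0, 0, 0, 0⟩ ⟨592, 0, -2741, 6, 23, 429, 1685465, 0, 0, 0, 0, 0, 0⟩))))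

/-- A piece of the tree. -/
noncomputable def tree33 : Tree LeafX :=
  .s1
    (.s0
    (.leaf (.box ⟨654, -2, -2048, 14, 14, 154, 316676, 0, 0, 0, 0, 0, 0⟩ ⟨0, 0, 0, 0, 0, 0, 369070, 0, 0, 0, 0, 0, 0⟩ ⟨0, 0, 0, 0, 0, 0, 369070, 0, 0, 0, 0, 0, 0⟩ ⟨0, 0, 0, 0, 0, 0, 442238, 0, 0, 0, 0, 0, 0⟩ ⟨0, 0, 0, 0, 0, 0, 442238, 0, 0, 0, 0, 0, 0⟩ ⟨680, -1, -2048, 8, 8, 156, 551589, 0, 0, 0, 0, 0, 0⟩))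
    (.s0
    (.leaf (.box ⟨435, -1, -2048, 11, 20, 165, 360327, 0, 0, 0, 0, 0, 0⟩ ⟨0, 0, 0, 0, 0, 0, 419977, 0, 0, 0, 0, 0, 0⟩ ⟨0, 0, 0, 0, 0, 0, 419977, 0, 0, 0, 0, 0, 0⟩ ⟨0, 0, 0, 0, 0, 0, 503294, 0, 0, 0, 0, 0, 0⟩ ⟨0, 0, 0, 0, 0, 0, 503294, 0, 0, 0, 0, 0, 0⟩ ⟨447, 0, -2048, 7, 11, 166, 627850, 0, 0, 0, 0, 0, 0⟩))
    (.s3
    (.leaf (.box ⟨410, 0, -2048, 11, 23, 169, 391057, 0, 0, 0, 0, 0, 0⟩ ⟨0, 0, 0, 0, 0, 0, 455802, 0, 0, 0, 0, 0, 0⟩ ⟨0, 0, 0, 0, 0, 0, 455802, 0, 0, 0, 0, 0, 0⟩ ⟨0, 0, 0, 0, 0, 0, 546240, 0, 0, 0, 0, 0, 0⟩ ⟨0, 0, 0, 0, 0, 0, 546240, 0, 0, 0, 0, 0, 0⟩ ⟨407, 0, -2048, 7, 14, 175, 681448, 0, 0, 0, 0, 0, 0⟩))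
    (.s2
    (.leaf (.box ⟨409, 0, -2048, 9, 20, 172, 621655, 0, 0, 0, 0, 0, 0⟩ ⟨0, 0, 0, 0, 0, 0, 712673, 0, 0, 0, 0, 0, 0⟩ ⟨0, 0, 0, 0, 0, 0, 712673, 0, 0, 0, 0, 0, 0⟩ ⟨0, 0, 0, 0, 0, 0, 834914, 0, 0, 0, 0, 0, 0⟩ ⟨0, 0, 0, 0, 0, 0, 834914, 0, 0, 0, 0, 0, 0⟩ ⟨628, 0, -3246, 6, 16, 281, 1007771, 0, 0, 0, 0, 0, 0⟩))
    (.leaf (.box ⟨369, 0, -2048, 6, 14, 173, 616158, 0, 0, 0, 0, 0, 0⟩ ⟨0, 0, 0, 0, 0, 0, 706377, 0, 0, 0, 0, 0, 0⟩ ⟨0, 0, 0, 0, 0, 0, 706377, 0, 0, 0, 0, 0, 0⟩ ⟨0, 0, 0, 0, 0, 0, 827546, 0, 0, 0, 0, 0, 0⟩ ⟨0, 0, 0, 0, 0, 0, 827546, 0, 0, 0, 0, 0, 0⟩ ⟨638, 0, -3467, 6, 15, 294, 998893, 0, 0, 0, 0, 0, 0⟩))))))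
    (.leaf (.box ⟨1400, -6, -2048, 25, 23, 234, 314509, 0, 0, 0, 0, 0, 0⟩ ⟨0, 0, 0, 0, 0, 0, 366555, 0, 0, 0, 0, 0, 0⟩ ⟨0, 0, 0, 0, 0, 0, 366555, 0, 0, 0, 0, 0, 0⟩ ⟨0, 0, 0, 0, 0, 0, 439240, 0, 0, 0, 0, 0, 0⟩ ⟨0, 0, 0, 0, 0, 0, 439240, 0, 0, 0, 0, 0, 0⟩ ⟨1371, -3, -2048, 15, 14, 247, 547881, 0, 0, 0, 0, 0, 0⟩))

/-- A piece of the tree. -/
noncomputable def tree34 : Tree LeafX :=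
  .s1
    (.s0
    (.s3
    (.s3
    (.leaf (.box ⟨230, 1, -2048, 8, 27, 174, 437380, 0, 0, 0, 0, 0, 0⟩ ⟨0, 0, 0, 0, 0, 0, 509694, 0, 0, 0, 0, 0, 0⟩ ⟨0, 0, 0, 0, 0, 0, 509694, 0, 0, 0, 0, 0, 0⟩ ⟨0, 0, 0, 0, 0, 0, 610655, 0, 0, 0, 0, 0, 0⟩ ⟨0, 0, 0, 0, 0, 0, 610655, 0, 0, 0, 0, 0, 0⟩ ⟨286, 1, -2562, 6, 19, 219, 761493, 0, 0, 0, 0, 0, 0⟩))
    (.leaf (.box ⟨239, 1, -2048, 7, 22, 175, 534691, 0, 0, 0, 0, 0, 0⟩ ⟨0, 0, 0, 0, 0, 0, 619096, 0, 0, 0, 0, 0, 0⟩ ⟨0, 0, 0, 0, 0, 0, 619096, 0, 0, 0, 0, 0, 0⟩ ⟨0, 0, 0, 0, 0, 0, 735144, 0, 0, 0, 0, 0, 0⟩ ⟨0, 0, 0, 0, 0, 0, 735144, 0, 0, 0, 0, 0, 0⟩ ⟨377, 1, -3299, 6, 21, 282, 904733, 0, 0, 0, 0, 0, 0⟩)))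
    (.s2
    (.s3
    (.leaf (.box ⟨339, 1, -3007, 6, 27, 260, 688280, 0, 0, 0, 0, 0, 0⟩ ⟨0, 0, 0, 0, 0, 0, 788962, 0, 0, 0, 0, 0, 0⟩ ⟨0, 0, 0, 0, 0, 0, 788962, 0, 0, 0, 0, 0, 0⟩ ⟨0, 0, 0, 0, 0, 0, 924146, 0, 0, 0, 0, 0, 0⟩ ⟨0, 0, 0, 0, 0, 0, 924146, 0, 0, 0, 0, 0, 0⟩ ⟨497, 1, -4350, 6, 24, 378, 1115235, 0, 0, 0, 0, 0, 0⟩))
    (.leaf (.box ⟨451, 1, -3875, 6, 25, 336, 964321, 0, 0, 0, 0, 0, 0⟩ ⟨0, 0, 0, 0, 0, 0, 1085824, 0, 0, 0, 0, 0, 0⟩ ⟨0, 0, 0, 0, 0, 0, 1085824, 0, 0, 0, 0, 0, 0⟩ ⟨0, 0, 0, 0, 0, 0, 1242359, 0, 0, 0, 0, 0, 0⟩ ⟨0, 0, 0, 0, 0, 0, 1242359, 0, 0, 0, 0, 0, 0⟩ ⟨730, 1, -6285, 6, 27, 546, 1451629, 0, 0, 0, 0, 0, 0⟩)))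
    (.leaf (.box ⟨291, 0, -2780, 6, 22, 235, 688885, 0, 0, 0, 0, 0, 0⟩ ⟨0, 0, 0, 0, 0, 0, 789667, 0, 0, 0, 0, 0, 0⟩ ⟨0, 0, 0, 0, 0, 0, 789667, 0, 0, 0, 0, 0, 0⟩ ⟨0, 0, 0, 0, 0, 0, 924991, 0, 0, 0, 0, 0, 0⟩ ⟨0, 0, 0, 0, 0, 0, 924991, 0, 0, 0, 0, 0, 0⟩ ⟨458, 0, -4366, 6, 21, 370, 1116285, 0, 0, 0, 0, 0, 0⟩))))
    (.s3
    (.s3
    (.s0
    (.leaf (.box ⟨193, 1, -2048, 7, 29, 183, 473323, 0, 0, 0, 0, 0, 0⟩ ⟨0, 0, 0, 0, 0, 0, 551484, 0, 0, 0, 0, 0, 0⟩ ⟨0, 0, 0, 0, 0, 0, 551484, 0, 0, 0, 0, 0, 0⟩ ⟨0, 0, 0, 0, 0, 0, 660564, 0, 0, 0, 0, 0, 0⟩ ⟨0, 0, 0, 0, 0, 0, 660564, 0, 0, 0, 0, 0, 0⟩ ⟨294, 1, -3033, 6, 25, 272, 823433, 0, 0, 0, 0, 0, 0⟩))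
    (.leaf (.box ⟨190, 1, -2048, 7, 30, 189, 492902, 0, 0, 0, 0, 0, 0⟩ ⟨0, 0, 0, 0, 0, 0, 574255, 0, 0, 0, 0, 0, 0⟩ ⟨0, 0, 0, 0, 0, 0, 574255, 0, 0, 0, 0, 0, 0⟩ ⟨0, 0, 0, 0, 0, 0, 687771, 0, 0, 0, 0, 0, 0⟩ ⟨0, 0, 0, 0, 0, 0, 687771, 0, 0, 0, 0, 0, 0⟩ ⟨296, 1, -3144, 6, 27, 291, 857222, 0, 0, 0, 0, 0, 0⟩)))
    (.s0
    (.leaf (.box ⟨203, 1, -2080, 6, 24, 186, 577991, 0, 0, 0, 0, 0, 0⟩ ⟨0, 0, 0, 0, 0, 0, 669146, 0, 0, 0, 0, 0, 0⟩ ⟨0, 0, 0, 0, 0, 0, 669146, 0, 0, 0, 0, 0, 0⟩ ⟨0, 0, 0, 0, 0, 0, 794435, 0, 0, 0, 0, 0, 0⟩ ⟨0, 0, 0, 0, 0, 0, 794435, 0, 0, 0, 0, 0, 0⟩ ⟨361, 1, -3682, 6, 25, 330, 977451, 0, 0, 0, 0, 0, 0⟩))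
    (.leaf (.box ⟨224, 1, -2282, 6, 28, 211, 601616, 0, 0, 0, 0, 0, 0⟩ ⟨234, 1, -2434, 6, 26, 225, 699642, 0, 0, 0, 0, 0, 0⟩ ⟨234, 1, -2434, 6, 26, 225, 699642, 0, 0, 0, 0, 0, 0⟩ ⟨285, 1, -3012, 6, 27, 279, 831523, 0, 0, 0, 0, 0, 0⟩ ⟨285, 1, -3012, 6, 27, 279, 831523, 0, 0, 0, 0, 0, 0⟩ ⟨359, 1, -3821, 6, 28, 354, 1017158, 0, 0, 0, 0, 0, 0⟩))))
    (.s3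
    (.s0
    (.leaf (.box ⟨283, 1, -2867, 6, 26, 257, 742616, 0, 0, 0, 0, 0, 0⟩ ⟨0, 0, 0, 0, 0, 0, 851183, 0, 0, 0, 0, 0, 0⟩ ⟨0, 0, 0, 0, 0, 0, 851183, 0, 0, 0, 0, 0, 0⟩ ⟨0, 0, 0, 0, 0, 0, 996928, 0, 0, 0, 0, 0, 0⟩ ⟨0, 0, 0, 0, 0, 0, 996928, 0, 0, 0, 0, 0, 0⟩ ⟨396, 1, -4061, 6, 23, 365, 1202895, 0, 0, 0, 0, 0, 0⟩))
    (.leaf (.box ⟨271, 1, -2804, 6, 27, 260, 772634, 0, 0, 0, 0, 0, 0⟩ ⟨0, 0, 0, 0, 0, 0, 885559, 0, 0, 0, 0, 0, 0⟩ ⟨0, 0, 0, 0, 0, 0, 885559, 0, 0, 0, 0, 0, 0⟩ ⟨0, 0, 0, 0, 0, 0, 1037144, 0, 0, 0, 0, 0, 0⟩ ⟨0, 0, 0, 0, 0, 0, 1037144, 0, 0, 0, 0, 0, 0⟩ ⟨441, 1, -4577, 6, 27, 424, 1251340, 0, 0, 0, 0, 0, 0⟩)))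
    (.s0
    (.leaf (.box ⟨400, 1, -3985, 6, 26, 358, 1039392, 0, 0, 0, 0, 0, 0⟩ ⟨0, 0, 0, 0, 0, 0, 1170319, 0, 0, 0, 0, 0, 0⟩ ⟨0, 0, 0, 0, 0, 0, 1170319, 0, 0, 0, 0, 0, 0⟩ ⟨0, 0, 0, 0, 0, 0, 1338982, 0, 0, 0, 0, 0, 0⟩ ⟨0, 0, 0, 0, 0, 0, 1338982, 0, 0, 0, 0, 0, 0⟩ ⟨586, 1, -5812, 6, 25, 522, 1564446, 0, 0, 0, 0, 0, 0⟩))
    (.leaf (.box ⟨404, 1, -4074, 6, 28, 378, 1080914, 0, 0, 0, 0, 0, 0⟩ ⟨0, 0, 0, 0, 0, 0, 1217054, 0, 0, 0, 0, 0, 0⟩ ⟨0, 0, 0, 0, 0, 0, 1217054, 0, 0, 0, 0, 0, 0⟩ ⟨0, 0, 0, 0, 0, 0, 1392429, 0, 0, 0, 0, 0, 0⟩ ⟨0, 0, 0, 0, 0, 0, 1392429, 0, 0, 0, 0, 0, 0⟩ ⟨503, 1, -5194, 6, 24, 482, 1626855, 0, 0, 0, 0, 0, 0⟩))))))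
    (.s0
    (.leaf (.box ⟨255, 0, -2048, 9, 27, 197, 426374, 0, 0, 0, 0, 0, 0⟩ ⟨0, 0, 0, 0, 0, 0, 496944, 0, 0, 0, 0, 0, 0⟩ ⟨0, 0, 0, 0, 0, 0, 496944, 0, 0, 0, 0, 0, 0⟩ ⟨0, 0, 0, 0, 0, 0, 595506, 0, 0, 0, 0, 0, 0⟩ ⟨0, 0, 0, 0, 0, 0, 595506, 0, 0, 0, 0, 0, 0⟩ ⟨305, 0, -2485, 6, 19, 240, 742838, 0, 0, 0, 0, 0, 0⟩))
    (.s3
    (.s2
    (.leaf (.box ⟨240, 1, -2048, 8, 31, 210, 461383, 0, 0, 0, 0, 0, 0⟩ ⟨0, 0, 0, 0, 0, 0, 537669, 0, 0, 0, 0, 0, 0⟩ ⟨0, 0, 0, 0, 0, 0, 537669, 0, 0, 0, 0, 0, 0⟩ ⟨0, 0, 0, 0, 0, 0, 644178, 0, 0, 0, 0, 0, 0⟩ ⟨0, 0, 0, 0, 0, 0, 644178, 0, 0, 0, 0, 0, 0⟩ ⟨336, 0, -3035, 6, 28, 310, 803308, 0, 0, 0, 0, 0, 0⟩))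
    (.leaf (.box ⟨201, 0, -2048, 7, 28, 205, 465804, 0, 0, 0, 0, 0, 0⟩ ⟨0, 0, 0, 0, 0, 0, 542872, 0, 0, 0, 0, 0, 0⟩ ⟨0, 0, 0, 0, 0, 0, 542872, 0, 0, 0, 0, 0, 0⟩ ⟨0, 0, 0, 0, 0, 0, 650497, 0, 0, 0, 0, 0, 0⟩ ⟨0, 0, 0, 0, 0, 0, 650497, 0, 0, 0, 0, 0, 0⟩ ⟨310, 0, -3186, 6, 25, 320, 811347, 0, 0, 0, 0, 0, 0⟩)))
    (.leaf (.box ⟨268, 0, -2360, 6, 23, 240, 725500, 0, 0, 0, 0, 0, 0⟩ ⟨0, 0, 0, 0, 0, 0, 831637, 0, 0, 0, 0, 0, 0⟩ ⟨0, 0, 0, 0, 0, 0, 831637, 0, 0, 0, 0, 0, 0⟩ ⟨0, 0, 0, 0, 0, 0, 974151, 0, 0, 0, 0, 0, 0⟩ ⟨0, 0, 0, 0, 0, 0, 974151, 0, 0, 0, 0, 0, 0⟩ ⟨403, 0, -3633, 6, 22, 371, 1175608, 0, 0, 0, 0, 0, 0⟩))))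

/-- A piece of the tree. -/
noncomputable def tree35 : Tree LeafX :=
  .s0
    (.s3
    (.s3
    (.s0
    (.leaf (.box ⟨180, 1, -2048, 7, 32, 196, 514250, 0, 0, 0, 0, 0, 0⟩ ⟨0, 0, 0, 0, 0, 0, 599080, 0, 0, 0, 0, 0, 0⟩ ⟨0, 0, 0, 0, 0, 0, 599080, 0, 0, 0, 0, 0, 0⟩ ⟨0, 0, 0, 0, 0, 0, 717424, 0, 0, 0, 0, 0, 0⟩ ⟨0, 0, 0, 0, 0, 0, 717424, 0, 0, 0, 0, 0, 0⟩ ⟨281, 1, -3154, 6, 28, 302, 894033, 0, 0, 0, 0, 0, 0⟩))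
    (.leaf (.box ⟨179, 1, -2048, 7, 33, 202, 537472, 0, 0, 0, 0, 0, 0⟩ ⟨0, 0, 0, 0, 0, 0, 626078, 0, 0, 0, 0, 0, 0⟩ ⟨0, 0, 0, 0, 0, 0, 626078, 0, 0, 0, 0, 0, 0⟩ ⟨0, 0, 0, 0, 0, 0, 749665, 0, 0, 0, 0, 0, 0⟩ ⟨0, 0, 0, 0, 0, 0, 749665, 0, 0, 0, 0, 0, 0⟩ ⟨258, 1, -2880, 6, 26, 285, 934044, 0, 0, 0, 0, 0, 0⟩)))
    (.s0
    (.leaf (.box ⟨206, 1, -2256, 6, 29, 216, 627369, 0, 0, 0, 0, 0, 0⟩ ⟨0, 0, 0, 0, 0, 0, 726231, 0, 0, 0, 0, 0, 0⟩ ⟨0, 0, 0, 0, 0, 0, 726231, 0, 0, 0, 0, 0, 0⟩ ⟨0, 0, 0, 0, 0, 0, 862077, 0, 0, 0, 0, 0, 0⟩ ⟨0, 0, 0, 0, 0, 0, 862077, 0, 0, 0, 0, 0, 0⟩ ⟨349, 1, -3820, 6, 29, 366, 1060439, 0, 0, 0, 0, 0, 0⟩))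
    (.leaf (.box ⟨190, 1, -2129, 6, 28, 210, 655337, 0, 0, 0, 0, 0, 0⟩ ⟨0, 0, 0, 0, 0, 0, 758557, 0, 0, 0, 0, 0, 0⟩ ⟨0, 0, 0, 0, 0, 0, 758557, 0, 0, 0, 0, 0, 0⟩ ⟨0, 0, 0, 0, 0, 0, 900372, 0, 0, 0, 0, 0, 0⟩ ⟨0, 0, 0, 0, 0, 0, 900372, 0, 0, 0, 0, 0, 0⟩ ⟨319, 1, -3482, 6, 27, 344, 1107403, 0, 0, 0, 0, 0, 0⟩))))
    (.s3
    (.s0
    (.leaf (.box ⟨249, 1, -2684, 6, 27, 257, 805285, 0, 0, 0, 0, 0, 0⟩ ⟨0, 0, 0, 0, 0, 0, 922948, 0, 0, 0, 0, 0, 0⟩ ⟨0, 0, 0, 0, 0, 0, 922948, 0, 0, 0, 0, 0, 0⟩ ⟨0, 0, 0, 0, 0, 0, 1080878, 0, 0, 0, 0, 0, 0⟩ ⟨0, 0, 0, 0, 0, 0, 1080878, 0, 0, 0, 0, 0, 0⟩ ⟨403, 1, -4357, 6, 27, 417, 1304014, 0, 0, 0, 0, 0, 0⟩))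
    (.leaf (.box ⟨247, 1, -2716, 6, 28, 268, 840719, 0, 0, 0, 0, 0, 0⟩ ⟨0, 0, 0, 0, 0, 0, 963520, 0, 0, 0, 0, 0, 0⟩ ⟨0, 0, 0, 0, 0, 0, 963520, 0, 0, 0, 0, 0, 0⟩ ⟨0, 0, 0, 0, 0, 0, 1128330, 0, 0, 0, 0, 0, 0⟩ ⟨0, 0, 0, 0, 0, 0, 1128330, 0, 0, 0, 0, 0, 0⟩ ⟨427, 1, -4701, 6, 30, 464, 1361156, 0, 0, 0, 0, 0, 0⟩)))
    (.s0
    (.leaf (.box ⟨383, 1, -4044, 6, 29, 387, 1126021, 0, 0, 0, 0, 0, 0⟩ ⟨0, 0, 0, 0, 0, 0, 1267824, 0, 0, 0, 0, 0, 0⟩ ⟨0, 0, 0, 0, 0, 0, 1267824, 0, 0, 0, 0, 0, 0⟩ ⟨0, 0, 0, 0, 0, 0, 1450486, 0, 0, 0, 0, 0, 0⟩ ⟨0, 0, 0, 0, 0, 0, 1450486, 0, 0, 0, 0, 0, 0⟩ ⟨531, 1, -5632, 6, 27, 539, 1694643, 0, 0, 0, 0, 0, 0⟩))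
    (.leaf (.box ⟨359, 1, -3885, 6, 29, 384, 1174914, 0, 0, 0, 0, 0, 0⟩ ⟨0, 0, 0, 0, 0, 0, 1322852, 0, 0, 0, 0, 0, 0⟩ ⟨0, 0, 0, 0, 0, 0, 1322852, 0, 0, 0, 0, 0, 0⟩ ⟨0, 0, 0, 0, 0, 0, 1513410, 0, 0, 0, 0, 0, 0⟩ ⟨0, 0, 0, 0, 0, 0, 1513410, 0, 0, 0, 0, 0, 0⟩ ⟨503, 1, -5548, 6, 27, 548, 1768107, 0, 0, 0, 0, 0, 0⟩)))))
    (.s3
    (.s3
    (.leaf (.box ⟨212, 2, -2048, 8, 35, 213, 562674, 0, 0, 0, 0, 0, 0⟩ ⟨0, 0, 0, 0, 0, 0, 655374, 0, 0, 0, 0, 0, 0⟩ ⟨0, 0, 0, 0, 0, 0, 655374, 0, 0, 0, 0, 0, 0⟩ ⟨0, 0, 0, 0, 0, 0, 784642, 0, 0, 0, 0, 0, 0⟩ ⟨0, 0, 0, 0, 0, 0, 784642, 0, 0, 0, 0, 0, 0⟩ ⟨276, 1, -2739, 6, 27, 284, 977433, 0, 0, 0, 0, 0, 0⟩))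
    (.leaf (.box ⟨219, 2, -2048, 7, 29, 213, 685657, 0, 0, 0, 0, 0, 0⟩ ⟨0, 0, 0, 0, 0, 0, 793598, 0, 0, 0, 0, 0, 0⟩ ⟨0, 0, 0, 0, 0, 0, 793598, 0, 0, 0, 0, 0, 0⟩ ⟨0, 0, 0, 0, 0, 0, 941873, 0, 0, 0, 0, 0, 0⟩ ⟨0, 0, 0, 0, 0, 0, 941873, 0, 0, 0, 0, 0, 0⟩ ⟨310, 1, -2940, 6, 24, 305, 1158286, 0, 0, 0, 0, 0, 0⟩)))
    (.s3
    (.leaf (.box ⟨251, 1, -2370, 6, 26, 246, 879088, 0, 0, 0, 0, 0, 0⟩ ⟨0, 0, 0, 0, 0, 0, 1007448, 0, 0, 0, 0, 0, 0⟩ ⟨0, 0, 0, 0, 0, 0, 1007448, 0, 0, 0, 0, 0, 0⟩ ⟨0, 0, 0, 0, 0, 0, 1179703, 0, 0, 0, 0, 0, 0⟩ ⟨0, 0, 0, 0, 0, 0, 1179703, 0, 0, 0, 0, 0, 0⟩ ⟨409, 1, -3941, 6, 27, 408, 1423009, 0, 0, 0, 0, 0, 0⟩))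
    (.leaf (.box ⟨317, 1, -3026, 6, 25, 313, 1227794, 0, 0, 0, 0, 0, 0⟩ ⟨0, 0, 0, 0, 0, 0, 1382365, 0, 0, 0, 0, 0, 0⟩ ⟨0, 0, 0, 0, 0, 0, 1382365, 0, 0, 0, 0, 0, 0⟩ ⟨0, 0, 0, 0, 0, 0, 1581461, 0, 0, 0, 0, 0, 0⟩ ⟨0, 0, 0, 0, 0, 0, 1581461, 0, 0, 0, 0, 0, 0⟩ ⟨541, 1, -5097, 6, 27, 528, 1847554, 0, 0, 0, 0, 0, 0⟩))))

/-- A piece of the tree. -/
noncomputable def tree36 : Tree LeafX :=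
  .s3
    (.s0
    (.s2
    (.s3
    (.s2
    (.leaf (.box ⟨212, 1, -2238, 6, 40, 243, 500984, 0, 0, 0, 0, 0, 0⟩ ⟨0, 0, 0, 0, 0, 0, 583754, 0, 0, 0, 0, 0, 0⟩ ⟨0, 0, 0, 0, 0, 0, 583754, 0, 0, 0, 0, 0, 0⟩ ⟨0, 0, 0, 0, 0, 0, 699286, 0, 0, 0, 0, 0, 0⟩ ⟨0, 0, 0, 0, 0, 0, 699286, 0, 0, 0, 0, 0, 0⟩ ⟨379, 1, -4110, 6, 42, 447, 871831, 0, 0, 0, 0, 0, 0⟩))
    (.leaf (.box ⟨228, 1, -2434, 6, 40, 260, 506033, 0, 0, 0, 0, 0, 0⟩ ⟨0, 0, 0, 0, 0, 0, 589673, 0, 0, 0, 0, 0, 0⟩ ⟨0, 0, 0, 0, 0, 0, 589673, 0, 0, 0, 0, 0, 0⟩ ⟨0, 0, 0, 0, 0, 0, 706436, 0, 0, 0, 0, 0, 0⟩ ⟨0, 0, 0, 0, 0, 0, 706436, 0, 0, 0, 0, 0, 0⟩ ⟨343, 1, -3666, 6, 35, 393, 880858, 0, 0, 0, 0, 0, 0⟩)))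
    (.leaf (.box ⟨205, 1, -2048, 8, 32, 221, 612046, 0, 0, 0, 0, 0, 0⟩ ⟨0, 0, 0, 0, 0, 0, 708609, 0, 0, 0, 0, 0, 0⟩ ⟨0, 0, 0, 0, 0, 0, 708609, 0, 0, 0, 0, 0, 0⟩ ⟨0, 0, 0, 0, 0, 0, 841348, 0, 0, 0, 0, 0, 0⟩ ⟨0, 0, 0, 0, 0, 0, 841348, 0, 0, 0, 0, 0, 0⟩ ⟨387, 1, -3803, 6, 32, 412, 1035279, 0, 0, 0, 0, 0, 0⟩)))
    (.leaf (.box ⟨194, 0, -2048, 6, 31, 217, 512388, 0, 0, 0, 0, 0, 0⟩ ⟨0, 0, 0, 0, 0, 0, 597112, 0, 0, 0, 0, 0, 0⟩ ⟨0, 0, 0, 0, 0, 0, 597112, 0, 0, 0, 0, 0, 0⟩ ⟨0, 0, 0, 0, 0, 0, 715403, 0, 0, 0, 0, 0, 0⟩ ⟨0, 0, 0, 0, 0, 0, 715403, 0, 0, 0, 0, 0, 0⟩ ⟨301, 0, -3256, 6, 28, 346, 892141, 0, 0, 0, 0, 0, 0⟩)))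
    (.s3
    (.leaf (.box ⟨197, 1, -2048, 8, 35, 232, 548017, 0, 0, 0, 0, 0, 0⟩ ⟨0, 0, 0, 0, 0, 0, 638471, 0, 0, 0, 0, 0, 0⟩ ⟨0, 0, 0, 0, 0, 0, 638471, 0, 0, 0, 0, 0, 0⟩ ⟨0, 0, 0, 0, 0, 0, 764688, 0, 0, 0, 0, 0, 0⟩ ⟨0, 0, 0, 0, 0, 0, 764688, 0, 0, 0, 0, 0, 0⟩ ⟨258, 1, -2649, 6, 26, 301, 953103, 0, 0, 0, 0, 0, 0⟩))
    (.leaf (.box ⟨196, 1, -2048, 7, 29, 232, 668928, 0, 0, 0, 0, 0, 0⟩ ⟨0, 0, 0, 0, 0, 0, 774388, 0, 0, 0, 0, 0, 0⟩ ⟨0, 0, 0, 0, 0, 0, 774388, 0, 0, 0, 0, 0, 0⟩ ⟨0, 0, 0, 0, 0, 0, 919322, 0, 0, 0, 0, 0, 0⟩ ⟨0, 0, 0, 0, 0, 0, 919322, 0, 0, 0, 0, 0, 0⟩ ⟨302, 1, -3095, 6, 26, 352, 1131000, 0, 0, 0, 0, 0, 0⟩))))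
    (.s0
    (.s3
    (.leaf (.box ⟨230, 1, -2237, 6, 23, 240, 786726, 0, 0, 0, 0, 0, 0⟩ ⟨0, 0, 0, 0, 0, 0, 901771, 0, 0, 0, 0, 0, 0⟩ ⟨0, 0, 0, 0, 0, 0, 901771, 0, 0, 0, 0, 0, 0⟩ ⟨0, 0, 0, 0, 0, 0, 1056226, 0, 0, 0, 0, 0, 0⟩ ⟨0, 0, 0, 0, 0, 0, 1056226, 0, 0, 0, 0, 0, 0⟩ ⟨372, 1, -3612, 6, 23, 389, 1274524, 0, 0, 0, 0, 0, 0⟩))
    (.leaf (.box ⟨309, 1, -2940, 6, 22, 317, 1101628, 0, 0, 0, 0, 0, 0⟩ ⟨0, 0, 0, 0, 0, 0, 1240411, 0, 0, 0, 0, 0, 0⟩ ⟨0, 0, 0, 0, 0, 0, 1240411, 0, 0, 0, 0, 0, 0⟩ ⟨0, 0, 0, 0, 0, 0, 1419200, 0, 0, 0, 0, 0, 0⟩ ⟨0, 0, 0, 0, 0, 0, 1419200, 0, 0, 0, 0, 0, 0⟩ ⟨521, 1, -4990, 6, 25, 538, 1658210, 0, 0, 0, 0, 0, 0⟩)))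
    (.s3
    (.s2
    (.leaf (.box ⟨304, 1, -3134, 6, 37, 359, 859100, 0, 0, 0, 0, 0, 0⟩ ⟨0, 0, 0, 0, 0, 0, 984666, 0, 0, 0, 0, 0, 0⟩ ⟨0, 0, 0, 0, 0, 0, 984666, 0, 0, 0, 0, 0, 0⟩ ⟨0, 0, 0, 0, 0, 0, 1153219, 0, 0, 0, 0, 0, 0⟩ ⟨0, 0, 0, 0, 0, 0, 1153219, 0, 0, 0, 0, 0, 0⟩ ⟨490, 1, -5074, 6, 37, 582, 1391396, 0, 0, 0, 0, 0, 0⟩))
    (.leaf (.box ⟨320, 1, -3463, 6, 35, 391, 890800, 0, 0, 0, 0, 0, 0⟩ ⟨0, 0, 0, 0, 0, 0, 1021073, 0, 0, 0, 0, 0, 0⟩ ⟨0, 0, 0, 0, 0, 0, 1021073, 0, 0, 0, 0, 0, 0⟩ ⟨0, 0, 0, 0, 0, 0, 1195975, 0, 0, 0, 0, 0, 0⟩ ⟨0, 0, 0, 0, 0, 0, 1195975, 0, 0, 0, 0, 0, 0⟩ ⟨511, 1, -5741, 6, 36, 648, 1443181, 0, 0, 0, 0, 0, 0⟩)))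
    (.s2
    (.leaf (.box ⟨269, 1, -2856, 6, 26, 327, 1201929, 0, 0, 0, 0, 0, 0⟩ ⟨0, 0, 0, 0, 0, 0, 1353313, 0, 0, 0, 0, 0, 0⟩ ⟨0, 0, 0, 0, 0, 0, 1353313, 0, 0, 0, 0, 0, 0⟩ ⟨0, 0, 0, 0, 0, 0, 1548325, 0, 0, 0, 0, 0, 0⟩ ⟨0, 0, 0, 0, 0, 0, 1548325, 0, 0, 0, 0, 0, 0⟩ ⟨562, 1, -5674, 6, 32, 653, 1809001, 0, 0, 0, 0, 0, 0⟩))
    (.leaf (.box ⟨464, 1, -5079, 6, 37, 574, 1247506, 0, 0, 0, 0, 0, 0⟩ ⟨0, 0, 0, 0, 0, 0, 1404671, 0, 0, 0, 0, 0, 0⟩ ⟨0, 0, 0, 0, 0, 0, 1404671, 0, 0, 0, 0, 0, 0⟩ ⟨0, 0, 0, 0, 0, 0, 1607144, 0, 0, 0, 0, 0, 0⟩ ⟨0, 0, 0, 0, 0, 0, 1607144, 0, 0, 0, 0, 0, 0⟩ ⟨643, 1, -7207, 6, 35, 815, 1877817, 0, 0, 0, 0, 0, 0⟩)))))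

/-- A piece of the tree. -/
noncomputable def tree37 : Tree LeafX :=
  .s0
    (.leaf (.box ⟨444, -2, -2048, 15, 31, 240, 421901, 0, 0, 0, 0, 0, 0⟩ ⟨0, 0, 0, 0, 0, 0, 491795, 0, 0, 0, 0, 0, 0⟩ ⟨0, 0, 0, 0, 0, 0, 491795, 0, 0, 0, 0, 0, 0⟩ ⟨0, 0, 0, 0, 0, 0, 589446, 0, 0, 0, 0, 0, 0⟩ ⟨0, 0, 0, 0, 0, 0, 589446, 0, 0, 0, 0, 0, 0⟩ ⟨468, -1, -2048, 9, 19, 248, 735481, 0, 0, 0, 0, 0, 0⟩))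
    (.s3
    (.s0
    (.leaf (.box ⟨381, -1, -2048, 15, 41, 248, 494365, 0, 0, 0, 0, 0, 0⟩ ⟨0, 0, 0, 0, 0, 0, 576207, 0, 0, 0, 0, 0, 0⟩ ⟨0, 0, 0, 0, 0, 0, 576207, 0, 0, 0, 0, 0, 0⟩ ⟨0, 0, 0, 0, 0, 0, 690521, 0, 0, 0, 0, 0, 0⟩ ⟨0, 0, 0, 0, 0, 0, 690521, 0, 0, 0, 0, 0, 0⟩ ⟨340, 0, -2048, 7, 20, 259, 861419, 0, 0, 0, 0, 0, 0⟩))
    (.s1
    (.s3
    (.leaf (.box ⟨190, 0, -2048, 8, 36, 255, 542219, 0, 0, 0, 0, 0, 0⟩ ⟨0, 0, 0, 0, 0, 0, 631875, 0, 0, 0, 0, 0, 0⟩ ⟨0, 0, 0, 0, 0, 0, 631875, 0, 0, 0, 0, 0, 0⟩ ⟨0, 0, 0, 0, 0, 0, 757052, 0, 0, 0, 0, 0, 0⟩ ⟨0, 0, 0, 0, 0, 0, 757052, 0, 0, 0, 0, 0, 0⟩ ⟨236, 0, -2453, 6, 25, 307, 944079, 0, 0, 0, 0, 0, 0⟩))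
    (.leaf (.box ⟨199, 0, -2048, 7, 30, 256, 662876, 0, 0, 0, 0, 0, 0⟩ ⟨0, 0, 0, 0, 0, 0, 767496, 0, 0, 0, 0, 0, 0⟩ ⟨0, 0, 0, 0, 0, 0, 767496, 0, 0, 0, 0, 0, 0⟩ ⟨0, 0, 0, 0, 0, 0, 911328, 0, 0, 0, 0, 0, 0⟩ ⟨0, 0, 0, 0, 0, 0, 911328, 0, 0, 0, 0, 0, 0⟩ ⟨280, 0, -3006, 6, 26, 377, 1121501, 0, 0, 0, 0, 0, 0⟩)))
    (.leaf (.box ⟨200, -1, -2048, 8, 38, 283, 541929, 0, 0, 0, 0, 0, 0⟩ ⟨0, 0, 0, 0, 0, 0, 631576, 0, 0, 0, 0, 0, 0⟩ ⟨0, 0, 0, 0, 0, 0, 631576, 0, 0, 0, 0, 0, 0⟩ ⟨0, 0, 0, 0, 0, 0, 756759, 0, 0, 0, 0, 0, 0⟩ ⟨0, 0, 0, 0, 0, 0, 756759, 0, 0, 0, 0, 0, 0⟩ ⟨247, -1, -2555, 6, 27, 355, 943834, 0, 0, 0, 0, 0, 0⟩))))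
    (.s0
    (.leaf (.box ⟨369, -1, -2048, 8, 22, 255, 778783, 0, 0, 0, 0, 0, 0⟩ ⟨0, 0, 0, 0, 0, 0, 892750, 0, 0, 0, 0, 0, 0⟩ ⟨0, 0, 0, 0, 0, 0, 892750, 0, 0, 0, 0, 0, 0⟩ ⟨0, 0, 0, 0, 0, 0, 1045790, 0, 0, 0, 0, 0, 0⟩ ⟨0, 0, 0, 0, 0, 0, 1045790, 0, 0, 0, 0, 0, 0⟩ ⟨465, 0, -2733, 6, 19, 349, 1262155, 0, 0, 0, 0, 0, 0⟩))
    (.s1
    (.s3
    (.leaf (.box ⟨221, 0, -2293, 6, 26, 288, 852426, 0, 0, 0, 0, 0, 0⟩ ⟨0, 0, 0, 0, 0, 0, 977110, 0, 0, 0, 0, 0, 0⟩ ⟨0, 0, 0, 0, 0, 0, 977110, 0, 0, 0, 0, 0, 0⟩ ⟨0, 0, 0, 0, 0, 0, 1144517, 0, 0, 0, 0, 0, 0⟩ ⟨0, 0, 0, 0, 0, 0, 1144517, 0, 0, 0, 0, 0, 0⟩ ⟨388, 0, -4065, 6, 29, 512, 1381146, 0, 0, 0, 0, 0, 0⟩))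
    (.leaf (.box ⟨300, 0, -3019, 6, 25, 381, 1194136, 0, 0, 0, 0, 0, 0⟩ ⟨0, 0, 0, 0, 0, 0, 1344590, 0, 0, 0, 0, 0, 0⟩ ⟨0, 0, 0, 0, 0, 0, 1344590, 0, 0, 0, 0, 0, 0⟩ ⟨0, 0, 0, 0, 0, 0, 1538420, 0, 0, 0, 0, 0, 0⟩ ⟨0, 0, 0, 0, 0, 0, 1538420, 0, 0, 0, 0, 0, 0⟩ ⟨459, 0, -4782, 6, 26, 605, 1797547, 0, 0, 0, 0, 0, 0⟩)))
    (.leaf (.box ⟨229, -1, -2162, 6, 26, 303, 852707, 0, 0, 0, 0, 0, 0⟩ ⟨0, 0, 0, 0, 0, 0, 977456, 0, 0, 0, 0, 0, 0⟩ ⟨0, 0, 0, 0, 0, 0, 977456, 0, 0, 0, 0, 0, 0⟩ ⟨0, 0, 0, 0, 0, 0, 1144961, 0, 0, 0, 0, 0, 0⟩ ⟨0, 0, 0, 0, 0, 0, 1144961, 0, 0, 0, 0, 0, 0⟩ ⟨366, -1, -3653, 6, 27, 513, 1381749, 0, 0, 0, 0, 0, 0⟩)))))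

/-- A piece of the tree. -/
noncomputable def tree38 : Tree LeafX :=
  .s0
    (.s0
    (.leaf (.box ⟨2048, -4, -594, 7, -4, 42, 195784, 0, 0, 0, 0, 0, 0⟩ ⟨0, 0, 0, 0, 0, 0, 228157, 0, 0, 0, 0, 0, 0⟩ ⟨0, 0, 0, 0, 0, 0, 228157, 0, 0, 0, 0, 0, 0⟩ ⟨0, 0, 0, 0, 0, 0, 273355, 0, 0, 0, 0, 0, 0⟩ ⟨0, 0, 0, 0, 0, 0, 273355, 0, 0, 0, 0, 0, 0⟩ ⟨2875, -4, -818, 6, -3, 58, 340884, 0, 0, 0, 0, 0, 0⟩))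
    (.leaf (.box ⟨2048, -11, -1830, 16, -3, 74, 209022, 0, 0, 0, 0, 0, 0⟩ ⟨0, 0, 0, 0, 0, 0, 243585, 0, 0, 0, 0, 0, 0⟩ ⟨0, 0, 0, 0, 0, 0, 243585, 0, 0, 0, 0, 0, 0⟩ ⟨0, 0, 0, 0, 0, 0, 291842, 0, 0, 0, 0, 0, 0⟩ ⟨0, 0, 0, 0, 0, 0, 291842, 0, 0, 0, 0, 0, 0⟩ ⟨2048, -6, -1821, 9, -2, 73, 363944, 0, 0, 0, 0, 0, 0⟩)))
    (.s0
    (.leaf (.box ⟨1486, -6, -2048, 16, 1, 77, 231902, 0, 0, 0, 0, 0, 0⟩ ⟨0, 0, 0, 0, 0, 0, 270248, 0, 0, 0, 0, 0, 0⟩ ⟨0, 0, 0, 0, 0, 0, 270248, 0, 0, 0, 0, 0, 0⟩ ⟨0, 0, 0, 0, 0, 0, 323787, 0, 0, 0, 0, 0, 0⟩ ⟨0, 0, 0, 0, 0, 0, 323787, 0, 0, 0, 0, 0, 0⟩ ⟨1476, -4, -2048, 9, 1, 77, 403779, 0, 0, 0, 0, 0, 0⟩))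
    (.s1
    (.leaf (.box ⟨688, -1, -2048, 9, 9, 80, 274452, 0, 0, 0, 0, 0, 0⟩ ⟨0, 0, 0, 0, 0, 0, 319833, 0, 0, 0, 0, 0, 0⟩ ⟨0, 0, 0, 0, 0, 0, 319833, 0, 0, 0, 0, 0, 0⟩ ⟨0, 0, 0, 0, 0, 0, 383193, 0, 0, 0, 0, 0, 0⟩ ⟨0, 0, 0, 0, 0, 0, 383193, 0, 0, 0, 0, 0, 0⟩ ⟨831, 0, -2498, 6, 6, 98, 477859, 0, 0, 0, 0, 0, 0⟩))
    (.leaf (.box ⟨799, -3, -2048, 13, 4, 101, 280826, 0, 0, 0, 0, 0, 0⟩ ⟨0, 0, 0, 0, 0, 0, 327312, 0, 0, 0, 0, 0, 0⟩ ⟨0, 0, 0, 0, 0, 0, 327312, 0, 0, 0, 0, 0, 0⟩ ⟨0, 0, 0, 0, 0, 0, 392240, 0, 0, 0, 0, 0, 0⟩ ⟨0, 0, 0, 0, 0, 0, 392240, 0, 0, 0, 0, 0, 0⟩ ⟨822, -2, -2048, 8, 2, 102, 489301, 0, 0, 0, 0, 0, 0⟩))))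

/-- A piece of the tree. -/
noncomputable def tree39 : Tree LeafX :=
  .leaf (.box ⟨2474, -2, 202, 6, -6, 60, 161504, 0, 0, 0, 0, 10874514800, 1419539021⟩ ⟨0, 0, 0, 0, 0, 0, 188208, 0, 0, 0, 0, 0, 0⟩ ⟨0, 0, 0, 0, 0, 0, 188208, 0, 0, 0, 0, 0, 0⟩ ⟨0, 0, 0, 0, 0, 0, 225490, 0, 0, 0, 0, 0, 0⟩ ⟨0, 0, 0, 0, 0, 0, 225490, 0, 0, 0, 0, 0, 0⟩ ⟨4393, -2, 372, 6, -6, 106, 281192, 0, 0, 0, 0, 33866992144, 4467678574⟩)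

/-- A piece of the tree. -/
noncomputable def tree40 : Tree LeafX :=
  .leaf (.box ⟨3468, -1, -4674, 6, -19, 259, 184643, 0, 0, 0, 0, 0, 0⟩ ⟨0, 0, 0, 0, 0, 0, 215175, 0, 0, 0, 0, 0, 0⟩ ⟨0, 0, 0, 0, 0, 0, 215175, 0, 0, 0, 0, 0, 0⟩ ⟨0, 0, 0, 0, 0, 0, 257803, 0, 0, 0, 0, 0, 0⟩ ⟨0, 0, 0, 0, 0, 0, 257803, 0, 0, 0, 0, 0, 0⟩ ⟨5765, -1, -7664, 6, -18, 430, 321493, 0, 0, 0, 0, 0, 0⟩)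

/-- A piece of the tree. -/
noncomputable def tree41 : Tree LeafX :=
  .leaf (.box ⟨3581, -1, -4573, 6, -31, 326, 168467, 0, 0, 0, 0, 432463247652, 48315970588⟩ ⟨0, 0, 0, 0, 0, 0, 196324, 0, 0, 0, 0, 0, 0⟩ ⟨0, 0, 0, 0, 0, 0, 196324, 0, 0, 0, 0, 0, 0⟩ ⟨0, 0, 0, 0, 0, 0, 235217, 0, 0, 0, 0, 0, 0⟩ ⟨0, 0, 0, 0, 0, 0, 235217, 0, 0, 0, 0, 0, 0⟩ ⟨5613, -1, -6994, 6, -27, 505, 293327, 0, 0, 0, 0, 1037651377095, 116091160378⟩)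

/-- A piece of the tree. -/
noncomputable def tree42 : Tree LeafX :=
  .s2
    (.leaf (.box ⟨3707, -1, -12000, 6, -47, 563, 180019, 0, 0, 0, 0, 0, 0⟩ ⟨0, 0, 0, 0, 0, 0, 209786, 0, 0, 0, 0, 0, 0⟩ ⟨0, 0, 0, 0, 0, 0, 209786, 0, 0, 0, 0, 0, 0⟩ ⟨0, 0, 0, 0, 0, 0, 251347, 0, 0, 0, 0, 0, 0⟩ ⟨0, 0, 0, 0, 0, 0, 251347, 0, 0, 0, 0, 0, 0⟩ ⟨4509, -1, -14142, 6, -32, 669, 313444, 0, 0, 0, 0, 0, 0⟩))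
    (.leaf (.box ⟨3201, -1, -8799, 6, -36, 377, 172132, 0, 0, 0, 0, 567438313704, 64642471511⟩ ⟨0, 0, 0, 0, 0, 0, 200595, 0, 0, 0, 0, 0, 0⟩ ⟨0, 0, 0, 0, 0, 0, 200595, 0, 0, 0, 0, 0, 0⟩ ⟨0, 0, 0, 0, 0, 0, 240335, 0, 0, 0, 0, 0, 0⟩ ⟨0, 0, 0, 0, 0, 0, 240335, 0, 0, 0, 0, 0, 0⟩ ⟨7236, -1, -19681, 6, -46, 850, 299711, 0, 0, 0, 0, 2887166335433, 330466409019⟩))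

/-- A piece of the tree. -/
noncomputable def tree43 : Tree LeafX :=
  .leaf (.box ⟨2668, -1, -11800, 6, -39, 475, 182039, 0, 0, 0, 0, 0, 0⟩ ⟨0, 0, 0, 0, 0, 0, 212139, 0, 0, 0, 0, 0, 0⟩ ⟨0, 0, 0, 0, 0, 0, 212139, 0, 0, 0, 0, 0, 0⟩ ⟨0, 0, 0, 0, 0, 0, 254163, 0, 0, 0, 0, 0, 0⟩ ⟨0, 0, 0, 0, 0, 0, 254163, 0, 0, 0, 0, 0, 0⟩ ⟨4745, -1, -19963, 6, -38, 811, 316950, 0, 0, 0, 0, 0, 0⟩)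

/-- A piece of the tree. -/
noncomputable def tree44 : Tree LeafX :=
  .leaf (.box ⟨2994, -1, -11939, 6, -42, 450, 174205, 0, 0, 0, 0, 735206689611, 82354576282⟩ ⟨0, 0, 0, 0, 0, 0, 203009, 0, 0, 0, 0, 0, 0⟩ ⟨0, 0, 0, 0, 0, 0, 203009, 0, 0, 0, 0, 0, 0⟩ ⟨0, 0, 0, 0, 0, 0, 243224, 0, 0, 0, 0, 0, 0⟩ ⟨0, 0, 0, 0, 0, 0, 243224, 0, 0, 0, 0, 0, 0⟩ ⟨4249, -1, -16872, 6, -34, 641, 303307, 0, 0, 0, 0, 1494111597209, 169222518172⟩)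

/-- A piece of the tree. -/
noncomputable def tree45 : Tree LeafX :=
  .s3
    (.leaf (.box ⟨3384, -1, -14119, 6, -39, 520, 212986, 0, 0, 0, 0, 982272539681, 109540939658⟩ ⟨0, 0, 0, 0, 0, 0, 246609, 0, 0, 0, 0, 0, 0⟩ ⟨0, 0, 0, 0, 0, 0, 246609, 0, 0, 0, 0, 0, 0⟩ ⟨0, 0, 0, 0, 0, 0, 292836, 0, 0, 0, 0, 0, 0⟩ ⟨0, 0, 0, 0, 0, 0, 292836, 0, 0, 0, 0, 0, 0⟩ ⟨3152, -1, -13656, 6, -23, 507, 360391, 0, 0, 0, 0, 935184341892, 105344207015⟩))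
    (.s1
    (.s2
    (.leaf (.box ⟨2901, 0, -18596, 6, -48, 678, 230574, 0, 0, 0, 0, 0, 0⟩ ⟨0, 0, 0, 0, 0, 0, 266419, 0, 0, 0, 0, 0, 0⟩ ⟨0, 0, 0, 0, 0, 0, 266419, 0, 0, 0, 0, 0, 0⟩ ⟨0, 0, 0, 0, 0, 0, 315461, 0, 0, 0, 0, 0, 0⟩ ⟨0, 0, 0, 0, 0, 0, 315461, 0, 0, 0, 0, 0, 0⟩ ⟨6459, 0, -42925, 6, -66, 1577, 386629, 0, 0, 0, 0, 0, 0⟩))
    (.leaf (.box ⟨2811, 0, -16648, 6, -43, 573, 225535, 0, 0, 0, 0, 1273552881604, 120515877316⟩ ⟨0, 0, 0, 0, 0, 0, 260597, 0, 0, 0, 0, 0, 0⟩ ⟨0, 0, 0, 0, 0, 0, 260597, 0, 0, 0, 0, 0, 0⟩ ⟨0, 0, 0, 0, 0, 0, 308567, 0, 0, 0, 0, 0, 0⟩ ⟨0, 0, 0, 0, 0, 0, 308567, 0, 0, 0, 0, 0, 0⟩ ⟨4750, 0, -29590, 6, -46, 1026, 378180, 0, 0, 0, 0, 4095195476774, 391544878662⟩)))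
    (.leaf (.box ⟨3364, -2, -19886, 6, -51, 748, 232684, 0, 0, 0, 0, 2118309587558, 0⟩ ⟨0, 0, 0, 0, 0, 0, 268876, 0, 0, 0, 0, 0, 0⟩ ⟨0, 0, 0, 0, 0, 0, 268876, 0, 0, 0, 0, 0, 0⟩ ⟨0, 0, 0, 0, 0, 0, 318401, 0, 0, 0, 0, 0, 0⟩ ⟨0, 0, 0, 0, 0, 0, 318401, 0, 0, 0, 0, 0, 0⟩ ⟨7410, -2, -43211, 6, -66, 1635, 390287, 0, 0, 0, 0, 10135047914112, 0⟩)))

/-- A piece of the tree. -/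
noncomputable def tree46 : Tree LeafX :=
  .s3
    (.s2
    (.leaf (.box ⟨3664, -1, -19935, 6, -48, 741, 245010, 0, 0, 0, 0, 0, 0⟩ ⟨0, 0, 0, 0, 0, 0, 282441, 0, 0, 0, 0, 0, 0⟩ ⟨0, 0, 0, 0, 0, 0, 282441, 0, 0, 0, 0, 0, 0⟩ ⟨0, 0, 0, 0, 0, 0, 333370, 0, 0, 0, 0, 0, 0⟩ ⟨0, 0, 0, 0, 0, 0, 333370, 0, 0, 0, 0, 0, 0⟩ ⟨5973, -1, -32682, 6, -48, 1223, 406706, 0, 0, 0, 0, 0, 0⟩))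
    (.s3
    (.s2
    (.leaf (.box ⟨3901, -1, -21417, 6, -52, 769, 242324, 0, 0, 0, 0, 0, 0⟩ ⟨0, 0, 0, 0, 0, 0, 279344, 0, 0, 0, 0, 0, 0⟩ ⟨0, 0, 0, 0, 0, 0, 279344, 0, 0, 0, 0, 0, 0⟩ ⟨0, 0, 0, 0, 0, 0, 329715, 0, 0, 0, 0, 0, 0⟩ ⟨0, 0, 0, 0, 0, 0, 329715, 0, 0, 0, 0, 0, 0⟩ ⟨6177, -1, -35817, 6, -52, 1293, 402246, 0, 0, 0, 0, 0, 0⟩))
    (.s3
    (.s1
    (.leaf (.box ⟨4304, 0, -31030, 6, -74, 1046, 239658, 0, 0, 0, 0, 4250545357328, 395693951638⟩ ⟨0, 0, 0, 0, 0, 0, 276271, 0, 0, 0, 0, 0, 0⟩ ⟨0, 0, 0, 0, 0, 0, 276271, 0, 0, 0, 0, 0, 0⟩ ⟨0, 0, 0, 0, 0, 0, 326087, 0, 0, 0, 0, 0, 0⟩ ⟨0, 0, 0, 0, 0, 0, 326087, 0, 0, 0, 0, 0, 0⟩ ⟨6746, 0, -48728, 6, -71, 1654, 397821, 0, 0, 0, 0, 10654726971606, 1003362310529⟩))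
    (.leaf (.box ⟨3413, -2, -27153, 6, -64, 980, 247281, 0, 0, 0, 0, 3666719388538, 0⟩ ⟨0, 0, 0, 0, 0, 0, 285077, 0, 0, 0, 0, 0, 0⟩ ⟨0, 0, 0, 0, 0, 0, 285077, 0, 0, 0, 0, 0, 0⟩ ⟨0, 0, 0, 0, 0, 0, 336511, 0, 0, 0, 0, 0, 0⟩ ⟨0, 0, 0, 0, 0, 0, 336511, 0, 0, 0, 0, 0, 0⟩ ⟨7539, -2, -60462, 6, -86, 2192, 410590, 0, 0, 0, 0, 18374736147897, 0⟩)))
    (.s1
    (.leaf (.box ⟨3499, 0, -24846, 6, -59, 836, 243469, 0, 0, 0, 0, 2714811566076, 252846140755⟩ ⟨0, 0, 0, 0, 0, 0, 280488, 0, 0, 0, 0, 0, 0⟩ ⟨0, 0, 0, 0, 0, 0, 280488, 0, 0, 0, 0, 0, 0⟩ ⟨0, 0, 0, 0, 0, 0, 330782, 0, 0, 0, 0, 0, 0⟩ ⟨0, 0, 0, 0, 0, 0, 330782, 0, 0, 0, 0, 0, 0⟩ ⟨6426, 0, -44756, 6, -64, 1515, 403053, 0, 0, 0, 0, 8939402493942, 841476691006⟩))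
    (.leaf (.box ⟨3015, -2, -23502, 6, -54, 846, 251220, 0, 0, 0, 0, 2732177164932, 0⟩ ⟨0, 0, 0, 0, 0, 0, 289436, 0, 0, 0, 0, 0, 0⟩ ⟨0, 0, 0, 0, 0, 0, 289436, 0, 0, 0, 0, 0, 0⟩ ⟨0, 0, 0, 0, 0, 0, 341365, 0, 0, 0, 0, 0, 0⟩ ⟨0, 0, 0, 0, 0, 0, 341365, 0, 0, 0, 0, 0, 0⟩ ⟨7608, -2, -61174, 6, -86, 2213, 416000, 0, 0, 0, 0, 18728816678487, 0⟩)))))
    (.s2
    (.leaf (.box ⟨3784, -1, -20926, 6, -49, 748, 250155, 0, 0, 0, 0, 0, 0⟩ ⟨0, 0, 0, 0, 0, 0, 288004, 0, 0, 0, 0, 0, 0⟩ ⟨0, 0, 0, 0, 0, 0, 288004, 0, 0, 0, 0, 0, 0⟩ ⟨0, 0, 0, 0, 0, 0, 339347, 0, 0, 0, 0, 0, 0⟩ ⟨0, 0, 0, 0, 0, 0, 339347, 0, 0, 0, 0, 0, 0⟩ ⟨6004, -1, -33526, 6, -47, 1205, 412968, 0, 0, 0, 0, 0, 0⟩))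
    (.s3
    (.s1
    (.leaf (.box ⟨3142, 0, -21887, 6, -51, 734, 247404, 0, 0, 0, 0, 2092904856409, 194814457978⟩ ⟨0, 0, 0, 0, 0, 0, 284837, 0, 0, 0, 0, 0, 0⟩ ⟨0, 0, 0, 0, 0, 0, 284837, 0, 0, 0, 0, 0, 0⟩ ⟨0, 0, 0, 0, 0, 0, 335615, 0, 0, 0, 0, 0, 0⟩ ⟨0, 0, 0, 0, 0, 0, 335615, 0, 0, 0, 0, 0, 0⟩ ⟨6944, 0, -48455, 6, -68, 1637, 408426, 0, 0, 0, 0, 10435502056138, 982265180846⟩))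
    (.leaf (.box ⟨2713, -2, -20773, 6, -47, 746, 255287, 0, 0, 0, 0, 2124127768441, 0⟩ ⟨0, 0, 0, 0, 0, 0, 293931, 0, 0, 0, 0, 0, 0⟩ ⟨0, 0, 0, 0, 0, 0, 293931, 0, 0, 0, 0, 0, 0⟩ ⟨0, 0, 0, 0, 0, 0, 346361, 0, 0, 0, 0, 0, 0⟩ ⟨0, 0, 0, 0, 0, 0, 346361, 0, 0, 0, 0, 0, 0⟩ ⟨4770, -2, -38119, 6, -52, 1376, 421555, 0, 0, 0, 0, 7239493904349, 0⟩)))
    (.s1
    (.leaf (.box ⟨2860, 0, -19605, 6, -45, 656, 251467, 0, 0, 0, 0, 1671671829784, 155434983079⟩ ⟨0, 0, 0, 0, 0, 0, 289321, 0, 0, 0, 0, 0, 0⟩ ⟨0, 0, 0, 0, 0, 0, 289321, 0, 0, 0, 0, 0, 0⟩ ⟨0, 0, 0, 0, 0, 0, 340590, 0, 0, 0, 0, 0, 0⟩ ⟨0, 0, 0, 0, 0, 0, 340590, 0, 0, 0, 0, 0, 0⟩ ⟨5048, 0, -36531, 6, -51, 1231, 413943, 0, 0, 0, 0, 5901628691166, 555206363067⟩))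
    (.leaf (.box ⟨5000, -2, -40079, 6, -89, 1437, 259488, 0, 0, 0, 0, 7881288872203, 0⟩ ⟨0, 0, 0, 0, 0, 0, 298568, 0, 0, 0, 0, 0, 0⟩ ⟨0, 0, 0, 0, 0, 0, 298568, 0, 0, 0, 0, 0, 0⟩ ⟨0, 0, 0, 0, 0, 0, 351505, 0, 0, 0, 0, 0, 0⟩ ⟨0, 0, 0, 0, 0, 0, 351505, 0, 0, 0, 0, 0, 0⟩ ⟨4187, -2, -32748, 6, -44, 1179, 427260, 0, 0, 0, 0, 5314473337194, 0⟩)))))))
    (.s2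
    (.leaf (.box ⟨4072, -1, -21927, 6, -49, 808, 261376, 0, 0, 0, 0, 0, 0⟩ ⟨0, 0, 0, 0, 0, 0, 300514, 0, 0, 0, 0, 0, 0⟩ ⟨0, 0, 0, 0, 0, 0, 300514, 0, 0, 0, 0, 0, 0⟩ ⟨0, 0, 0, 0, 0, 0, 353437, 0, 0, 0, 0, 0, 0⟩ ⟨0, 0, 0, 0, 0, 0, 353437, 0, 0, 0, 0, 0, 0⟩ ⟨4525, -1, -24543, 6, -33, 910, 428983, 0, 0, 0, 0, 0, 0⟩))
    (.s3
    (.s2
    (.leaf (.box ⟨2331, -1, -13203, 6, -29, 470, 258510, 0, 0, 0, 0, 0, 0⟩ ⟨0, 0, 0, 0, 0, 0, 297219, 0, 0, 0, 0, 0, 0⟩ ⟨0, 0, 0, 0, 0, 0, 297219, 0, 0, 0, 0, 0, 0⟩ ⟨0, 0, 0, 0, 0, 0, 349561, 0, 0, 0, 0, 0, 0⟩ ⟨0, 0, 0, 0, 0, 0, 349561, 0, 0, 0, 0, 0, 0⟩ ⟨6320, -1, -36675, 6, -50, 1312, 424278, 0, 0, 0, 0, 0, 0⟩))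
    (.s3
    (.s1
    (.leaf (.box ⟨4528, 0, -32344, 6, -72, 1081, 255667, 0, 0, 0, 0, 4538693867945, 423415936007⟩ ⟨0, 0, 0, 0, 0, 0, 293950, 0, 0, 0, 0, 0, 0⟩ ⟨0, 0, 0, 0, 0, 0, 293950, 0, 0, 0, 0, 0, 0⟩ ⟨0, 0, 0, 0, 0, 0, 345716, 0, 0, 0, 0, 0, 0⟩ ⟨0, 0, 0, 0, 0, 0, 345716, 0, 0, 0, 0, 0, 0⟩ ⟨4681, 0, -33279, 6, -46, 1119, 419611, 0, 0, 0, 0, 4875617629468, 459360699055⟩))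
    (.leaf (.box ⟨4854, -2, -37787, 6, -82, 1352, 263829, 0, 0, 0, 0, 6975309660514, 0⟩ ⟨0, 0, 0, 0, 0, 0, 303353, 0, 0, 0, 0, 0, 0⟩ ⟨0, 0, 0, 0, 0, 0, 303353, 0, 0, 0, 0, 0, 0⟩ ⟨0, 0, 0, 0, 0, 0, 356804, 0, 0, 0, 0, 0, 0⟩ ⟨0, 0, 0, 0, 0, 0, 356804, 0, 0, 0, 0, 0, 0⟩ ⟨3895, -2, -29907, 6, -40, 1074, 433121, 0, 0, 0, 0, 4408987509369, 0⟩)))
    (.s1
    (.leaf (.box ⟨4337, 0, -31052, 6, -68, 1035, 260009, 0, 0, 0, 0, 4160540208963, 387085164599⟩ ⟨0, 0, 0, 0, 0, 0, 298729, 0, 0, 0, 0, 0, 0⟩ ⟨0, 0, 0, 0, 0, 0, 298729, 0, 0, 0, 0, 0, 0⟩ ⟨0, 0, 0, 0, 0, 0, 350998, 0, 0, 0, 0, 0, 0⟩ ⟨0, 0, 0, 0, 0, 0, 350998, 0, 0, 0, 0, 0, 0⟩ ⟨4100, 0, -28560, 6, -38, 958, 425437, 0, 0, 0, 0, 3573189054474, 335896008406⟩))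
    (.leaf (.box ⟨4969, -2, -39718, 6, -85, 1417, 268318, 0, 0, 0, 0, 7661713342133, 0⟩ ⟨0, 0, 0, 0, 0, 0, 308294, 0, 0, 0, 0, 0, 0⟩ ⟨0, 0, 0, 0, 0, 0, 308294, 0, 0, 0, 0, 0, 0⟩ ⟨0, 0, 0, 0, 0, 0, 362266, 0, 0, 0, 0, 0, 0⟩ ⟨0, 0, 0, 0, 0, 0, 362266, 0, 0, 0, 0, 0, 0⟩ ⟨8131, -2, -65350, 6, -86, 2342, 439145, 0, 0, 0, 0, 20963968831298, 0⟩)))))
    (.s0
    (.s2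
    (.leaf (.box ⟨3752, -1, -27481, 6, -62, 1012, 267442, 0, 0, 0, 0, 0, 0⟩ ⟨0, 0, 0, 0, 0, 0, 307042, 0, 0, 0, 0, 0, 0⟩ ⟨0, 0, 0, 0, 0, 0, 307042, 0, 0, 0, 0, 0, 0⟩ ⟨0, 0, 0, 0, 0, 0, 360408, 0, 0, 0, 0, 0, 0⟩ ⟨0, 0, 0, 0, 0, 0, 360408, 0, 0, 0, 0, 0, 0⟩ ⟨4442, -1, -32540, 6, -45, 1205, 436225, 0, 0, 0, 0, 0, 0⟩))
    (.leaf (.box ⟨3936, -1, -27118, 6, -61, 970, 264500, 0, 0, 0, 0, 3628604385842, 391018736690⟩ ⟨0, 0, 0, 0, 0, 0, 303665, 0, 0, 0, 0, 0, 0⟩ ⟨0, 0, 0, 0, 0, 0, 303665, 0, 0, 0, 0, 0, 0⟩ ⟨0, 0, 0, 0, 0, 0, 356443, 0, 0, 0, 0, 0, 0⟩ ⟨0, 0, 0, 0, 0, 0, 356443, 0, 0, 0, 0, 0, 0⟩ ⟨4554, -1, -30789, 6, -43, 1107, 431426, 0, 0, 0, 0, 4731231709565, 514246940940⟩)))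
    (.leaf (.box ⟨2480, -1, -15896, 6, -33, 535, 266132, 0, 0, 0, 0, 1047673521264, 115215452791⟩ ⟨0, 0, 0, 0, 0, 0, 305539, 0, 0, 0, 0, 0, 0⟩ ⟨0, 0, 0, 0, 0, 0, 305539, 0, 0, 0, 0, 0, 0⟩ ⟨0, 0, 0, 0, 0, 0, 358644, 0, 0, 0, 0, 0, 0⟩ ⟨0, 0, 0, 0, 0, 0, 358644, 0, 0, 0, 0, 0, 0⟩ ⟨5414, -1, -35131, 6, -45, 1189, 434093, 0, 0, 0, 0, 5182438618246, 574175646117⟩)))))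

/-- A piece of the tree. -/
noncomputable def tree47 : Tree LeafX :=
  .s1
    (.leaf (.box ⟨4307, 0, -15282, 6, -31, 530, 273925, 0, 0, 0, 0, 1056497301890, 129045819811⟩ ⟨0, 0, 0, 0, 0, 0, 314000, 0, 0, 0, 0, 0, 0⟩ ⟨0, 0, 0, 0, 0, 0, 314000, 0, 0, 0, 0, 0, 0⟩ ⟨0, 0, 0, 0, 0, 0, 367809, 0, 0, 0, 0, 0, 0⟩ ⟨0, 0, 0, 0, 0, 0, 367809, 0, 0, 0, 0, 0, 0⟩ ⟨6877, 0, -23801, 6, -30, 830, 443874, 0, 0, 0, 0, 2592539477086, 317843112917⟩))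
    (.leaf (.box ⟨4371, -2, -17737, 6, -34, 649, 282751, 0, 0, 0, 0, 1571305303158, 0⟩ ⟨0, 0, 0, 0, 0, 0, 324133, 0, 0, 0, 0, 0, 0⟩ ⟨0, 0, 0, 0, 0, 0, 324133, 0, 0, 0, 0, 0, 0⟩ ⟨0, 0, 0, 0, 0, 0, 379703, 0, 0, 0, 0, 0, 0⟩ ⟨0, 0, 0, 0, 0, 0, 379703, 0, 0, 0, 0, 0, 0⟩ ⟨7385, -2, -28725, 6, -34, 1054, 458269, 0, 0, 0, 0, 4145418239221, 0⟩))

/-- A piece of the tree. -/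
noncomputable def tree48 : Tree LeafX :=
  .leaf (.box ⟨2099, -3, -2965, 6, -13, 159, 178215, 0, 0, 0, 0, 76866275659, 0⟩ ⟨0, 0, 0, 0, 0, 0, 207713, 0, 0, 0, 0, 0, 0⟩ ⟨0, 0, 0, 0, 0, 0, 207713, 0, 0, 0, 0, 0, 0⟩ ⟨0, 0, 0, 0, 0, 0, 248911, 0, 0, 0, 0, 0, 0⟩ ⟨0, 0, 0, 0, 0, 0, 248911, 0, 0, 0, 0, 0, 0⟩ ⟨3674, -3, -5095, 6, -13, 275, 310496, 0, 0, 0, 0, 229925701534, 0⟩)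

/-- A piece of the tree. -/
noncomputable def tree49 : Tree LeafX :=
  .leaf (.box ⟨2048, -5, -1004, 7, -9, 82, 176062, 0, 0, 0, 0, 0, 0⟩ ⟨0, 0, 0, 0, 0, 0, 205219, 0, 0, 0, 0, 0, 0⟩ ⟨0, 0, 0, 0, 0, 0, 205219, 0, 0, 0, 0, 0, 0⟩ ⟨0, 0, 0, 0, 0, 0, 245950, 0, 0, 0, 0, 0, 0⟩ ⟨0, 0, 0, 0, 0, 0, 245950, 0, 0, 0, 0, 0, 0⟩ ⟨3180, -5, -1556, 6, -8, 127, 306851, 0, 0, 0, 0, 0, 0⟩)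

/-- A piece of the tree. -/
noncomputable def tree50 : Tree LeafX :=
  .leaf (.box ⟨1031, -3, -2695, 6, -3, 86, 192202, 0, 0, 0, 0, 0, 0⟩ ⟨0, 0, 0, 0, 0, 0, 223984, 0, 0, 0, 0, 0, 0⟩ ⟨0, 0, 0, 0, 0, 0, 223984, 0, 0, 0, 0, 0, 0⟩ ⟨0, 0, 0, 0, 0, 0, 268359, 0, 0, 0, 0, 0, 0⟩ ⟨0, 0, 0, 0, 0, 0, 268359, 0, 0, 0, 0, 0, 0⟩ ⟨1759, -3, -4654, 6, -3, 149, 334659, 0, 0, 0, 0, 0, 0⟩)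

/-- A piece of the tree. -/
noncomputable def tree51 : Tree LeafX :=
  .leaf (.box ⟨1257, -2, -3582, 6, -6, 106, 184165, 0, 0, 0, 0, 0, 0⟩ ⟨0, 0, 0, 0, 0, 0, 214618, 0, 0, 0, 0, 0, 0⟩ ⟨0, 0, 0, 0, 0, 0, 214618, 0, 0, 0, 0, 0, 0⟩ ⟨0, 0, 0, 0, 0, 0, 257137, 0, 0, 0, 0, 0, 0⟩ ⟨0, 0, 0, 0, 0, 0, 257137, 0, 0, 0, 0, 0, 0⟩ ⟨2198, -2, -6334, 6, -6, 187, 320665, 0, 0, 0, 0, 0, 0⟩)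

/-- A piece of the tree. -/
noncomputable def tree52 : Tree LeafX :=
  .leaf (.box ⟨1313, -2, -3724, 6, -7, 107, 180240, 0, 0, 0, 0, 0, 0⟩ ⟨0, 0, 0, 0, 0, 0, 210044, 0, 0, 0, 0, 0, 0⟩ ⟨0, 0, 0, 0, 0, 0, 210044, 0, 0, 0, 0, 0, 0⟩ ⟨0, 0, 0, 0, 0, 0, 251657, 0, 0, 0, 0, 0, 0⟩ ⟨0, 0, 0, 0, 0, 0, 251657, 0, 0, 0, 0, 0, 0⟩ ⟨2282, -2, -6513, 6, -7, 187, 313831, 0, 0, 0, 0, 0, 0⟩)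

/-- A piece of the tree. -/
noncomputable def tree53 : Tree LeafX :=
  .leaf (.box ⟨1482, -2, -4429, 6, -9, 125, 178300, 0, 0, 0, 0, 0, 0⟩ ⟨0, 0, 0, 0, 0, 0, 207784, 0, 0, 0, 0, 0, 0⟩ ⟨0, 0, 0, 0, 0, 0, 207784, 0, 0, 0, 0, 0, 0⟩ ⟨0, 0, 0, 0, 0, 0, 248949, 0, 0, 0, 0, 0, 0⟩ ⟨0, 0, 0, 0, 0, 0, 248949, 0, 0, 0, 0, 0, 0⟩ ⟨2335, -2, -6804, 6, -8, 192, 310454, 0, 0, 0, 0, 0, 0⟩)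

/-- A piece of the tree. -/
noncomputable def tree54 : Tree LeafX :=
  .leaf (.box ⟨1424, -2, -4365, 6, -9, 122, 177336, 0, 0, 0, 0, 0, 0⟩ ⟨0, 0, 0, 0, 0, 0, 206660, 0, 0, 0, 0, 0, 0⟩ ⟨0, 0, 0, 0, 0, 0, 206660, 0, 0, 0, 0, 0, 0⟩ ⟨0, 0, 0, 0, 0, 0, 247602, 0, 0, 0, 0, 0, 0⟩ ⟨0, 0, 0, 0, 0, 0, 247602, 0, 0, 0, 0, 0, 0⟩ ⟨2236, -2, -6827, 6, -8, 191, 308775, 0, 0, 0, 0, 0, 0⟩)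

/-- A piece of the tree. -/
noncomputable def tree55 : Tree LeafX :=
  .s2
    (.leaf (.box ⟨3006, -1, -18359, 6, -51, 528, 176870, 0, 0, 0, 0, 0, 0⟩ ⟨0, 0, 0, 0, 0, 0, 206116, 0, 0, 0, 0, 0, 0⟩ ⟨0, 0, 0, 0, 0, 0, 206116, 0, 0, 0, 0, 0, 0⟩ ⟨0, 0, 0, 0, 0, 0, 246949, 0, 0, 0, 0, 0, 0⟩ ⟨0, 0, 0, 0, 0, 0, 246949, 0, 0, 0, 0, 0, 0⟩ ⟨3843, -1, -22865, 6, -36, 661, 307958, 0, 0, 0, 0, 0, 0⟩))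
    (.s0
    (.leaf (.box ⟨2735, -1, -20168, 6, -59, 602, 176390, 0, 0, 0, 0, 1326388023779, 113914689625⟩ ⟨0, 0, 0, 0, 0, 0, 205557, 0, 0, 0, 0, 0, 0⟩ ⟨0, 0, 0, 0, 0, 0, 205557, 0, 0, 0, 0, 0, 0⟩ ⟨0, 0, 0, 0, 0, 0, 246280, 0, 0, 0, 0, 0, 0⟩ ⟨0, 0, 0, 0, 0, 0, 246280, 0, 0, 0, 0, 0, 0⟩ ⟨2396, -1, -16585, 6, -28, 499, 307123, 0, 0, 0, 0, 915538265752, 78477635508⟩))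
    (.leaf (.box ⟨2332, -1, -20745, 6, -54, 569, 178813, 0, 0, 0, 0, 1036661531669, 103324932622⟩ ⟨0, 0, 0, 0, 0, 0, 208381, 0, 0, 0, 0, 0, 0⟩ ⟨0, 0, 0, 0, 0, 0, 208381, 0, 0, 0, 0, 0, 0⟩ ⟨0, 0, 0, 0, 0, 0, 249665, 0, 0, 0, 0, 0, 0⟩ ⟨0, 0, 0, 0, 0, 0, 249665, 0, 0, 0, 0, 0, 0⟩ ⟨4171, -1, -36420, 6, -55, 1004, 311347, 0, 0, 0, 0, 3252820065591, 322412379888⟩)))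

/-- A piece of the tree. -/
noncomputable def tree56 : Tree LeafX :=
  .leaf (.box ⟨2786, -1, -16969, 6, -28, 457, 278161, 0, 0, 0, 0, 0, 0⟩ ⟨0, 0, 0, 0, 0, 0, 318856, 0, 0, 0, 0, 0, 0⟩ ⟨0, 0, 0, 0, 0, 0, 318856, 0, 0, 0, 0, 0, 0⟩ ⟨0, 0, 0, 0, 0, 0, 373498, 0, 0, 0, 0, 0, 0⟩ ⟨0, 0, 0, 0, 0, 0, 373498, 0, 0, 0, 0, 0, 0⟩ ⟨6838, -1, -40396, 6, -41, 1091, 450740, 0, 0, 0, 0, 0, 0⟩)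

/-- A piece of the tree. -/
noncomputable def tree57 : Tree LeafX :=
  .leaf (.box ⟨4918, 0, -52374, 6, -93, 1457, 277418, 0, 0, 0, 0, 7584196059530, 871974851451⟩ ⟨0, 0, 0, 0, 0, 0, 318003, 0, 0, 0, 0, 0, 0⟩ ⟨0, 0, 0, 0, 0, 0, 318003, 0, 0, 0, 0, 0, 0⟩ ⟨0, 0, 0, 0, 0, 0, 372498, 0, 0, 0, 0, 0, 0⟩ ⟨0, 0, 0, 0, 0, 0, 372498, 0, 0, 0, 0, 0, 0⟩ ⟨3515, 0, -35821, 6, -39, 1001, 449532, 0, 0, 0, 0, 3592442203625, 413833029396⟩)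

/-- A piece of the tree. -/
noncomputable def tree58 : Tree LeafX :=
  .s3
    (.s3
    (.s3
    (.s1
    (.leaf (.skip 0 9))
    (.leaf (.box ⟨1136, 0, -26091, 6, -33, 739, 392033, 0, 0, 0, 0, 2001092761958, 106339918620⟩ ⟨0, 0, 0, 0, 0, 0, 441434, 0, 0, 0, 0, 0, 0⟩ ⟨0, 0, 0, 0, 0, 0, 441434, 0, 0, 0, 0, 0, 0⟩ ⟨0, 0, 0, 0, 0, 0, 505080, 0, 0, 0, 0, 0, 0⟩ ⟨0, 0, 0, 0, 0, 0, 505080, 0, 0, 0, 0, 0, 0⟩ ⟨1833, 0, -39269, 6, -33, 1116, 590171, 0, 0, 0, 0, 4575944933410, 244754744513⟩)))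
    (.s1
    (.leaf (.skip 0 9))
    (.leaf (.box ⟨1089, 0, -25344, 6, -32, 718, 394507, 0, 0, 0, 0, 1887509942279, 100780012132⟩ ⟨0, 0, 0, 0, 0, 0, 444047, 0, 0, 0, 0, 0, 0⟩ ⟨0, 0, 0, 0, 0, 0, 444047, 0, 0, 0, 0, 0, 0⟩ ⟨0, 0, 0, 0, 0, 0, 507815, 0, 0, 0, 0, 0, 0⟩ ⟨0, 0, 0, 0, 0, 0, 507815, 0, 0, 0, 0, 0, 0⟩ ⟨1771, 0, -38437, 6, -32, 1092, 592968, 0, 0, 0, 0, 4377654289778, 234594129817⟩))))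
    (.s3
    (.s1
    (.leaf (.skip 0 9))
    (.leaf (.box ⟨5299, 0, -121749, 6, -151, 3446, 397013, 0, 0, 0, 0, 43482615774317, 2312142527336⟩ ⟨0, 0, 0, 0, 0, 0, 446691, 0, 0, 0, 0, 0, 0⟩ ⟨0, 0, 0, 0, 0, 0, 446691, 0, 0, 0, 0, 0, 0⟩ ⟨0, 0, 0, 0, 0, 0, 510579, 0, 0, 0, 0, 0, 0⟩ ⟨0, 0, 0, 0, 0, 0, 510579, 0, 0, 0, 0, 0, 0⟩ ⟨1712, 0, -37645, 6, -31, 1069, 595792, 0, 0, 0, 0, 4195806943657, 224795068182⟩)))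
    (.s1
    (.leaf (.skip 0 9))
    (.leaf (.box ⟨1047, 0, -23983, 6, -30, 678, 399551, 0, 0, 0, 0, 1683624309122, 89277208859⟩ ⟨0, 0, 0, 0, 0, 0, 449367, 0, 0, 0, 0, 0, 0⟩ ⟨0, 0, 0, 0, 0, 0, 449367, 0, 0, 0, 0, 0, 0⟩ ⟨0, 0, 0, 0, 0, 0, 513374, 0, 0, 0, 0, 0, 0⟩ ⟨0, 0, 0, 0, 0, 0, 513374, 0, 0, 0, 0, 0, 0⟩ ⟨1661, 0, -36888, 6, -30, 1047, 598643, 0, 0, 0, 0, 4025779052622, 215544094468⟩)))))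
    (.s3
    (.s3
    (.s1
    (.leaf (.skip 0 9))
    (.leaf (.box ⟨1037, 0, -23363, 6, -29, 660, 402122, 0, 0, 0, 0, 1594030331951, 84704251552⟩ ⟨0, 0, 0, 0, 0, 0, 452076, 0, 0, 0, 0, 0, 0⟩ ⟨0, 0, 0, 0, 0, 0, 452076, 0, 0, 0, 0, 0, 0⟩ ⟨0, 0, 0, 0, 0, 0, 516200, 0, 0, 0, 0, 0, 0⟩ ⟨0, 0, 0, 0, 0, 0, 516200, 0, 0, 0, 0, 0, 0⟩ ⟨1607, 0, -36168, 6, -30, 1026, 601522, 0, 0, 0, 0, 3866233722724, 206623024917⟩)))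
    (.s1
    (.leaf (.skip 0 9))
    (.leaf (.box ⟨1027, 0, -22833, 6, -28, 645, 404726, 0, 0, 0, 0, 1522717420413, 81156297573⟩ ⟨0, 0, 0, 0, 0, 0, 454817, 0, 0, 0, 0, 0, 0⟩ ⟨0, 0, 0, 0, 0, 0, 454817, 0, 0, 0, 0, 0, 0⟩ ⟨0, 0, 0, 0, 0, 0, 519057, 0, 0, 0, 0, 0, 0⟩ ⟨0, 0, 0, 0, 0, 0, 519057, 0, 0, 0, 0, 0, 0⟩ ⟨1555, 0, -35480, 6, -29, 1006, 604428, 0, 0, 0, 0, 3717955394734, 198343801861⟩))))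
    (.s3
    (.s1
    (.leaf (.skip 0 9))
    (.leaf (.box ⟨1076, 0, -23623, 6, -29, 667, 407364, 0, 0, 0, 0, 1628602287333, 86516513650⟩ ⟨0, 0, 0, 0, 0, 0, 457591, 0, 0, 0, 0, 0, 0⟩ ⟨0, 0, 0, 0, 0, 0, 457591, 0, 0, 0, 0, 0, 0⟩ ⟨0, 0, 0, 0, 0, 0, 521946, 0, 0, 0, 0, 0, 0⟩ ⟨0, 0, 0, 0, 0, 0, 521946, 0, 0, 0, 0, 0, 0⟩ ⟨1505, 0, -34822, 6, -28, 986, 607363, 0, 0, 0, 0, 3572078734196, 190104273394⟩)))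
    (.s1
    (.leaf (.skip 0 9))
    (.leaf (.box ⟨1128, 0, -24464, 6, -29, 690, 410036, 0, 0, 0, 0, 1743199235068, 92388164752⟩ ⟨0, 0, 0, 0, 0, 0, 460399, 0, 0, 0, 0, 0, 0⟩ ⟨0, 0, 0, 0, 0, 0, 460399, 0, 0, 0, 0, 0, 0⟩ ⟨0, 0, 0, 0, 0, 0, 524866, 0, 0, 0, 0, 0, 0⟩ ⟨0, 0, 0, 0, 0, 0, 524866, 0, 0, 0, 0, 0, 0⟩ ⟨9200, 0, -213852, 6, -173, 6054, 610326, 0, 0, 0, 0, 134695451104286, 7168051777136⟩)))))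

/-- A piece of the tree. -/
noncomputable def tree59 : Tree LeafX :=
  .s3
    (.s3
    (.s3
    (.s1
    (.leaf (.skip 0 9))
    (.leaf (.box ⟨1184, 0, -25361, 6, -30, 715, 412744, 0, 0, 0, 0, 1870087913238, 99245395427⟩ ⟨0, 0, 0, 0, 0, 0, 463243, 0, 0, 0, 0, 0, 0⟩ ⟨0, 0, 0, 0, 0, 0, 463243, 0, 0, 0, 0, 0, 0⟩ ⟨0, 0, 0, 0, 0, 0, 527820, 0, 0, 0, 0, 0, 0⟩ ⟨0, 0, 0, 0, 0, 0, 527820, 0, 0, 0, 0, 0, 0⟩ ⟨1311, 0, -30127, 6, -24, 852, 613318, 0, 0, 0, 0, 2665120347734, 142031990034⟩)))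
    (.s1
    (.leaf (.skip 0 9))
    (.leaf (.box ⟨1137, 0, -24067, 6, -28, 678, 415488, 0, 0, 0, 0, 1681809007345, 89033369201⟩ ⟨0, 0, 0, 0, 0, 0, 466121, 0, 0, 0, 0, 0, 0⟩ ⟨0, 0, 0, 0, 0, 0, 466121, 0, 0, 0, 0, 0, 0⟩ ⟨0, 0, 0, 0, 0, 0, 530807, 0, 0, 0, 0, 0, 0⟩ ⟨0, 0, 0, 0, 0, 0, 530807, 0, 0, 0, 0, 0, 0⟩ ⟨1306, 0, -29609, 6, -24, 837, 616339, 0, 0, 0, 0, 2572532135917, 137047230508⟩))))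
    (.s3
    (.s1
    (.leaf (.skip 0 9))
    (.leaf (.box ⟨1196, 0, -25004, 6, -29, 704, 418269, 0, 0, 0, 0, 1813528631313, 95657652331⟩ ⟨0, 0, 0, 0, 0, 0, 469036, 0, 0, 0, 0, 0, 0⟩ ⟨0, 0, 0, 0, 0, 0, 469036, 0, 0, 0, 0, 0, 0⟩ ⟨0, 0, 0, 0, 0, 0, 533829, 0, 0, 0, 0, 0, 0⟩ ⟨0, 0, 0, 0, 0, 0, 533829, 0, 0, 0, 0, 0, 0⟩ ⟨1302, 0, -29112, 6, -23, 823, 619391, 0, 0, 0, 0, 2485037941716, 132917746307⟩)))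
    (.s1
    (.leaf (.skip 0 9))
    (.leaf (.box ⟨1259, 0, -26009, 6, -30, 732, 421086, 0, 0, 0, 0, 1961105754061, 103192117644⟩ ⟨0, 0, 0, 0, 0, 0, 471987, 0, 0, 0, 0, 0, 0⟩ ⟨0, 0, 0, 0, 0, 0, 471987, 0, 0, 0, 0, 0, 0⟩ ⟨0, 0, 0, 0, 0, 0, 536884, 0, 0, 0, 0, 0, 0⟩ ⟨0, 0, 0, 0, 0, 0, 536884, 0, 0, 0, 0, 0, 0⟩ ⟨1298, 0, -28634, 6, -23, 809, 622473, 0, 0, 0, 0, 2401566311453, 128119068407⟩)))))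
    (.s3
    (.s3
    (.s1
    (.leaf (.skip 0 9))
    (.leaf (.box ⟨1327, 0, -27092, 6, -31, 762, 423943, 0, 0, 0, 0, 2123424015519, 106989841438⟩ ⟨0, 0, 0, 0, 0, 0, 474976, 0, 0, 0, 0, 0, 0⟩ ⟨0, 0, 0, 0, 0, 0, 474976, 0, 0, 0, 0, 0, 0⟩ ⟨0, 0, 0, 0, 0, 0, 539976, 0, 0, 0, 0, 0, 0⟩ ⟨0, 0, 0, 0, 0, 0, 539976, 0, 0, 0, 0, 0, 0⟩ ⟨1294, 0, -28177, 6, -22, 795, 625586, 0, 0, 0, 0, 2316982261812, 117943174395⟩)))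
    (.s1
    (.leaf (.skip 0 9))
    (.leaf (.box ⟨1400, 0, -28260, 6, -32, 795, 426838, 0, 0, 0, 0, 2311914839866, 116572917260⟩ ⟨0, 0, 0, 0, 0, 0, 478002, 0, 0, 0, 0, 0, 0⟩ ⟨0, 0, 0, 0, 0, 0, 478002, 0, 0, 0, 0, 0, 0⟩ ⟨0, 0, 0, 0, 0, 0, 543102, 0, 0, 0, 0, 0, 0⟩ ⟨0, 0, 0, 0, 0, 0, 543102, 0, 0, 0, 0, 0, 0⟩ ⟨1295, 0, -27735, 6, -22, 782, 628730, 0, 0, 0, 0, 2242278658413, 113950279686⟩))))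
    (.s3
    (.s1
    (.leaf (.skip 0 9))
    (.leaf (.box ⟨1485, 0, -29525, 6, -34, 830, 429773, 0, 0, 0, 0, 2520238318852, 126530659819⟩ ⟨0, 0, 0, 0, 0, 0, 481068, 0, 0, 0, 0, 0, 0⟩ ⟨0, 0, 0, 0, 0, 0, 481068, 0, 0, 0, 0, 0, 0⟩ ⟨0, 0, 0, 0, 0, 0, 546266, 0, 0, 0, 0, 0, 0⟩ ⟨0, 0, 0, 0, 0, 0, 546266, 0, 0, 0, 0, 0, 0⟩ ⟨1292, 0, -27312, 6, -21, 770, 631906, 0, 0, 0, 0, 2174365852840, 110533031439⟩)))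
    (.s1
    (.leaf (.skip 0 9))
    (.leaf (.box ⟨1571, 0, -30897, 6, -35, 868, 432749, 0, 0, 0, 0, 2756859311253, 138549976163⟩ ⟨0, 0, 0, 0, 0, 0, 484173, 0, 0, 0, 0, 0, 0⟩ ⟨0, 0, 0, 0, 0, 0, 484173, 0, 0, 0, 0, 0, 0⟩ ⟨0, 0, 0, 0, 0, 0, 549466, 0, 0, 0, 0, 0, 0⟩ ⟨0, 0, 0, 0, 0, 0, 549466, 0, 0, 0, 0, 0, 0⟩ ⟨1288, 0, -26903, 6, -21, 758, 635114, 0, 0, 0, 0, 2107477330460, 107252970009⟩)))))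

theorem parts2 :
    (runPathS conQ supQ (fun n Qs i d x => leafR conQ seg n Qs i d x) [.d0 false, .d1 false, .d2 false, .d0 true, .d1 true, .d2 false, .d0 true, .d1 false, .d0 true, .d2 true, .d3 true] tree29 0 0 0
      (joinS (lay.B * lay.size) rootQ) = true) ∧
    (runPathS conQ supQ (fun n Qs i d x => leafR conQ seg n Qs i d x) [.d0 false, .d1 false, .d2 false, .d0 true, .d1 true, .d2 false, .d0 true, .d1 true, .d0 false] tree30 0 0 0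
      (joinS (lay.B * lay.size) rootQ) = true) ∧
    (runPathS conQ supQ (fun n Qs i d x => leafR conQ seg n Qs i d x) [.d0 false, .d1 false, .d2 false, .d0 true, .d1 true, .d2 false, .d0 true, .d1 true, .d0 true, .d3 false] tree31 0 0 0
      (joinS (lay.B * lay.size) rootQ) = true) ∧
    (runPathS conQ supQ (fun n Qs i d x => leafR conQ seg n Qs i d x) [.d0 false, .d1 false, .d2 false, .d0 true, .d1 true, .d2 false, .d0 true, .d1 true, .d0 true, .d3 true] tree32 0 0 0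
      (joinS (lay.B * lay.size) rootQ) = true) ∧
    (runPathS conQ supQ (fun n Qs i d x => leafR conQ seg n Qs i d x) [.d0 false, .d1 false, .d2 false, .d0 true, .d1 true, .d2 true, .d0 false] tree33 0 0 0
      (joinS (lay.B * lay.size) rootQ) = true) ∧
    (runPathS conQ supQ (fun n Qs i d x => leafR conQ seg n Qs i d x) [.d0 false, .d1 false, .d2 false, .d0 true, .d1 true, .d2 true, .d0 true, .d1 false, .d0 false] tree34 0 0 0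
      (joinS (lay.B * lay.size) rootQ) = true) ∧
    (runPathS conQ supQ (fun n Qs i d x => leafR conQ seg n Qs i d x) [.d0 false, .d1 false, .d2 false, .d0 true, .d1 true, .d2 true, .d0 true, .d1 false, .d0 true, .d1 false] tree35 0 0 0
      (joinS (lay.B * lay.size) rootQ) = true) ∧
    (runPathS conQ supQ (fun n Qs i d x => leafR conQ seg n Qs i d x) [.d0 false, .d1 false, .d2 false, .d0 true, .d1 true, .d2 true, .d0 true, .d1 false, .d0 true, .d1 true] tree36 0 0 0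
      (joinS (lay.B * lay.size) rootQ) = true) ∧
    (runPathS conQ supQ (fun n Qs i d x => leafR conQ seg n Qs i d x) [.d0 false, .d1 false, .d2 false, .d0 true, .d1 true, .d2 true, .d0 true, .d1 true] tree37 0 0 0
      (joinS (lay.B * lay.size) rootQ) = true) ∧
    (runPathS conQ supQ (fun n Qs i d x => leafR conQ seg n Qs i d x) [.d0 false, .d1 false, .d2 true, .d0 false, .d1 false, .d2 false] tree38 0 0 0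
      (joinS (lay.B * lay.size) rootQ) = true) ∧
    (runPathS conQ supQ (fun n Qs i d x => leafR conQ seg n Qs i d x) [.d0 false, .d1 false, .d2 true, .d0 false, .d1 false, .d2 true, .d1 false, .d0 false, .d1 false, .d0 false, .d1 false, .d0 false] tree39 0 0 0
      (joinS (lay.B * lay.size) rootQ) = true) ∧
    (runPathS conQ supQ (fun n Qs i d x => leafR conQ seg n Qs i d x) [.d0 false, .d1 false, .d2 true, .d0 false, .d1 false, .d2 true, .d1 false, .d0 false, .d1 false, .d0 false, .d1 false, .d0 true, .d1 false, .d2 false] tree40 0 0 0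
      (joinS (lay.B * lay.size) rootQ) = true) ∧
    (runPathS conQ supQ (fun n Qs i d x => leafR conQ seg n Qs i d x) [.d0 false, .d1 false, .d2 true, .d0 false, .d1 false, .d2 true, .d1 false, .d0 false, .d1 false, .d0 false, .d1 false, .d0 true, .d1 false, .d2 true, .d0 false] tree41 0 0 0
      (joinS (lay.B * lay.size) rootQ) = true) ∧
    (runPathS conQ supQ (fun n Qs i d x => leafR conQ seg n Qs i d x) [.d0 false, .d1 false, .d2 true, .d0 false, .d1 false, .d2 true, .d1 false, .d0 false, .d1 false, .d0 false, .d1 false, .d0 true, .d1 false, .d2 true, .d0 true, .d0 false] tree42 0 0 0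
      (joinS (lay.B * lay.size) rootQ) = true) ∧
    (runPathS conQ supQ (fun n Qs i d x => leafR conQ seg n Qs i d x) [.d0 false, .d1 false, .d2 true, .d0 false, .d1 false, .d2 true, .d1 false, .d0 false, .d1 false, .d0 false, .d1 false, .d0 true, .d1 false, .d2 true, .d0 true, .d0 true, .d3 false, .d2 false] tree43 0 0 0
      (joinS (lay.B * lay.size) rootQ) = true) ∧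
    (runPathS conQ supQ (fun n Qs i d x => leafR conQ seg n Qs i d x) [.d0 false, .d1 false, .d2 true, .d0 false, .d1 false, .d2 true, .d1 false, .d0 false, .d1 false, .d0 false, .d1 false, .d0 true, .d1 false, .d2 true, .d0 true, .d0 true, .d3 false, .d2 true, .d3 false] tree44 0 0 0
      (joinS (lay.B * lay.size) rootQ) = true) ∧
    (runPathS conQ supQ (fun n Qs i d x => leafR conQ seg n Qs i d x) [.d0 false, .d1 false, .d2 true, .d0 false, .d1 false, .d2 true, .d1 false, .d0 false, .d1 false, .d0 false, .d1 false, .d0 true, .d1 false, .d2 true, .d0 true, .d0 true, .d3 false, .d2 true, .d3 true, .d3 false] tree45 0 0 0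
      (joinS (lay.B * lay.size) rootQ) = true) ∧
    (runPathS conQ supQ (fun n Qs i d x => leafR conQ seg n Qs i d x) [.d0 false, .d1 false, .d2 true, .d0 false, .d1 false, .d2 true, .d1 false, .d0 false, .d1 false, .d0 false, .d1 false, .d0 true, .d1 false, .d2 true, .d0 true, .d0 true, .d3 false, .d2 true, .d3 true, .d3 true] tree46 0 0 0
      (joinS (lay.B * lay.size) rootQ) = true) ∧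
    (runPathS conQ supQ (fun n Qs i d x => leafR conQ seg n Qs i d x) [.d0 false, .d1 false, .d2 true, .d0 false, .d1 false, .d2 true, .d1 false, .d0 false, .d1 false, .d0 false, .d1 false, .d0 true, .d1 false, .d2 true, .d0 true, .d0 true, .d3 true] tree47 0 0 0
      (joinS (lay.B * lay.size) rootQ) = true) ∧
    (runPathS conQ supQ (fun n Qs i d x => leafR conQ seg n Qs i d x) [.d0 false, .d1 false, .d2 true, .d0 false, .d1 false, .d2 true, .d1 false, .d0 false, .d1 false, .d0 false, .d1 false, .d0 true, .d1 true] tree48 0 0 0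
      (joinS (lay.B * lay.size) rootQ) = true) ∧
    (runPathS conQ supQ (fun n Qs i d x => leafR conQ seg n Qs i d x) [.d0 false, .d1 false, .d2 true, .d0 false, .d1 false, .d2 true, .d1 false, .d0 false, .d1 false, .d0 false, .d1 true] tree49 0 0 0
      (joinS (lay.B * lay.size) rootQ) = true) ∧
    (runPathS conQ supQ (fun n Qs i d x => leafR conQ seg n Qs i d x) [.d0 false, .d1 false, .d2 true, .d0 false, .d1 false, .d2 true, .d1 false, .d0 false, .d1 false, .d0 true, .d2 false] tree50 0 0 0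
      (joinS (lay.B * lay.size) rootQ) = true) ∧
    (runPathS conQ supQ (fun n Qs i d x => leafR conQ seg n Qs i d x) [.d0 false, .d1 false, .d2 true, .d0 false, .d1 false, .d2 true, .d1 false, .d0 false, .d1 false, .d0 true, .d2 true, .d1 false, .d2 false] tree51 0 0 0
      (joinS (lay.B * lay.size) rootQ) = true) ∧
    (runPathS conQ supQ (fun n Qs i d x => leafR conQ seg n Qs i d x) [.d0 false, .d1 false, .d2 true, .d0 false, .d1 false, .d2 true, .d1 false, .d0 false, .d1 false, .d0 true, .d2 true, .d1 false, .d2 true, .d2 false] tree52 0 0 0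
      (joinS (lay.B * lay.size) rootQ) = true) ∧
    (runPathS conQ supQ (fun n Qs i d x => leafR conQ seg n Qs i d x) [.d0 false, .d1 false, .d2 true, .d0 false, .d1 false, .d2 true, .d1 false, .d0 false, .d1 false, .d0 true, .d2 true, .d1 false, .d2 true, .d2 true, .d2 false] tree53 0 0 0
      (joinS (lay.B * lay.size) rootQ) = true) ∧
    (runPathS conQ supQ (fun n Qs i d x => leafR conQ seg n Qs i d x) [.d0 false, .d1 false, .d2 true, .d0 false, .d1 false, .d2 true, .d1 false, .d0 false, .d1 false, .d0 true, .d2 true, .d1 false, .d2 true, .d2 true, .d2 true, .d2 false] tree54 0 0 0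
      (joinS (lay.B * lay.size) rootQ) = true) ∧
    (runPathS conQ supQ (fun n Qs i d x => leafR conQ seg n Qs i d x) [.d0 false, .d1 false, .d2 true, .d0 false, .d1 false, .d2 true, .d1 false, .d0 false, .d1 false, .d0 true, .d2 true, .d1 false, .d2 true, .d2 true, .d2 true, .d2 true, .d0 false, .d1 false, .d1 false, .d0 false, .d3 false] tree55 0 0 0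
      (joinS (lay.B * lay.size) rootQ) = true) ∧
    (runPathS conQ supQ (fun n Qs i d x => leafR conQ seg n Qs i d x) [.d0 false, .d1 false, .d2 true, .d0 false, .d1 false, .d2 true, .d1 false, .d0 false, .d1 false, .d0 true, .d2 true, .d1 false, .d2 true, .d2 true, .d2 true, .d2 true, .d0 false, .d1 false, .d1 false, .d0 false, .d3 true, .d2 false] tree56 0 0 0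
      (joinS (lay.B * lay.size) rootQ) = true) ∧
    (runPathS conQ supQ (fun n Qs i d x => leafR conQ seg n Qs i d x) [.d0 false, .d1 false, .d2 true, .d0 false, .d1 false, .d2 true, .d1 false, .d0 false, .d1 false, .d0 true, .d2 true, .d1 false, .d2 true, .d2 true, .d2 true, .d2 true, .d0 false, .d1 false, .d1 false, .d0 false, .d3 true, .d2 true, .d1 false, .d0 false, .d3 false] tree57 0 0 0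
      (joinS (lay.B * lay.size) rootQ) = true) ∧
    (runPathS conQ supQ (fun n Qs i d x => leafR conQ seg n Qs i d x) [.d0 false, .d1 false, .d2 true, .d0 false, .d1 false, .d2 true, .d1 false, .d0 false, .d1 false, .d0 true, .d2 true, .d1 false, .d2 true, .d2 true, .d2 true, .d2 true, .d0 false, .d1 false, .d1 false, .d0 false, .d3 true, .d2 true, .d1 false, .d0 false, .d3 true, .d0 false, .d3 false, .d3 false, .d3 false] tree58 0 0 0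
      (joinS (lay.B * lay.size) rootQ) = true) ∧
    (runPathS conQ supQ (fun n Qs i d x => leafR conQ seg n Qs i d x) [.d0 false, .d1 false, .d2 true, .d0 false, .d1 false, .d2 true, .d1 false, .d0 false, .d1 false, .d0 true, .d2 true, .d1 false, .d2 true, .d2 true, .d2 true, .d2 true, .d0 false, .d1 false, .d1 false, .d0 false, .d3 true, .d2 true, .d1 false, .d0 false, .d3 true, .d0 false, .d3 false, .d3 false, .d3 true] tree59 0 0 0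
      (joinS (lay.B * lay.size) rootQ) = true) :=
  ⟨by decide +kernel,
  by decide +kernel,
  by decide +kernel,
  by decide +kernel,
  by decide +kernel,
  by decide +kernel,
  by decide +kernel,
  by decide +kernel,
  by decide +kernel,
  by decide +kernel,
  by decide +kernel,
  by decide +kernel,
  by decide +kernel,
  by decide +kernel,
  by decide +kernel,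
  by decide +kernel,
  by decide +kernel,
  by decide +kernel,
  by decide +kernel,
  by decide +kernel,
  by decide +kernel,
  by decide +kernel,
  by decide +kernel,
  by decide +kernel,
  by decide +kernel,
  by decide +kernel,
  by decide +kernel,
  by decide +kernel,
  by decide +kernel,
  by decide +kernel,
  by decide +kernel⟩

end Vale.Agent.P098.Six.S22
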