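import Vale.Agent.P098.Six.S22.Root

/-!
# P098, six dimensions: checked pieces of the tree
-/

namespace Vale.Agent.P098.Six.S22

/-- A piece of the tree. -/
noncomputable def tree60 : Tree LeafX :=
  .leaf (.box ⟨1818, 0, -27744, 6, -32, 767, 432114, 0, 0, 0, 0, 2229522048449, 247351733599⟩ ⟨0, 0, 0, 0, 0, 0, 483231, 0, 0, 0, 0, 0, 0⟩ ⟨0, 0, 0, 0, 0, 0, 483231, 0, 0, 0, 0, 0, 0⟩ ⟨0, 0, 0, 0, 0, 0, 548063, 0, 0, 0, 0, 0, 0⟩ ⟨0, 0, 0, 0, 0, 0, 548063, 0, 0, 0, 0, 0, 0⟩ ⟨1587, 0, -25263, 6, -20, 701, 632987, 0, 0, 0, 0, 1867320437175, 208147608106⟩)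

/-- A piece of the tree. -/
noncomputable def tree61 : Tree LeafX :=
  .leaf (.box ⟨5799, 0, -87518, 6, -87, 2387, 486023, 0, 0, 0, 0, 21523714977839, 2409520304091⟩ ⟨0, 0, 0, 0, 0, 0, 538862, 0, 0, 0, 0, 0, 0⟩ ⟨0, 0, 0, 0, 0, 0, 538862, 0, 0, 0, 0, 0, 0⟩ ⟨0, 0, 0, 0, 0, 0, 604590, 0, 0, 0, 0, 0, 0⟩ ⟨0, 0, 0, 0, 0, 0, 604590, 0, 0, 0, 0, 0, 0⟩ ⟨1625, 0, -25122, 6, -18, 687, 688579, 0, 0, 0, 0, 1786131399686, 200300480619⟩)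

/-- A piece of the tree. -/
noncomputable def tree62 : Tree LeafX :=
  .leaf (.box ⟨1560, 0, -21423, 6, -25, 562, 391367, 0, 0, 0, 0, 1088296599880, 103260892330⟩ ⟨0, 0, 0, 0, 0, 0, 440682, 0, 0, 0, 0, 0, 0⟩ ⟨0, 0, 0, 0, 0, 0, 440682, 0, 0, 0, 0, 0, 0⟩ ⟨0, 0, 0, 0, 0, 0, 504215, 0, 0, 0, 0, 0, 0⟩ ⟨0, 0, 0, 0, 0, 0, 504215, 0, 0, 0, 0, 0, 0⟩ ⟨1893, 0, -26550, 6, -21, 698, 589154, 0, 0, 0, 0, 1683111522389, 159290183289⟩)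

/-- A piece of the tree. -/
noncomputable def tree63 : Tree LeafX :=
  .s0
    (.leaf (.box ⟨2150, 0, -24535, 6, -40, 629, 281239, 0, 0, 0, 0, 1265196840215, 132708739976⟩ ⟨0, 0, 0, 0, 0, 0, 322385, 0, 0, 0, 0, 0, 0⟩ ⟨0, 0, 0, 0, 0, 0, 322385, 0, 0, 0, 0, 0, 0⟩ ⟨0, 0, 0, 0, 0, 0, 377632, 0, 0, 0, 0, 0, 0⟩ ⟨0, 0, 0, 0, 0, 0, 377632, 0, 0, 0, 0, 0, 0⟩ ⟨6158, 0, -71129, 6, -71, 1830, 455730, 0, 0, 0, 0, 10757212982339, 1122428459286⟩))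
    (.leaf (.box ⟨2502, 0, -34546, 6, -53, 859, 283294, 0, 0, 0, 0, 2182682126477, 241748262305⟩ ⟨0, 0, 0, 0, 0, 0, 324741, 0, 0, 0, 0, 0, 0⟩ ⟨0, 0, 0, 0, 0, 0, 324741, 0, 0, 0, 0, 0, 0⟩ ⟨0, 0, 0, 0, 0, 0, 380393, 0, 0, 0, 0, 0, 0⟩ ⟨0, 0, 0, 0, 0, 0, 380393, 0, 0, 0, 0, 0, 0⟩ ⟨6391, 0, -87064, 6, -83, 2171, 459065, 0, 0, 0, 0, 13991780569021, 1546139981107⟩))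

/-- A piece of the tree. -/
noncomputable def tree64 : Tree LeafX :=
  .leaf (.box ⟨6540, -1, -45364, 6, -72, 1238, 281984, 0, 0, 0, 0, 4884615282374, 0⟩ ⟨0, 0, 0, 0, 0, 0, 323246, 0, 0, 0, 0, 0, 0⟩ ⟨0, 0, 0, 0, 0, 0, 323246, 0, 0, 0, 0, 0, 0⟩ ⟨0, 0, 0, 0, 0, 0, 378653, 0, 0, 0, 0, 0, 0⟩ ⟨0, 0, 0, 0, 0, 0, 378653, 0, 0, 0, 0, 0, 0⟩ ⟨10621, -1, -72365, 6, -71, 1979, 456983, 0, 0, 0, 0, 12539039863380, 0⟩)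

/-- A piece of the tree. -/
noncomputable def tree65 : Tree LeafX :=
  .s0
    (.s3
    (.s0
    (.leaf (.box ⟨2141, -1, -23725, 6, -58, 625, 181478, 0, 0, 0, 0, 1071806169563, 125013981001⟩ ⟨0, 0, 0, 0, 0, 0, 211489, 0, 0, 0, 0, 0, 0⟩ ⟨0, 0, 0, 0, 0, 0, 211489, 0, 0, 0, 0, 0, 0⟩ ⟨0, 0, 0, 0, 0, 0, 253392, 0, 0, 0, 0, 0, 0⟩ ⟨0, 0, 0, 0, 0, 0, 253392, 0, 0, 0, 0, 0, 0⟩ ⟨3310, -1, -36594, 6, -51, 969, 316001, 0, 0, 0, 0, 2605958129669, 309917139570⟩))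
    (.leaf (.box ⟨1503, -1, -17584, 6, -41, 454, 182917, 0, 0, 0, 0, 514473512990, 60416822014⟩ ⟨0, 0, 0, 0, 0, 0, 213167, 0, 0, 0, 0, 0, 0⟩ ⟨0, 0, 0, 0, 0, 0, 213167, 0, 0, 0, 0, 0, 0⟩ ⟨0, 0, 0, 0, 0, 0, 255404, 0, 0, 0, 0, 0, 0⟩ ⟨0, 0, 0, 0, 0, 0, 255404, 0, 0, 0, 0, 0, 0⟩ ⟨3034, -1, -36270, 6, -49, 941, 318513, 0, 0, 0, 0, 2226139300961, 254503149686⟩)))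
    (.s0
    (.leaf (.box ⟨2929, -1, -32226, 6, -47, 801, 285458, 0, 0, 0, 0, 1683906477856, 208682407542⟩ ⟨0, 0, 0, 0, 0, 0, 327222, 0, 0, 0, 0, 0, 0⟩ ⟨0, 0, 0, 0, 0, 0, 327222, 0, 0, 0, 0, 0, 0⟩ ⟨0, 0, 0, 0, 0, 0, 383301, 0, 0, 0, 0, 0, 0⟩ ⟨0, 0, 0, 0, 0, 0, 383301, 0, 0, 0, 0, 0, 0⟩ ⟨4583, -1, -50379, 6, -45, 1256, 462576, 0, 0, 0, 0, 4143504041695, 519857797131⟩))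
    (.leaf (.box ⟨2581, -1, -30982, 6, -43, 757, 287735, 0, 0, 0, 0, 1356309786590, 172159608471⟩ ⟨0, 0, 0, 0, 0, 0, 329834, 0, 0, 0, 0, 0, 0⟩ ⟨0, 0, 0, 0, 0, 0, 329834, 0, 0, 0, 0, 0, 0⟩ ⟨0, 0, 0, 0, 0, 0, 386361, 0, 0, 0, 0, 0, 0⟩ ⟨0, 0, 0, 0, 0, 0, 386361, 0, 0, 0, 0, 0, 0⟩ ⟨4459, -1, -51711, 6, -45, 1266, 466272, 0, 0, 0, 0, 3818839666153, 487085817380⟩))))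
    (.s3
    (.s3
    (.leaf (.box ⟨959, -1, -13062, 6, -29, 334, 184433, 0, 0, 0, 0, 243572353341, 30395613244⟩ ⟨0, 0, 0, 0, 0, 0, 214935, 0, 0, 0, 0, 0, 0⟩ ⟨0, 0, 0, 0, 0, 0, 214935, 0, 0, 0, 0, 0, 0⟩ ⟨0, 0, 0, 0, 0, 0, 257523, 0, 0, 0, 0, 0, 0⟩ ⟨0, 0, 0, 0, 0, 0, 257523, 0, 0, 0, 0, 0, 0⟩ ⟨1345, -1, -19066, 6, -25, 491, 321160, 0, 0, 0, 0, 536163917815, 68590902226⟩))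
    (.leaf (.box ⟨1019, -1, -15064, 6, -27, 376, 225517, 0, 0, 0, 0, 300138876124, 39184259637⟩ ⟨0, 0, 0, 0, 0, 0, 261125, 0, 0, 0, 0, 0, 0⟩ ⟨0, 0, 0, 0, 0, 0, 261125, 0, 0, 0, 0, 0, 0⟩ ⟨0, 0, 0, 0, 0, 0, 310084, 0, 0, 0, 0, 0, 0⟩ ⟨0, 0, 0, 0, 0, 0, 310084, 0, 0, 0, 0, 0, 0⟩ ⟨2128, -1, -29901, 6, -32, 750, 381639, 0, 0, 0, 0, 1211436171503, 161099674441⟩)))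
    (.s0
    (.leaf (.box ⟨1616, -1, -20156, 6, -27, 487, 290134, 0, 0, 0, 0, 501374023842, 65271261489⟩ ⟨0, 0, 0, 0, 0, 0, 332585, 0, 0, 0, 0, 0, 0⟩ ⟨0, 0, 0, 0, 0, 0, 332585, 0, 0, 0, 0, 0, 0⟩ ⟨0, 0, 0, 0, 0, 0, 389586, 0, 0, 0, 0, 0, 0⟩ ⟨0, 0, 0, 0, 0, 0, 389586, 0, 0, 0, 0, 0, 0⟩ ⟨2124, -1, -24488, 6, -20, 592, 470166, 0, 0, 0, 0, 747149449275, 98268873953⟩))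
    (.leaf (.box ⟨2233, -1, -31880, 6, -42, 764, 292662, 0, 0, 0, 0, 1098998961299, 144464360997⟩ ⟨0, 0, 0, 0, 0, 0, 335483, 0, 0, 0, 0, 0, 0⟩ ⟨0, 0, 0, 0, 0, 0, 335483, 0, 0, 0, 0, 0, 0⟩ ⟨0, 0, 0, 0, 0, 0, 392982, 0, 0, 0, 0, 0, 0⟩ ⟨0, 0, 0, 0, 0, 0, 392982, 0, 0, 0, 0, 0, 0⟩ ⟨1519, -1, -21456, 6, -17, 515, 474267, 0, 0, 0, 0, 503959665785, 67558735337⟩))))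

/-- A piece of the tree. -/
noncomputable def tree66 : Tree LeafX :=
  .s0
    (.leaf (.box ⟨2643, -2, -13966, 6, -35, 418, 181908, 0, 0, 0, 0, 490397915831, 0⟩ ⟨0, 0, 0, 0, 0, 0, 212006, 0, 0, 0, 0, 0, 0⟩ ⟨0, 0, 0, 0, 0, 0, 212006, 0, 0, 0, 0, 0, 0⟩ ⟨0, 0, 0, 0, 0, 0, 254038, 0, 0, 0, 0, 0, 0⟩ ⟨0, 0, 0, 0, 0, 0, 254038, 0, 0, 0, 0, 0, 0⟩ ⟨4624, -2, -24006, 6, -35, 720, 316858, 0, 0, 0, 0, 1461095219125, 0⟩))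
    (.leaf (.box ⟨2054, -1, -15243, 6, -31, 408, 187099, 0, 0, 0, 0, 357181990450, 0⟩ ⟨0, 0, 0, 0, 0, 0, 218059, 0, 0, 0, 0, 0, 0⟩ ⟨0, 0, 0, 0, 0, 0, 218059, 0, 0, 0, 0, 0, 0⟩ ⟨0, 0, 0, 0, 0, 0, 261296, 0, 0, 0, 0, 0, 0⟩ ⟨0, 0, 0, 0, 0, 0, 261296, 0, 0, 0, 0, 0, 0⟩ ⟨3741, -1, -28532, 6, -33, 766, 325920, 0, 0, 0, 0, 1268684538450, 0⟩))

/-- A piece of the tree. -/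
noncomputable def tree67 : Tree LeafX :=
  .leaf (.box ⟨1835, -2, -7440, 6, -16, 230, 186962, 0, 0, 0, 0, 102036304153, 0⟩ ⟨0, 0, 0, 0, 0, 0, 217914, 0, 0, 0, 0, 0, 0⟩ ⟨0, 0, 0, 0, 0, 0, 217914, 0, 0, 0, 0, 0, 0⟩ ⟨0, 0, 0, 0, 0, 0, 261146, 0, 0, 0, 0, 0, 0⟩ ⟨0, 0, 0, 0, 0, 0, 261146, 0, 0, 0, 0, 0, 0⟩ ⟨2617, -2, -10546, 6, -13, 326, 325776, 0, 0, 0, 0, 205753060326, 0⟩)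

/-- A piece of the tree. -/
noncomputable def tree68 : Tree LeafX :=
  .s0
    (.s0
    (.s3
    (.leaf (.box ⟨1249, -2, -7545, 6, -14, 206, 187712, 0, 0, 0, 0, 75047477297, 10327724310⟩ ⟨0, 0, 0, 0, 0, 0, 218758, 0, 0, 0, 0, 0, 0⟩ ⟨0, 0, 0, 0, 0, 0, 218758, 0, 0, 0, 0, 0, 0⟩ ⟨0, 0, 0, 0, 0, 0, 262108, 0, 0, 0, 0, 0, 0⟩ ⟨0, 0, 0, 0, 0, 0, 262108, 0, 0, 0, 0, 0, 0⟩ ⟨1943, -2, -11812, 6, -12, 324, 326885, 0, 0, 0, 0, 189374469745, 26489696360⟩))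
    (.s3
    (.leaf (.box ⟨1700, -2, -10742, 6, -12, 284, 295324, 0, 0, 0, 0, 135547994328, 20626564458⟩ ⟨0, 0, 0, 0, 0, 0, 338536, 0, 0, 0, 0, 0, 0⟩ ⟨0, 0, 0, 0, 0, 0, 338536, 0, 0, 0, 0, 0, 0⟩ ⟨0, 0, 0, 0, 0, 0, 396560, 0, 0, 0, 0, 0, 0⟩ ⟨0, 0, 0, 0, 0, 0, 396560, 0, 0, 0, 0, 0, 0⟩ ⟨2654, -2, -17488, 6, -12, 463, 478588, 0, 0, 0, 0, 364292674764, 55867810073⟩))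
    (.leaf (.box ⟨1835, -2, -11816, 6, -9, 305, 413918, 0, 0, 0, 0, 148897807310, 24010336136⟩ ⟨0, 0, 0, 0, 0, 0, 466080, 0, 0, 0, 0, 0, 0⟩ ⟨0, 0, 0, 0, 0, 0, 466080, 0, 0, 0, 0, 0, 0⟩ ⟨0, 0, 0, 0, 0, 0, 533283, 0, 0, 0, 0, 0, 0⟩ ⟨0, 0, 0, 0, 0, 0, 533283, 0, 0, 0, 0, 0, 0⟩ ⟨3408, -2, -22525, 6, -11, 581, 623130, 0, 0, 0, 0, 543451700080, 88168554219⟩))))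
    (.leaf (.box ⟨1115, -1, -5892, 6, -9, 157, 191344, 0, 0, 0, 0, 32637458229, 4489224012⟩ ⟨0, 0, 0, 0, 0, 0, 222994, 0, 0, 0, 0, 0, 0⟩ ⟨0, 0, 0, 0, 0, 0, 222994, 0, 0, 0, 0, 0, 0⟩ ⟨0, 0, 0, 0, 0, 0, 267188, 0, 0, 0, 0, 0, 0⟩ ⟨0, 0, 0, 0, 0, 0, 267188, 0, 0, 0, 0, 0, 0⟩ ⟨2201, -1, -12060, 6, -11, 322, 333228, 0, 0, 0, 0, 140315731248, 19886415688⟩)))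
    (.leaf (.box ⟨1113, -1, -6376, 6, -9, 172, 195358, 0, 0, 0, 0, 30684807446, 4078845082⟩ ⟨0, 0, 0, 0, 0, 0, 227675, 0, 0, 0, 0, 0, 0⟩ ⟨0, 0, 0, 0, 0, 0, 227675, 0, 0, 0, 0, 0, 0⟩ ⟨0, 0, 0, 0, 0, 0, 272801, 0, 0, 0, 0, 0, 0⟩ ⟨0, 0, 0, 0, 0, 0, 272801, 0, 0, 0, 0, 0, 0⟩ ⟨1981, -1, -11269, 6, -9, 305, 340239, 0, 0, 0, 0, 99402236370, 13847930290⟩))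

/-- A piece of the tree. -/
noncomputable def tree69 : Tree LeafX :=
  .leaf (.box ⟨966, -3, -2925, 6, -5, 100, 195800, 0, 0, 0, 0, 5773138086, 0⟩ ⟨0, 0, 0, 0, 0, 0, 228244, 0, 0, 0, 0, 0, 0⟩ ⟨0, 0, 0, 0, 0, 0, 228244, 0, 0, 0, 0, 0, 0⟩ ⟨0, 0, 0, 0, 0, 0, 273574, 0, 0, 0, 0, 0, 0⟩ ⟨0, 0, 0, 0, 0, 0, 273574, 0, 0, 0, 0, 0, 0⟩ ⟨1753, -3, -5333, 6, -5, 182, 341372, 0, 0, 0, 0, 19123188535, 0⟩)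

/-- A piece of the tree. -/
noncomputable def tree70 : Tree LeafX :=
  .leaf (.box ⟨2048, -12, -2015, 14, -5, 85, 184403, 0, 0, 0, 0, 689577721, 0⟩ ⟨0, 0, 0, 0, 0, 0, 214979, 0, 0, 0, 0, 0, 0⟩ ⟨0, 0, 0, 0, 0, 0, 214979, 0, 0, 0, 0, 0, 0⟩ ⟨0, 0, 0, 0, 0, 0, 257708, 0, 0, 0, 0, 0, 0⟩ ⟨0, 0, 0, 0, 0, 0, 257708, 0, 0, 0, 0, 0, 0⟩ ⟨2048, -8, -2005, 9, -5, 84, 321637, 0, 0, 0, 0, 160439916, 0⟩)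

/-- A piece of the tree. -/
noncomputable def tree71 : Tree LeafX :=
  .s0
    (.s2
    (.leaf (.box ⟨743, -2, -2048, 7, 1, 72, 217880, 0, 0, 0, 0, 0, 0⟩ ⟨0, 0, 0, 0, 0, 0, 253913, 0, 0, 0, 0, 0, 0⟩ ⟨0, 0, 0, 0, 0, 0, 253913, 0, 0, 0, 0, 0, 0⟩ ⟨0, 0, 0, 0, 0, 0, 304225, 0, 0, 0, 0, 0, 0⟩ ⟨0, 0, 0, 0, 0, 0, 304225, 0, 0, 0, 0, 0, 0⟩ ⟨1182, -2, -3153, 6, 1, 112, 379401, 0, 0, 0, 0, 0, 0⟩))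
    (.s2
    (.leaf (.box ⟨751, -2, -2048, 7, 0, 71, 211147, 0, 0, 0, 0, 0, 0⟩ ⟨0, 0, 0, 0, 0, 0, 246074, 0, 0, 0, 0, 0, 0⟩ ⟨0, 0, 0, 0, 0, 0, 246074, 0, 0, 0, 0, 0, 0⟩ ⟨0, 0, 0, 0, 0, 0, 294845, 0, 0, 0, 0, 0, 0⟩ ⟨0, 0, 0, 0, 0, 0, 294845, 0, 0, 0, 0, 0, 0⟩ ⟨1194, -2, -3104, 6, 0, 109, 367728, 0, 0, 0, 0, 0, 0⟩))
    (.s2
    (.s0
    (.leaf (.box ⟨860, -2, -2201, 6, -2, 76, 207867, 0, 0, 0, 0, 0, 214244199⟩ ⟨0, 0, 0, 0, 0, 0, 242256, 0, 0, 0, 0, 0, 0⟩ ⟨0, 0, 0, 0, 0, 0, 242256, 0, 0, 0, 0, 0, 0⟩ ⟨0, 0, 0, 0, 0, 0, 290277, 0, 0, 0, 0, 0, 0⟩ ⟨0, 0, 0, 0, 0, 0, 290277, 0, 0, 0, 0, 0, 0⟩ ⟨1515, -2, -3841, 6, -2, 133, 362044, 0, 0, 0, 0, 0, 0⟩))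
    (.leaf (.box ⟨736, -2, -2597, 6, 0, 95, 231369, 0, 0, 0, 0, 0, 0⟩ ⟨0, 0, 0, 0, 0, 0, 269664, 0, 0, 0, 0, 0, 0⟩ ⟨0, 0, 0, 0, 0, 0, 269664, 0, 0, 0, 0, 0, 0⟩ ⟨0, 0, 0, 0, 0, 0, 323148, 0, 0, 0, 0, 0, 0⟩ ⟨0, 0, 0, 0, 0, 0, 323148, 0, 0, 0, 0, 0, 0⟩ ⟨1372, -2, -4428, 6, 0, 165, 403097, 0, 0, 0, 0, 0, 1825307806⟩)))
    (.s1
    (.s0
    (.s3
    (.leaf (.box ⟨853, -2, -4012, 6, -3, 121, 204645, 0, 0, 0, 0, 4369787953, 1065335171⟩ ⟨0, 0, 0, 0, 0, 0, 238505, 0, 0, 0, 0, 0, 0⟩ ⟨0, 0, 0, 0, 0, 0, 238505, 0, 0, 0, 0, 0, 0⟩ ⟨0, 0, 0, 0, 0, 0, 285791, 0, 0, 0, 0, 0, 0⟩ ⟨0, 0, 0, 0, 0, 0, 285791, 0, 0, 0, 0, 0, 0⟩ ⟨1535, -2, -6938, 6, -3, 212, 356463, 0, 0, 0, 0, 14835591633, 4507628719⟩))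
    (.leaf (.box ⟨1432, -2, -6410, 6, -3, 191, 322146, 0, 0, 0, 0, 7300522035, 3369876452⟩ ⟨0, 0, 0, 0, 0, 0, 369295, 0, 0, 0, 0, 0, 0⟩ ⟨0, 0, 0, 0, 0, 0, 369295, 0, 0, 0, 0, 0, 0⟩ ⟨0, 0, 0, 0, 0, 0, 432610, 0, 0, 0, 0, 0, 0⟩ ⟨0, 0, 0, 0, 0, 0, 432610, 0, 0, 0, 0, 0, 0⟩ ⟨2366, -2, -10428, 6, -3, 311, 522129, 0, 0, 0, 0, 19964659252, 9449064949⟩)))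
    (.leaf (.box ⟨910, -1, -4299, 6, 0, 147, 228928, 0, 0, 0, 0, 0, 0⟩ ⟨0, 0, 0, 0, 0, 0, 266827, 0, 0, 0, 0, 0, 0⟩ ⟨0, 0, 0, 0, 0, 0, 266827, 0, 0, 0, 0, 0, 0⟩ ⟨0, 0, 0, 0, 0, 0, 319763, 0, 0, 0, 0, 0, 0⟩ ⟨0, 0, 0, 0, 0, 0, 319763, 0, 0, 0, 0, 0, 0⟩ ⟨1605, -1, -7370, 6, 0, 253, 398900, 0, 0, 0, 0, 0, 0⟩)))
    (.leaf (.box ⟨501, -2, -2327, 6, -3, 93, 237194, 0, 0, 0, 0, 0, 0⟩ ⟨0, 0, 0, 0, 0, 0, 276542, 0, 0, 0, 0, 0, 0⟩ ⟨0, 0, 0, 0, 0, 0, 276542, 0, 0, 0, 0, 0, 0⟩ ⟨0, 0, 0, 0, 0, 0, 331540, 0, 0, 0, 0, 0, 0⟩ ⟨0, 0, 0, 0, 0, 0, 331540, 0, 0, 0, 0, 0, 0⟩ ⟨909, -2, -4146, 6, -3, 166, 413843, 0, 0, 0, 0, 0, 0⟩))))))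
    (.s2
    (.leaf (.box ⟨540, -1, -2048, 7, 6, 84, 267558, 0, 0, 0, 0, 0, 0⟩ ⟨0, 0, 0, 0, 0, 0, 311828, 0, 0, 0, 0, 0, 0⟩ ⟨0, 0, 0, 0, 0, 0, 311828, 0, 0, 0, 0, 0, 0⟩ ⟨0, 0, 0, 0, 0, 0, 373651, 0, 0, 0, 0, 0, 0⟩ ⟨0, 0, 0, 0, 0, 0, 373651, 0, 0, 0, 0, 0, 0⟩ ⟨772, -1, -2853, 6, 5, 117, 466050, 0, 0, 0, 0, 0, 0⟩))
    (.s2
    (.s1
    (.leaf (.box ⟨547, -1, -2447, 6, 5, 98, 264533, 0, 0, 0, 0, 0, 0⟩ ⟨0, 0, 0, 0, 0, 0, 308328, 0, 0, 0, 0, 0, 0⟩ ⟨0, 0, 0, 0, 0, 0, 308328, 0, 0, 0, 0, 0, 0⟩ ⟨0, 0, 0, 0, 0, 0, 369500, 0, 0, 0, 0, 0, 0⟩ ⟨0, 0, 0, 0, 0, 0, 369500, 0, 0, 0, 0, 0, 0⟩ ⟨952, -1, -4146, 6, 5, 167, 460953, 0, 0, 0, 0, 0, 0⟩))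
    (.leaf (.box ⟨447, -2, -2048, 7, 4, 94, 288399, 0, 0, 0, 0, 0, 0⟩ ⟨0, 0, 0, 0, 0, 0, 336231, 0, 0, 0, 0, 0, 0⟩ ⟨0, 0, 0, 0, 0, 0, 336231, 0, 0, 0, 0, 0, 0⟩ ⟨0, 0, 0, 0, 0, 0, 403082, 0, 0, 0, 0, 0, 0⟩ ⟨0, 0, 0, 0, 0, 0, 403082, 0, 0, 0, 0, 0, 0⟩ ⟨746, -2, -3421, 6, 4, 157, 503113, 0, 0, 0, 0, 0, 0⟩)))
    (.s1
    (.leaf (.box ⟨627, -1, -2494, 6, 4, 101, 261894, 0, 0, 0, 0, 0, 0⟩ ⟨0, 0, 0, 0, 0, 0, 305280, 0, 0, 0, 0, 0, 0⟩ ⟨0, 0, 0, 0, 0, 0, 305280, 0, 0, 0, 0, 0, 0⟩ ⟨0, 0, 0, 0, 0, 0, 365894, 0, 0, 0, 0, 0, 0⟩ ⟨0, 0, 0, 0, 0, 0, 365894, 0, 0, 0, 0, 0, 0⟩ ⟨1080, -1, -4293, 6, 4, 174, 456542, 0, 0, 0, 0, 0, 0⟩))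
    (.leaf (.box ⟨428, -2, -2048, 7, 2, 95, 287035, 0, 0, 0, 0, 0, 0⟩ ⟨0, 0, 0, 0, 0, 0, 334663, 0, 0, 0, 0, 0, 0⟩ ⟨0, 0, 0, 0, 0, 0, 334663, 0, 0, 0, 0, 0, 0⟩ ⟨0, 0, 0, 0, 0, 0, 401240, 0, 0, 0, 0, 0, 0⟩ ⟨0, 0, 0, 0, 0, 0, 401240, 0, 0, 0, 0, 0, 0⟩ ⟨687, -2, -3263, 6, 2, 152, 500884, 0, 0, 0, 0, 0, 0⟩)))))

/-- A piece of the tree. -/
noncomputable def tree72 : Tree LeafX :=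
  .s0
    (.leaf (.box ⟨1731, -17, -2048, 24, -28, 138, 170099, 0, 0, 0, 0, 0, 0⟩ ⟨0, 0, 0, 0, 0, 0, 198278, 0, 0, 0, 0, 0, 0⟩ ⟨0, 0, 0, 0, 0, 0, 198278, 0, 0, 0, 0, 0, 0⟩ ⟨0, 0, 0, 0, 0, 0, 237646, 0, 0, 0, 0, 0, 0⟩ ⟨0, 0, 0, 0, 0, 0, 237646, 0, 0, 0, 0, 0, 0⟩ ⟨1715, -10, -2048, 14, -16, 137, 296520, 0, 0, 0, 0, 0, 0⟩))
    (.s2
    (.leaf (.box ⟨961, -5, -2048, 18, -4, 109, 247001, 0, 0, 0, 0, 0, 0⟩ ⟨0, 0, 0, 0, 0, 0, 287909, 0, 0, 0, 0, 0, 0⟩ ⟨0, 0, 0, 0, 0, 0, 287909, 0, 0, 0, 0, 0, 0⟩ ⟨0, 0, 0, 0, 0, 0, 345056, 0, 0, 0, 0, 0, 0⟩ ⟨0, 0, 0, 0, 0, 0, 345056, 0, 0, 0, 0, 0, 0⟩ ⟨959, -3, -2048, 10, -2, 109, 430507, 0, 0, 0, 0, 0, 0⟩))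
    (.s0
    (.leaf (.box ⟨819, -4, -2048, 12, -11, 108, 241172, 0, 0, 0, 0, 0, 0⟩ ⟨0, 0, 0, 0, 0, 0, 281138, 0, 0, 0, 0, 0, 0⟩ ⟨0, 0, 0, 0, 0, 0, 281138, 0, 0, 0, 0, 0, 0⟩ ⟨0, 0, 0, 0, 0, 0, 336981, 0, 0, 0, 0, 0, 0⟩ ⟨0, 0, 0, 0, 0, 0, 336981, 0, 0, 0, 0, 0, 0⟩ ⟨823, -3, -2048, 8, -7, 108, 420505, 0, 0, 0, 0, 0, 0⟩))
    (.s1
    (.leaf (.box ⟨446, -2, -2048, 9, -1, 108, 282817, 0, 0, 0, 0, 0, 0⟩ ⟨0, 0, 0, 0, 0, 0, 329707, 0, 0, 0, 0, 0, 0⟩ ⟨0, 0, 0, 0, 0, 0, 329707, 0, 0, 0, 0, 0, 0⟩ ⟨0, 0, 0, 0, 0, 0, 395235, 0, 0, 0, 0, 0, 0⟩ ⟨0, 0, 0, 0, 0, 0, 395235, 0, 0, 0, 0, 0, 0⟩ ⟨521, -1, -2446, 6, -1, 129, 493270, 0, 0, 0, 0, 0, 0⟩))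
    (.leaf (.box ⟨393, -2, -2048, 10, -8, 125, 269241, 0, 0, 0, 0, 0, 0⟩ ⟨0, 0, 0, 0, 0, 0, 313825, 0, 0, 0, 0, 0, 0⟩ ⟨0, 0, 0, 0, 0, 0, 313825, 0, 0, 0, 0, 0, 0⟩ ⟨0, 0, 0, 0, 0, 0, 376105, 0, 0, 0, 0, 0, 0⟩ ⟨0, 0, 0, 0, 0, 0, 376105, 0, 0, 0, 0, 0, 0⟩ ⟨426, -1, -2048, 7, -5, 126, 469223, 0, 0, 0, 0, 0, 0⟩)))))

/-- A piece of the tree. -/
noncomputable def tree73 : Tree LeafX :=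
  .s2
    (.s0
    (.leaf (.box ⟨2048, 5, 185, 16, -4, 71, 181182, 0, 0, 0, 0, 0, 0⟩ ⟨0, 0, 0, 0, 0, 0, 211133, 0, 0, 0, 0, 0, 0⟩ ⟨0, 0, 0, 0, 0, 0, 211133, 0, 0, 0, 0, 0, 0⟩ ⟨0, 0, 0, 0, 0, 0, 252947, 0, 0, 0, 0, 0, 0⟩ ⟨0, 0, 0, 0, 0, 0, 252947, 0, 0, 0, 0, 0, 0⟩ ⟨2048, 3, 196, 10, -2, 72, 315413, 0, 0, 0, 0, 0, 0⟩))
    (.s0
    (.leaf (.box ⟨2048, -1, -129, 10, -4, 88, 244220, 0, 0, 0, 0, 0, 0⟩ ⟨0, 0, 0, 0, 0, 0, 284602, 0, 0, 0, 0, 0, 0⟩ ⟨0, 0, 0, 0, 0, 0, 284602, 0, 0, 0, 0, 0, 0⟩ ⟨0, 0, 0, 0, 0, 0, 340983, 0, 0, 0, 0, 0, 0⟩ ⟨0, 0, 0, 0, 0, 0, 340983, 0, 0, 0, 0, 0, 0⟩ ⟨2048, 0, -118, 6, -2, 88, 425221, 0, 0, 0, 0, 0, 0⟩))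
    (.leaf (.box ⟨2048, -2, -1158, 14, -2, 136, 259596, 0, 0, 0, 0, 0, 0⟩ ⟨0, 0, 0, 0, 0, 0, 302519, 0, 0, 0, 0, 0, 0⟩ ⟨0, 0, 0, 0, 0, 0, 302519, 0, 0, 0, 0, 0, 0⟩ ⟨0, 0, 0, 0, 0, 0, 362448, 0, 0, 0, 0, 0, 0⟩ ⟨0, 0, 0, 0, 0, 0, 362448, 0, 0, 0, 0, 0, 0⟩ ⟨2048, -1, -1148, 8, -1, 137, 451986, 0, 0, 0, 0, 0, 0⟩))))
    (.s0
    (.s1
    (.leaf (.box ⟨2048, -5, -400, 22, -24, 100, 157055, 0, 0, 0, 0, 0, 0⟩ ⟨0, 0, 0, 0, 0, 0, 183029, 0, 0, 0, 0, 0, 0⟩ ⟨0, 0, 0, 0, 0, 0, 183029, 0, 0, 0, 0, 0, 0⟩ ⟨0, 0, 0, 0, 0, 0, 219296, 0, 0, 0, 0, 0, 0⟩ ⟨0, 0, 0, 0, 0, 0, 219296, 0, 0, 0, 0, 0, 0⟩ ⟨2048, -3, -386, 13, -13, 97, 273487, 0, 0, 0, 0, 0, 0⟩))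
    (.leaf (.box ⟨2048, -3, 266, 10, -4, 32, 157043, 0, 0, 0, 0, 0, 0⟩ ⟨0, 0, 0, 0, 0, 0, 183014, 0, 0, 0, 0, 0, 0⟩ ⟨0, 0, 0, 0, 0, 0, 183014, 0, 0, 0, 0, 0, 0⟩ ⟨0, 0, 0, 0, 0, 0, 219277, 0, 0, 0, 0, 0, 0⟩ ⟨0, 0, 0, 0, 0, 0, 219277, 0, 0, 0, 0, 0, 0⟩ ⟨2149, -2, 288, 6, -2, 34, 273461, 0, 0, 0, 0, 0, 0⟩)))
    (.s0
    (.s1
    (.leaf (.box ⟨2048, -2, -1187, 12, -20, 132, 232310, 0, 0, 0, 0, 0, 0⟩ ⟨0, 0, 0, 0, 0, 0, 270758, 0, 0, 0, 0, 0, 0⟩ ⟨0, 0, 0, 0, 0, 0, 270758, 0, 0, 0, 0, 0, 0⟩ ⟨0, 0, 0, 0, 0, 0, 324455, 0, 0, 0, 0, 0, 0⟩ ⟨0, 0, 0, 0, 0, 0, 324455, 0, 0, 0, 0, 0, 0⟩ ⟨2048, -1, -1175, 7, -11, 132, 404720, 0, 0, 0, 0, 0, 0⟩))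
    (.leaf (.box ⟨2048, -2, 671, 17, -16, 154, 232765, 0, 0, 0, 0, 0, 0⟩ ⟨0, 0, 0, 0, 0, 0, 271287, 0, 0, 0, 0, 0, 0⟩ ⟨0, 0, 0, 0, 0, 0, 271287, 0, 0, 0, 0, 0, 0⟩ ⟨0, 0, 0, 0, 0, 0, 325089, 0, 0, 0, 0, 0, 0⟩ ⟨0, 0, 0, 0, 0, 0, 325089, 0, 0, 0, 0, 0, 0⟩ ⟨2048, -1, 701, 10, -9, 156, 405508, 0, 0, 0, 0, 0, 0⟩)))
    (.s1
    (.leaf (.box ⟨1323, 0, -2048, 19, -17, 172, 247353, 0, 0, 0, 0, 438543828, 0⟩ ⟨0, 0, 0, 0, 0, 0, 288252, 0, 0, 0, 0, 0, 0⟩ ⟨0, 0, 0, 0, 0, 0, 288252, 0, 0, 0, 0, 0, 0⟩ ⟨0, 0, 0, 0, 0, 0, 345353, 0, 0, 0, 0, 0, 0⟩ ⟨0, 0, 0, 0, 0, 0, 345353, 0, 0, 0, 0, 0, 0⟩ ⟨1333, 0, -2048, 11, -10, 173, 430667, 0, 0, 0, 0, 1808529706, 0⟩))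
    (.leaf (.box ⟨2048, 1, -851, 20, -14, 187, 244851, 0, 0, 0, 0, 25820928743, 0⟩ ⟨0, 0, 0, 0, 0, 0, 285335, 0, 0, 0, 0, 0, 0⟩ ⟨0, 0, 0, 0, 0, 0, 285335, 0, 0, 0, 0, 0, 0⟩ ⟨0, 0, 0, 0, 0, 0, 341857, 0, 0, 0, 0, 0, 0⟩ ⟨0, 0, 0, 0, 0, 0, 341857, 0, 0, 0, 0, 0, 0⟩ ⟨2048, 1, -815, 12, -8, 182, 426304, 0, 0, 0, 0, 24532116651, 0⟩)))))

/-- A piece of the tree. -/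
noncomputable def tree74 : Tree LeafX :=
  .s0
    (.s1
    (.s0
    (.leaf (.box ⟨476, 0, -2048, 9, 14, 96, 338619, 0, 0, 0, 0, 0, 0⟩ ⟨0, 0, 0, 0, 0, 0, 394589, 0, 0, 0, 0, 0, 0⟩ ⟨0, 0, 0, 0, 0, 0, 394589, 0, 0, 0, 0, 0, 0⟩ ⟨0, 0, 0, 0, 0, 0, 472723, 0, 0, 0, 0, 0, 0⟩ ⟨0, 0, 0, 0, 0, 0, 472723, 0, 0, 0, 0, 0, 0⟩ ⟨599, 0, -2487, 6, 10, 117, 589441, 0, 0, 0, 0, 0, 0⟩))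
    (.leaf (.box ⟨395, 1, -2048, 8, 19, 113, 406419, 0, 0, 0, 0, 0, 0⟩ ⟨0, 0, 0, 0, 0, 0, 473566, 0, 0, 0, 0, 0, 0⟩ ⟨0, 0, 0, 0, 0, 0, 473566, 0, 0, 0, 0, 0, 0⟩ ⟨0, 0, 0, 0, 0, 0, 567290, 0, 0, 0, 0, 0, 0⟩ ⟨0, 0, 0, 0, 0, 0, 567290, 0, 0, 0, 0, 0, 0⟩ ⟨491, 1, -2624, 6, 14, 144, 707265, 0, 0, 0, 0, 0, 0⟩)))
    (.s0
    (.leaf (.box ⟨601, -2, -2048, 14, 12, 117, 321937, 0, 0, 0, 0, 0, 0⟩ ⟨0, 0, 0, 0, 0, 0, 375231, 0, 0, 0, 0, 0, 0⟩ ⟨0, 0, 0, 0, 0, 0, 375231, 0, 0, 0, 0, 0, 0⟩ ⟨0, 0, 0, 0, 0, 0, 449668, 0, 0, 0, 0, 0, 0⟩ ⟨0, 0, 0, 0, 0, 0, 449668, 0, 0, 0, 0, 0, 0⟩ ⟨599, -1, -2048, 8, 7, 117, 560947, 0, 0, 0, 0, 0, 0⟩))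
    (.s1
    (.leaf (.box ⟨312, 0, -2048, 9, 19, 126, 403255, 0, 0, 0, 0, 0, 0⟩ ⟨0, 0, 0, 0, 0, 0, 469948, 0, 0, 0, 0, 0, 0⟩ ⟨0, 0, 0, 0, 0, 0, 469948, 0, 0, 0, 0, 0, 0⟩ ⟨0, 0, 0, 0, 0, 0, 563071, 0, 0, 0, 0, 0, 0⟩ ⟨0, 0, 0, 0, 0, 0, 563071, 0, 0, 0, 0, 0, 0⟩ ⟨402, 0, -2258, 6, 12, 141, 702221, 0, 0, 0, 0, 0, 0⟩))
    (.s3
    (.leaf (.box ⟨361, 0, -2048, 11, 18, 143, 384790, 0, 0, 0, 0, 0, 0⟩ ⟨0, 0, 0, 0, 0, 0, 448471, 0, 0, 0, 0, 0, 0⟩ ⟨0, 0, 0, 0, 0, 0, 448471, 0, 0, 0, 0, 0, 0⟩ ⟨0, 0, 0, 0, 0, 0, 537410, 0, 0, 0, 0, 0, 0⟩ ⟨0, 0, 0, 0, 0, 0, 537410, 0, 0, 0, 0, 0, 0⟩ ⟨353, 0, -2048, 6, 10, 143, 670351, 0, 0, 0, 0, 0, 0⟩))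
    (.leaf (.box ⟨377, 0, -2048, 7, 11, 143, 605928, 0, 0, 0, 0, 0, 0⟩ ⟨0, 0, 0, 0, 0, 0, 694624, 0, 0, 0, 0, 0, 0⟩ ⟨0, 0, 0, 0, 0, 0, 694624, 0, 0, 0, 0, 0, 0⟩ ⟨0, 0, 0, 0, 0, 0, 813740, 0, 0, 0, 0, 0, 0⟩ ⟨0, 0, 0, 0, 0, 0, 813740, 0, 0, 0, 0, 0, 0⟩ ⟨530, 0, -2896, 6, 10, 202, 982162, 0, 0, 0, 0, 0, 0⟩))))))
    (.s1
    (.leaf (.box ⟨550, 6, -2048, 21, 22, 140, 496400, 0, 0, 0, 0, 0, 0⟩ ⟨0, 0, 0, 0, 0, 0, 578375, 0, 0, 0, 0, 0, 0⟩ ⟨0, 0, 0, 0, 0, 0, 578375, 0, 0, 0, 0, 0, 0⟩ ⟨0, 0, 0, 0, 0, 0, 692780, 0, 0, 0, 0, 0, 0⟩ ⟨0, 0, 0, 0, 0, 0, 692780, 0, 0, 0, 0, 0, 0⟩ ⟨551, 4, -2048, 13, 13, 140, 863603, 0, 0, 0, 0, 0, 0⟩))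
    (.s0
    (.s1
    (.leaf (.box ⟨300, 1, -2048, 9, 24, 147, 479824, 0, 0, 0, 0, 0, 0⟩ ⟨0, 0, 0, 0, 0, 0, 559151, 0, 0, 0, 0, 0, 0⟩ ⟨0, 0, 0, 0, 0, 0, 559151, 0, 0, 0, 0, 0, 0⟩ ⟨0, 0, 0, 0, 0, 0, 669902, 0, 0, 0, 0, 0, 0⟩ ⟨0, 0, 0, 0, 0, 0, 669902, 0, 0, 0, 0, 0, 0⟩ ⟨364, 0, -2465, 6, 16, 177, 835361, 0, 0, 0, 0, 0, 0⟩))
    (.s0
    (.s3
    (.leaf (.box ⟨225, 0, -2048, 8, 21, 157, 460006, 0, 0, 0, 0, 0, 0⟩ ⟨0, 0, 0, 0, 0, 0, 536053, 0, 0, 0, 0, 0, 0⟩ ⟨0, 0, 0, 0, 0, 0, 536053, 0, 0, 0, 0, 0, 0⟩ ⟨0, 0, 0, 0, 0, 0, 642223, 0, 0, 0, 0, 0, 0⟩ ⟨0, 0, 0, 0, 0, 0, 642223, 0, 0, 0, 0, 0, 0⟩ ⟨316, 0, -2830, 6, 17, 217, 800836, 0, 0, 0, 0, 0, 0⟩))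
    (.leaf (.box ⟨272, 0, -2326, 6, 16, 178, 723071, 0, 0, 0, 0, 0, 0⟩ ⟨0, 0, 0, 0, 0, 0, 828849, 0, 0, 0, 0, 0, 0⟩ ⟨0, 0, 0, 0, 0, 0, 828849, 0, 0, 0, 0, 0, 0⟩ ⟨0, 0, 0, 0, 0, 0, 970878, 0, 0, 0, 0, 0, 0⟩ ⟨0, 0, 0, 0, 0, 0, 970878, 0, 0, 0, 0, 0, 0⟩ ⟨423, 0, -3690, 6, 15, 283, 1171648, 0, 0, 0, 0, 0, 0⟩)))
    (.s3
    (.leaf (.box ⟨216, 0, -2048, 8, 23, 168, 507076, 0, 0, 0, 0, 0, 0⟩ ⟨0, 0, 0, 0, 0, 0, 590868, 0, 0, 0, 0, 0, 0⟩ ⟨0, 0, 0, 0, 0, 0, 590868, 0, 0, 0, 0, 0, 0⟩ ⟨0, 0, 0, 0, 0, 0, 707832, 0, 0, 0, 0, 0, 0⟩ ⟨0, 0, 0, 0, 0, 0, 707832, 0, 0, 0, 0, 0, 0⟩ ⟨285, 0, -2725, 6, 18, 223, 882533, 0, 0, 0, 0, 0, 0⟩))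
    (.leaf (.box ⟨293, 0, -2675, 6, 20, 218, 796177, 0, 0, 0, 0, 0, 0⟩ ⟨0, 0, 0, 0, 0, 0, 912635, 0, 0, 0, 0, 0, 0⟩ ⟨0, 0, 0, 0, 0, 0, 912635, 0, 0, 0, 0, 0, 0⟩ ⟨0, 0, 0, 0, 0, 0, 1068999, 0, 0, 0, 0, 0, 0⟩ ⟨0, 0, 0, 0, 0, 0, 1068999, 0, 0, 0, 0, 0, 0⟩ ⟨448, 0, -4186, 6, 19, 342, 1290021, 0, 0, 0, 0, 0, 0⟩)))))
    (.s1
    (.leaf (.box ⟨317, 1, -2048, 9, 24, 169, 582133, 0, 0, 0, 0, 0, 0⟩ ⟨0, 0, 0, 0, 0, 0, 678344, 0, 0, 0, 0, 0, 0⟩ ⟨0, 0, 0, 0, 0, 0, 678344, 0, 0, 0, 0, 0, 0⟩ ⟨0, 0, 0, 0, 0, 0, 812654, 0, 0, 0, 0, 0, 0⟩ ⟨0, 0, 0, 0, 0, 0, 812654, 0, 0, 0, 0, 0, 0⟩ ⟨403, 1, -2750, 6, 19, 226, 1013279, 0, 0, 0, 0, 0, 0⟩))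
    (.s0
    (.leaf (.box ⟨225, 1, -2048, 8, 25, 179, 559946, 0, 0, 0, 0, 0, 0⟩ ⟨0, 0, 0, 0, 0, 0, 652511, 0, 0, 0, 0, 0, 0⟩ ⟨0, 0, 0, 0, 0, 0, 652511, 0, 0, 0, 0, 0, 0⟩ ⟨0, 0, 0, 0, 0, 0, 781740, 0, 0, 0, 0, 0, 0⟩ ⟨0, 0, 0, 0, 0, 0, 781740, 0, 0, 0, 0, 0, 0⟩ ⟨285, 0, -2718, 6, 19, 237, 974797, 0, 0, 0, 0, 0, 0⟩))
    (.leaf (.box ⟨214, 1, -2048, 7, 25, 191, 621289, 0, 0, 0, 0, 0, 0⟩ ⟨0, 0, 0, 0, 0, 0, 723979, 0, 0, 0, 0, 0, 0⟩ ⟨0, 0, 0, 0, 0, 0, 723979, 0, 0, 0, 0, 0, 0⟩ ⟨0, 0, 0, 0, 0, 0, 867337, 0, 0, 0, 0, 0, 0⟩ ⟨0, 0, 0, 0, 0, 0, 867337, 0, 0, 0, 0, 0, 0⟩ ⟨332, 1, -3136, 6, 22, 292, 1081486, 0, 0, 0, 0, 0, 0⟩))))))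

/-- A piece of the tree. -/
noncomputable def tree75 : Tree LeafX :=
  .s0
    (.s1
    (.s2
    (.leaf (.box ⟨431, -1, -2505, 6, 11, 118, 343252, 0, 0, 0, 0, 0, 0⟩ ⟨0, 0, 0, 0, 0, 0, 400006, 0, 0, 0, 0, 0, 0⟩ ⟨0, 0, 0, 0, 0, 0, 400006, 0, 0, 0, 0, 0, 0⟩ ⟨0, 0, 0, 0, 0, 0, 479246, 0, 0, 0, 0, 0, 0⟩ ⟨0, 0, 0, 0, 0, 0, 479246, 0, 0, 0, 0, 0, 0⟩ ⟨748, -1, -4159, 6, 11, 196, 597634, 0, 0, 0, 0, 0, 0⟩))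
    (.leaf (.box ⟨427, -1, -2385, 6, 8, 115, 349047, 0, 0, 0, 0, 0, 0⟩ ⟨0, 0, 0, 0, 0, 0, 406837, 0, 0, 0, 0, 0, 0⟩ ⟨0, 0, 0, 0, 0, 0, 406837, 0, 0, 0, 0, 0, 0⟩ ⟨0, 0, 0, 0, 0, 0, 487559, 0, 0, 0, 0, 0, 0⟩ ⟨0, 0, 0, 0, 0, 0, 487559, 0, 0, 0, 0, 0, 0⟩ ⟨792, -1, -4163, 6, 8, 203, 608241, 0, 0, 0, 0, 0, 0⟩)))
    (.s2
    (.leaf (.box ⟨452, -2, -2048, 10, 5, 121, 319493, 0, 0, 0, 0, 0, 0⟩ ⟨0, 0, 0, 0, 0, 0, 372385, 0, 0, 0, 0, 0, 0⟩ ⟨0, 0, 0, 0, 0, 0, 372385, 0, 0, 0, 0, 0, 0⟩ ⟨0, 0, 0, 0, 0, 0, 446262, 0, 0, 0, 0, 0, 0⟩ ⟨0, 0, 0, 0, 0, 0, 446262, 0, 0, 0, 0, 0, 0⟩ ⟨498, -1, -2216, 6, 3, 131, 556706, 0, 0, 0, 0, 0, 0⟩))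
    (.s1
    (.leaf (.box ⟨274, -1, -2048, 7, 4, 119, 339840, 0, 0, 0, 0, 0, 0⟩ ⟨0, 0, 0, 0, 0, 0, 396158, 0, 0, 0, 0, 0, 0⟩ ⟨0, 0, 0, 0, 0, 0, 396158, 0, 0, 0, 0, 0, 0⟩ ⟨0, 0, 0, 0, 0, 0, 474849, 0, 0, 0, 0, 0, 0⟩ ⟨0, 0, 0, 0, 0, 0, 474849, 0, 0, 0, 0, 0, 0⟩ ⟨453, -1, -3222, 6, 3, 188, 592551, 0, 0, 0, 0, 0, 0⟩))
    (.leaf (.box ⟨296, -1, -2048, 9, -2, 136, 319264, 0, 0, 0, 0, 0, 0⟩ ⟨0, 0, 0, 0, 0, 0, 372118, 0, 0, 0, 0, 0, 0⟩ ⟨0, 0, 0, 0, 0, 0, 372118, 0, 0, 0, 0, 0, 0⟩ ⟨0, 0, 0, 0, 0, 0, 445944, 0, 0, 0, 0, 0, 0⟩ ⟨0, 0, 0, 0, 0, 0, 445944, 0, 0, 0, 0, 0, 0⟩ ⟨369, -1, -2626, 6, -1, 174, 556311, 0, 0, 0, 0, 0, 0⟩)))))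
    (.s1
    (.s2
    (.leaf (.box ⟨453, -1, -2881, 6, 16, 146, 388606, 0, 0, 0, 0, 0, 0⟩ ⟨0, 0, 0, 0, 0, 0, 452858, 0, 0, 0, 0, 0, 0⟩ ⟨0, 0, 0, 0, 0, 0, 452858, 0, 0, 0, 0, 0, 0⟩ ⟨0, 0, 0, 0, 0, 0, 542565, 0, 0, 0, 0, 0, 0⟩ ⟨0, 0, 0, 0, 0, 0, 542565, 0, 0, 0, 0, 0, 0⟩ ⟨779, -1, -4775, 6, 15, 243, 676590, 0, 0, 0, 0, 0, 0⟩))
    (.leaf (.box ⟨463, -1, -2694, 6, 11, 141, 399085, 0, 0, 0, 0, 0, 0⟩ ⟨0, 0, 0, 0, 0, 0, 465266, 0, 0, 0, 0, 0, 0⟩ ⟨0, 0, 0, 0, 0, 0, 465266, 0, 0, 0, 0, 0, 0⟩ ⟨0, 0, 0, 0, 0, 0, 557758, 0, 0, 0, 0, 0, 0⟩ ⟨0, 0, 0, 0, 0, 0, 557758, 0, 0, 0, 0, 0, 0⟩ ⟨808, -1, -4572, 6, 11, 240, 696149, 0, 0, 0, 0, 0, 0⟩)))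
    (.s2
    (.leaf (.box ⟨410, -1, -2048, 10, 9, 129, 351603, 0, 0, 0, 0, 0, 0⟩ ⟨0, 0, 0, 0, 0, 0, 409810, 0, 0, 0, 0, 0, 0⟩ ⟨0, 0, 0, 0, 0, 0, 409810, 0, 0, 0, 0, 0, 0⟩ ⟨0, 0, 0, 0, 0, 0, 491111, 0, 0, 0, 0, 0, 0⟩ ⟨0, 0, 0, 0, 0, 0, 491111, 0, 0, 0, 0, 0, 0⟩ ⟨427, -1, -2048, 6, 5, 130, 612654, 0, 0, 0, 0, 0, 0⟩))
    (.s1
    (.leaf (.box ⟨266, -1, -2048, 7, 7, 128, 377842, 0, 0, 0, 0, 0, 0⟩ ⟨0, 0, 0, 0, 0, 0, 440461, 0, 0, 0, 0, 0, 0⟩ ⟨0, 0, 0, 0, 0, 0, 440461, 0, 0, 0, 0, 0, 0⟩ ⟨0, 0, 0, 0, 0, 0, 527958, 0, 0, 0, 0, 0, 0⟩ ⟨0, 0, 0, 0, 0, 0, 527958, 0, 0, 0, 0, 0, 0⟩ ⟨426, -1, -3287, 6, 6, 205, 658835, 0, 0, 0, 0, 0, 0⟩))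
    (.leaf (.box ⟨259, -1, -2048, 8, 3, 144, 353266, 0, 0, 0, 0, 0, 0⟩ ⟨0, 0, 0, 0, 0, 0, 411753, 0, 0, 0, 0, 0, 0⟩ ⟨0, 0, 0, 0, 0, 0, 411753, 0, 0, 0, 0, 0, 0⟩ ⟨0, 0, 0, 0, 0, 0, 493449, 0, 0, 0, 0, 0, 0⟩ ⟨0, 0, 0, 0, 0, 0, 493449, 0, 0, 0, 0, 0, 0⟩ ⟨345, -1, -2593, 6, 2, 183, 615586, 0, 0, 0, 0, 0, 0⟩)))))

/-- A piece of the tree. -/
noncomputable def tree76 : Tree LeafX :=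
  .s2
    (.leaf (.box ⟨403, -1, -2048, 6, 14, 116, 434452, 0, 0, 0, 0, 0, 0⟩ ⟨0, 0, 0, 0, 0, 0, 506406, 0, 0, 0, 0, 0, 0⟩ ⟨0, 0, 0, 0, 0, 0, 506406, 0, 0, 0, 0, 0, 0⟩ ⟨0, 0, 0, 0, 0, 0, 606924, 0, 0, 0, 0, 0, 0⟩ ⟨0, 0, 0, 0, 0, 0, 606924, 0, 0, 0, 0, 0, 0⟩ ⟨641, 0, -3283, 6, 13, 185, 757229, 0, 0, 0, 0, 0, 0⟩))
    (.leaf (.box ⟨433, -1, -2104, 6, 11, 122, 450288, 0, 0, 0, 0, 0, 0⟩ ⟨0, 0, 0, 0, 0, 0, 524963, 0, 0, 0, 0, 0, 0⟩ ⟨0, 0, 0, 0, 0, 0, 524963, 0, 0, 0, 0, 0, 0⟩ ⟨0, 0, 0, 0, 0, 0, 629329, 0, 0, 0, 0, 0, 0⟩ ⟨0, 0, 0, 0, 0, 0, 629329, 0, 0, 0, 0, 0, 0⟩ ⟨768, -1, -3708, 6, 11, 215, 785489, 0, 0, 0, 0, 0, 0⟩))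

/-- A piece of the tree. -/
noncomputable def tree77 : Tree LeafX :=
  .s3
    (.s3
    (.s2
    (.s1
    (.leaf (.box ⟨317, -1, -2048, 8, 15, 135, 412846, 0, 0, 0, 0, 0, 0⟩ ⟨0, 0, 0, 0, 0, 0, 481221, 0, 0, 0, 0, 0, 0⟩ ⟨0, 0, 0, 0, 0, 0, 481221, 0, 0, 0, 0, 0, 0⟩ ⟨0, 0, 0, 0, 0, 0, 576738, 0, 0, 0, 0, 0, 0⟩ ⟨0, 0, 0, 0, 0, 0, 576738, 0, 0, 0, 0, 0, 0⟩ ⟨421, -1, -2581, 6, 11, 171, 719564, 0, 0, 0, 0, 0, 0⟩))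
    (.leaf (.box ⟨338, -1, -2048, 10, 13, 151, 388613, 0, 0, 0, 0, 0, 0⟩ ⟨0, 0, 0, 0, 0, 0, 452947, 0, 0, 0, 0, 0, 0⟩ ⟨0, 0, 0, 0, 0, 0, 452947, 0, 0, 0, 0, 0, 0⟩ ⟨0, 0, 0, 0, 0, 0, 542807, 0, 0, 0, 0, 0, 0⟩ ⟨0, 0, 0, 0, 0, 0, 542807, 0, 0, 0, 0, 0, 0⟩ ⟨351, -1, -2142, 6, 8, 159, 677146, 0, 0, 0, 0, 0, 0⟩)))
    (.s1
    (.leaf (.box ⟨325, -1, -2048, 8, 11, 141, 424290, 0, 0, 0, 0, 0, 0⟩ ⟨0, 0, 0, 0, 0, 0, 494612, 0, 0, 0, 0, 0, 0⟩ ⟨0, 0, 0, 0, 0, 0, 494612, 0, 0, 0, 0, 0, 0⟩ ⟨0, 0, 0, 0, 0, 0, 592876, 0, 0, 0, 0, 0, 0⟩ ⟨0, 0, 0, 0, 0, 0, 592876, 0, 0, 0, 0, 0, 0⟩ ⟨455, -1, -2936, 6, 9, 202, 739862, 0, 0, 0, 0, 0, 0⟩))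
    (.leaf (.box ⟨316, -1, -2048, 9, 8, 158, 395659, 0, 0, 0, 0, 0, 0⟩ ⟨0, 0, 0, 0, 0, 0, 461174, 0, 0, 0, 0, 0, 0⟩ ⟨0, 0, 0, 0, 0, 0, 461174, 0, 0, 0, 0, 0, 0⟩ ⟨0, 0, 0, 0, 0, 0, 552691, 0, 0, 0, 0, 0, 0⟩ ⟨0, 0, 0, 0, 0, 0, 552691, 0, 0, 0, 0, 0, 0⟩ ⟨346, -1, -2215, 6, 5, 171, 689522, 0, 0, 0, 0, 0, 0⟩))))
    (.s0
    (.s2
    (.leaf (.box ⟨376, -1, -2048, 8, 10, 138, 475524, 0, 0, 0, 0, 0, 0⟩ ⟨0, 0, 0, 0, 0, 0, 550670, 0, 0, 0, 0, 0, 0⟩ ⟨0, 0, 0, 0, 0, 0, 550670, 0, 0, 0, 0, 0, 0⟩ ⟨0, 0, 0, 0, 0, 0, 654022, 0, 0, 0, 0, 0, 0⟩ ⟨0, 0, 0, 0, 0, 0, 654022, 0, 0, 0, 0, 0, 0⟩ ⟨464, -1, -2498, 6, 7, 168, 805134, 0, 0, 0, 0, 0, 0⟩))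
    (.leaf (.box ⟨469, -1, -2048, 8, 7, 150, 484224, 0, 0, 0, 0, 0, 0⟩ ⟨0, 0, 0, 0, 0, 0, 560759, 0, 0, 0, 0, 0, 0⟩ ⟨0, 0, 0, 0, 0, 0, 560759, 0, 0, 0, 0, 0, 0⟩ ⟨0, 0, 0, 0, 0, 0, 666028, 0, 0, 0, 0, 0, 0⟩ ⟨0, 0, 0, 0, 0, 0, 666028, 0, 0, 0, 0, 0, 0⟩ ⟨468, -1, -2048, 8, 7, 150, 819954, 0, 0, 0, 0, 0, 0⟩)))
    (.s2
    (.s1
    (.leaf (.box ⟨307, -1, -2663, 6, 16, 180, 564082, 0, 0, 0, 0, 0, 0⟩ ⟨0, 0, 0, 0, 0, 0, 653241, 0, 0, 0, 0, 0, 0⟩ ⟨0, 0, 0, 0, 0, 0, 653241, 0, 0, 0, 0, 0, 0⟩ ⟨0, 0, 0, 0, 0, 0, 775875, 0, 0, 0, 0, 0, 0⟩ ⟨0, 0, 0, 0, 0, 0, 775875, 0, 0, 0, 0, 0, 0⟩ ⟨515, -1, -4528, 6, 16, 307, 955196, 0, 0, 0, 0, 0, 0⟩))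
    (.leaf (.box ⟨254, -1, -2048, 6, 11, 155, 530632, 0, 0, 0, 0, 0, 0⟩ ⟨0, 0, 0, 0, 0, 0, 614485, 0, 0, 0, 0, 0, 0⟩ ⟨0, 0, 0, 0, 0, 0, 614485, 0, 0, 0, 0, 0, 0⟩ ⟨0, 0, 0, 0, 0, 0, 729813, 0, 0, 0, 0, 0, 0⟩ ⟨0, 0, 0, 0, 0, 0, 729813, 0, 0, 0, 0, 0, 0⟩ ⟨418, -1, -3410, 6, 11, 259, 898432, 0, 0, 0, 0, 0, 0⟩)))
    (.leaf (.box ⟨376, -1, -2048, 8, 9, 153, 547548, 0, 0, 0, 0, 406589290, 0⟩ ⟨0, 0, 0, 0, 0, 0, 634104, 0, 0, 0, 0, 0, 0⟩ ⟨0, 0, 0, 0, 0, 0, 634104, 0, 0, 0, 0, 0, 0⟩ ⟨0, 0, 0, 0, 0, 0, 753162, 0, 0, 0, 0, 0, 0⟩ ⟨0, 0, 0, 0, 0, 0, 753162, 0, 0, 0, 0, 0, 0⟩ ⟨487, -1, -2728, 6, 7, 204, 927262, 0, 0, 0, 0, 200859688, 0⟩)))))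
    (.s0
    (.s2
    (.s1
    (.leaf (.box ⟨390, -1, -3119, 6, 13, 198, 650785, 0, 0, 0, 0, 0, 0⟩ ⟨0, 0, 0, 0, 0, 0, 746094, 0, 0, 0, 0, 0, 0⟩ ⟨0, 0, 0, 0, 0, 0, 746094, 0, 0, 0, 0, 0, 0⟩ ⟨0, 0, 0, 0, 0, 0, 874109, 0, 0, 0, 0, 0, 0⟩ ⟨0, 0, 0, 0, 0, 0, 874109, 0, 0, 0, 0, 0, 0⟩ ⟨635, -1, -5162, 6, 13, 328, 1055151, 0, 0, 0, 0, 0, 0⟩))
    (.leaf (.box ⟨322, -1, -2489, 6, 8, 178, 612221, 0, 0, 0, 0, 0, 0⟩ ⟨0, 0, 0, 0, 0, 0, 701857, 0, 0, 0, 0, 0, 0⟩ ⟨0, 0, 0, 0, 0, 0, 701857, 0, 0, 0, 0, 0, 0⟩ ⟨0, 0, 0, 0, 0, 0, 822243, 0, 0, 0, 0, 0, 0⟩ ⟨0, 0, 0, 0, 0, 0, 822243, 0, 0, 0, 0, 0, 0⟩ ⟨531, -1, -3925, 6, 8, 281, 992476, 0, 0, 0, 0, 0, 0⟩)))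
    (.s1
    (.leaf (.box ⟨389, -1, -3092, 6, 9, 205, 669536, 0, 0, 0, 0, 0, 0⟩ ⟨0, 0, 0, 0, 0, 0, 767640, 0, 0, 0, 0, 0, 0⟩ ⟨0, 0, 0, 0, 0, 0, 767640, 0, 0, 0, 0, 0, 0⟩ ⟨0, 0, 0, 0, 0, 0, 899427, 0, 0, 0, 0, 0, 0⟩ ⟨0, 0, 0, 0, 0, 0, 899427, 0, 0, 0, 0, 0, 0⟩ ⟨628, -1, -5159, 6, 9, 343, 1085843, 0, 0, 0, 0, 0, 0⟩))
    (.leaf (.box ⟨308, -1, -2471, 6, 5, 185, 623520, 0, 0, 0, 0, 0, 0⟩ ⟨0, 0, 0, 0, 0, 0, 714824, 0, 0, 0, 0, 0, 0⟩ ⟨0, 0, 0, 0, 0, 0, 714824, 0, 0, 0, 0, 0, 0⟩ ⟨0, 0, 0, 0, 0, 0, 837455, 0, 0, 0, 0, 0, 0⟩ ⟨0, 0, 0, 0, 0, 0, 837455, 0, 0, 0, 0, 0, 0⟩ ⟨502, -1, -4110, 6, 5, 307, 1010873, 0, 0, 0, 0, 0, 0⟩))))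
    (.s3
    (.s2
    (.s1
    (.leaf (.box ⟨417, -1, -3622, 6, 17, 245, 726366, 0, 0, 0, 0, 0, 0⟩ ⟨0, 0, 0, 0, 0, 0, 832732, 0, 0, 0, 0, 0, 0⟩ ⟨0, 0, 0, 0, 0, 0, 832732, 0, 0, 0, 0, 0, 0⟩ ⟨0, 0, 0, 0, 0, 0, 975594, 0, 0, 0, 0, 0, 0⟩ ⟨0, 0, 0, 0, 0, 0, 975594, 0, 0, 0, 0, 0, 0⟩ ⟨633, -1, -5536, 6, 16, 375, 1177624, 0, 0, 0, 0, 0, 0⟩))
    (.leaf (.box ⟨320, -1, -2649, 6, 11, 201, 683163, 0, 0, 0, 0, 0, 0⟩ ⟨0, 0, 0, 0, 0, 0, 783185, 0, 0, 0, 0, 0, 0⟩ ⟨0, 0, 0, 0, 0, 0, 783185, 0, 0, 0, 0, 0, 0⟩ ⟨0, 0, 0, 0, 0, 0, 917518, 0, 0, 0, 0, 0, 0⟩ ⟨0, 0, 0, 0, 0, 0, 917518, 0, 0, 0, 0, 0, 0⟩ ⟨528, -1, -4264, 6, 11, 324, 1107473, 0, 0, 0, 0, 0, 0⟩)))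
    (.leaf (.box ⟨368, -1, -2048, 9, 10, 153, 705145, 0, 0, 0, 0, 0, 0⟩ ⟨0, 0, 0, 0, 0, 0, 808413, 0, 0, 0, 0, 0, 0⟩ ⟨0, 0, 0, 0, 0, 0, 808413, 0, 0, 0, 0, 0, 0⟩ ⟨0, 0, 0, 0, 0, 0, 947118, 0, 0, 0, 0, 0, 0⟩ ⟨0, 0, 0, 0, 0, 0, 947118, 0, 0, 0, 0, 0, 0⟩ ⟨646, -1, -3592, 6, 7, 268, 1143277, 0, 0, 0, 0, 26754458, 0⟩)))
    (.s2
    (.s1
    (.leaf (.box ⟨561, -1, -4743, 6, 16, 320, 1018922, 0, 0, 0, 0, 0, 0⟩ ⟨0, 0, 0, 0, 0, 0, 1147401, 0, 0, 0, 0, 0, 0⟩ ⟨0, 0, 0, 0, 0, 0, 1147401, 0, 0, 0, 0, 0, 0⟩ ⟨0, 0, 0, 0, 0, 0, 1312956, 0, 0, 0, 0, 0, 0⟩ ⟨0, 0, 0, 0, 0, 0, 1312956, 0, 0, 0, 0, 0, 0⟩ ⟨834, -1, -7220, 6, 16, 488, 1534340, 0, 0, 0, 0, 0, 0⟩))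
    (.leaf (.box ⟨458, -1, -3557, 6, 11, 270, 958136, 0, 0, 0, 0, 0, 0⟩ ⟨0, 0, 0, 0, 0, 0, 1078935, 0, 0, 0, 0, 0, 0⟩ ⟨0, 0, 0, 0, 0, 0, 1078935, 0, 0, 0, 0, 0, 0⟩ ⟨0, 0, 0, 0, 0, 0, 1234586, 0, 0, 0, 0, 0, 0⟩ ⟨0, 0, 0, 0, 0, 0, 1234586, 0, 0, 0, 0, 0, 0⟩ ⟨716, -1, -5837, 6, 12, 443, 1442719, 0, 0, 0, 0, 0, 0⟩)))
    (.s1
    (.leaf (.box ⟨555, -1, -4841, 6, 12, 341, 1062514, 0, 0, 0, 0, 0, 0⟩ ⟨0, 0, 0, 0, 0, 0, 1196556, 0, 0, 0, 0, 0, 0⟩ ⟨0, 0, 0, 0, 0, 0, 1196556, 0, 0, 0, 0, 0, 0⟩ ⟨0, 0, 0, 0, 0, 0, 1369299, 0, 0, 0, 0, 0, 0⟩ ⟨0, 0, 0, 0, 0, 0, 1369299, 0, 0, 0, 0, 0, 0⟩ ⟨840, -1, -7245, 6, 12, 510, 1600335, 0, 0, 0, 0, 0, 0⟩))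
    (.leaf (.box ⟨464, -1, -3879, 6, 8, 307, 989252, 0, 0, 0, 0, 0, 0⟩ ⟨0, 0, 0, 0, 0, 0, 1113999, 0, 0, 0, 0, 0, 0⟩ ⟨0, 0, 0, 0, 0, 0, 1113999, 0, 0, 0, 0, 0, 0⟩ ⟨0, 0, 0, 0, 0, 0, 1274746, 0, 0, 0, 0, 0, 0⟩ ⟨0, 0, 0, 0, 0, 0, 1274746, 0, 0, 0, 0, 0, 0⟩ ⟨681, -1, -5613, 6, 8, 444, 1489707, 0, 0, 0, 0, 0, 0⟩))))))

/-- A piece of the tree. -/
noncomputable def tree78 : Tree LeafX :=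
  .s1
    (.leaf (.box ⟨574, -3, -2048, 32, 11, 141, 545561, 0, 0, 0, 0, 1693170610, 0⟩ ⟨0, 0, 0, 0, 0, 0, 635859, 0, 0, 0, 0, 0, 0⟩ ⟨0, 0, 0, 0, 0, 0, 635859, 0, 0, 0, 0, 0, 0⟩ ⟨0, 0, 0, 0, 0, 0, 761975, 0, 0, 0, 0, 0, 0⟩ ⟨0, 0, 0, 0, 0, 0, 761975, 0, 0, 0, 0, 0, 0⟩ ⟨533, -2, -2048, 17, 6, 139, 950497, 0, 0, 0, 0, 2205406367, 0⟩))
    (.s1
    (.s2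
    (.leaf (.box ⟨420, 0, -2048, 8, 18, 159, 516992, 0, 0, 0, 0, 0, 0⟩ ⟨0, 0, 0, 0, 0, 0, 602581, 0, 0, 0, 0, 0, 0⟩ ⟨0, 0, 0, 0, 0, 0, 602581, 0, 0, 0, 0, 0, 0⟩ ⟨0, 0, 0, 0, 0, 0, 722131, 0, 0, 0, 0, 0, 0⟩ ⟨0, 0, 0, 0, 0, 0, 722131, 0, 0, 0, 0, 0, 0⟩ ⟨525, 0, -2574, 6, 13, 199, 900858, 0, 0, 0, 0, 0, 0⟩))
    (.leaf (.box ⟨461, -2, -2048, 13, 13, 168, 543909, 0, 0, 0, 0, 0, 0⟩ ⟨0, 0, 0, 0, 0, 0, 634070, 0, 0, 0, 0, 0, 0⟩ ⟨0, 0, 0, 0, 0, 0, 634070, 0, 0, 0, 0, 0, 0⟩ ⟨0, 0, 0, 0, 0, 0, 760062, 0, 0, 0, 0, 0, 0⟩ ⟨0, 0, 0, 0, 0, 0, 760062, 0, 0, 0, 0, 0, 0⟩ ⟨460, -1, -2048, 7, 7, 168, 948538, 0, 0, 0, 0, 0, 0⟩)))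
    (.s0
    (.s2
    (.s0
    (.leaf (.box ⟨236, 0, -2078, 6, 16, 165, 487216, 0, 0, 0, 0, 0, 0⟩ ⟨0, 0, 0, 0, 0, 0, 567867, 0, 0, 0, 0, 0, 0⟩ ⟨0, 0, 0, 0, 0, 0, 567867, 0, 0, 0, 0, 0, 0⟩ ⟨0, 0, 0, 0, 0, 0, 680515, 0, 0, 0, 0, 0, 0⟩ ⟨0, 0, 0, 0, 0, 0, 680515, 0, 0, 0, 0, 0, 0⟩ ⟨425, 0, -3528, 6, 16, 284, 848914, 0, 0, 0, 0, 0, 0⟩))
    (.leaf (.box ⟨284, 0, -2445, 6, 20, 208, 549588, 0, 0, 0, 0, 0, 0⟩ ⟨0, 0, 0, 0, 0, 0, 640551, 0, 0, 0, 0, 0, 0⟩ ⟨0, 0, 0, 0, 0, 0, 640551, 0, 0, 0, 0, 0, 0⟩ ⟨0, 0, 0, 0, 0, 0, 767596, 0, 0, 0, 0, 0, 0⟩ ⟨0, 0, 0, 0, 0, 0, 767596, 0, 0, 0, 0, 0, 0⟩ ⟨499, 0, -4147, 6, 20, 353, 957504, 0, 0, 0, 0, 0, 0⟩)))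
    (.leaf (.box ⟨325, -1, -2048, 8, 13, 177, 508712, 0, 0, 0, 0, 0, 0⟩ ⟨0, 0, 0, 0, 0, 0, 592975, 0, 0, 0, 0, 0, 0⟩ ⟨0, 0, 0, 0, 0, 0, 592975, 0, 0, 0, 0, 0, 0⟩ ⟨0, 0, 0, 0, 0, 0, 710694, 0, 0, 0, 0, 0, 0⟩ ⟨0, 0, 0, 0, 0, 0, 710694, 0, 0, 0, 0, 0, 0⟩ ⟨429, -1, -2795, 6, 10, 241, 886730, 0, 0, 0, 0, 0, 0⟩)))
    (.leaf (.box ⟨362, -1, -2048, 11, 15, 195, 620852, 0, 0, 0, 0, 0, 0⟩ ⟨0, 0, 0, 0, 0, 0, 723587, 0, 0, 0, 0, 0, 0⟩ ⟨0, 0, 0, 0, 0, 0, 723587, 0, 0, 0, 0, 0, 0⟩ ⟨0, 0, 0, 0, 0, 0, 867064, 0, 0, 0, 0, 0, 0⟩ ⟨0, 0, 0, 0, 0, 0, 867064, 0, 0, 0, 0, 0, 0⟩ ⟨364, -1, -2048, 7, 9, 195, 1081511, 0, 0, 0, 0, 0, 0⟩))))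

/-- A piece of the tree. -/
noncomputable def tree79 : Tree LeafX :=
  .s2
    (.s2
    (.leaf (.box ⟨706, -1, -2048, 20, 14, 159, 304854, 0, 0, 0, 0, 0, 0⟩ ⟨0, 0, 0, 0, 0, 0, 355283, 0, 0, 0, 0, 0, 0⟩ ⟨0, 0, 0, 0, 0, 0, 355283, 0, 0, 0, 0, 0, 0⟩ ⟨0, 0, 0, 0, 0, 0, 425701, 0, 0, 0, 0, 0, 0⟩ ⟨0, 0, 0, 0, 0, 0, 425701, 0, 0, 0, 0, 0, 0⟩ ⟨796, -1, -2048, 13, 8, 163, 530933, 0, 0, 0, 0, 0, 0⟩))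
    (.leaf (.box ⟨757, -1, -2048, 22, 10, 170, 295106, 0, 0, 0, 0, 0, 0⟩ ⟨0, 0, 0, 0, 0, 0, 343904, 0, 0, 0, 0, 0, 0⟩ ⟨0, 0, 0, 0, 0, 0, 343904, 0, 0, 0, 0, 0, 0⟩ ⟨0, 0, 0, 0, 0, 0, 412037, 0, 0, 0, 0, 0, 0⟩ ⟨0, 0, 0, 0, 0, 0, 412037, 0, 0, 0, 0, 0, 0⟩ ⟨813, -1, -2048, 13, 6, 174, 513835, 0, 0, 0, 0, 0, 0⟩)))
    (.s2
    (.leaf (.box ⟨682, -1, -2048, 22, 5, 177, 286978, 0, 0, 0, 0, 0, 0⟩ ⟨0, 0, 0, 0, 0, 0, 334428, 0, 0, 0, 0, 0, 0⟩ ⟨0, 0, 0, 0, 0, 0, 334428, 0, 0, 0, 0, 0, 0⟩ ⟨0, 0, 0, 0, 0, 0, 400677, 0, 0, 0, 0, 0, 0⟩ ⟨0, 0, 0, 0, 0, 0, 400677, 0, 0, 0, 0, 0, 0⟩ ⟨678, 0, -2048, 13, 3, 177, 499656, 0, 0, 0, 0, 0, 0⟩))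
    (.s2
    (.leaf (.box ⟨656, -1, -2048, 22, 0, 184, 283641, 0, 0, 0, 0, 0, 0⟩ ⟨0, 0, 0, 0, 0, 0, 330537, 0, 0, 0, 0, 0, 0⟩ ⟨0, 0, 0, 0, 0, 0, 330537, 0, 0, 0, 0, 0, 0⟩ ⟨0, 0, 0, 0, 0, 0, 396010, 0, 0, 0, 0, 0, 0⟩ ⟨0, 0, 0, 0, 0, 0, 396010, 0, 0, 0, 0, 0, 0⟩ ⟨667, 0, -2048, 14, 0, 185, 493829, 0, 0, 0, 0, 0, 0⟩))
    (.s0
    (.leaf (.box ⟨492, 0, -2048, 15, -10, 175, 280788, 0, 0, 0, 0, 13391113887, 0⟩ ⟨0, 0, 0, 0, 0, 0, 327209, 0, 0, 0, 0, 0, 0⟩ ⟨0, 0, 0, 0, 0, 0, 327209, 0, 0, 0, 0, 0, 0⟩ ⟨0, 0, 0, 0, 0, 0, 392019, 0, 0, 0, 0, 0, 0⟩ ⟨0, 0, 0, 0, 0, 0, 392019, 0, 0, 0, 0, 0, 0⟩ ⟨501, 0, -2048, 9, -6, 176, 488844, 0, 0, 0, 0, 13450163243, 0⟩))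
    (.leaf (.box ⟨438, 0, -2048, 13, 2, 192, 351317, 0, 0, 0, 0, 12555724849, 0⟩ ⟨0, 0, 0, 0, 0, 0, 409404, 0, 0, 0, 0, 0, 0⟩ ⟨0, 0, 0, 0, 0, 0, 409404, 0, 0, 0, 0, 0, 0⟩ ⟨0, 0, 0, 0, 0, 0, 490503, 0, 0, 0, 0, 0, 0⟩ ⟨0, 0, 0, 0, 0, 0, 490503, 0, 0, 0, 0, 0, 0⟩ ⟨433, 0, -2048, 8, 1, 192, 611668, 0, 0, 0, 0, 12571306856, 0⟩)))))

/-- A piece of the tree. -/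
noncomputable def tree80 : Tree LeafX :=
  .s2
    (.s1
    (.s0
    (.leaf (.box ⟨262, 0, -2048, 9, 21, 177, 441421, 0, 0, 0, 0, 0, 0⟩ ⟨0, 0, 0, 0, 0, 0, 514442, 0, 0, 0, 0, 0, 0⟩ ⟨0, 0, 0, 0, 0, 0, 514442, 0, 0, 0, 0, 0, 0⟩ ⟨0, 0, 0, 0, 0, 0, 616408, 0, 0, 0, 0, 0, 0⟩ ⟨0, 0, 0, 0, 0, 0, 616408, 0, 0, 0, 0, 0, 0⟩ ⟨311, 0, -2547, 6, 15, 220, 768787, 0, 0, 0, 0, 0, 0⟩))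
    (.s3
    (.leaf (.box ⟨240, 0, -2048, 9, 23, 187, 487707, 0, 0, 0, 0, 0, 0⟩ ⟨0, 0, 0, 0, 0, 0, 568349, 0, 0, 0, 0, 0, 0⟩ ⟨0, 0, 0, 0, 0, 0, 568349, 0, 0, 0, 0, 0, 0⟩ ⟨0, 0, 0, 0, 0, 0, 680941, 0, 0, 0, 0, 0, 0⟩ ⟨0, 0, 0, 0, 0, 0, 680941, 0, 0, 0, 0, 0, 0⟩ ⟨276, 0, -2483, 6, 16, 227, 849164, 0, 0, 0, 0, 0, 0⟩))
    (.leaf (.box ⟨254, 0, -2143, 6, 16, 196, 766977, 0, 0, 0, 0, 0, 0⟩ ⟨0, 0, 0, 0, 0, 0, 879184, 0, 0, 0, 0, 0, 0⟩ ⟨0, 0, 0, 0, 0, 0, 879184, 0, 0, 0, 0, 0, 0⟩ ⟨0, 0, 0, 0, 0, 0, 1029847, 0, 0, 0, 0, 0, 0⟩ ⟨0, 0, 0, 0, 0, 0, 1029847, 0, 0, 0, 0, 0, 0⟩ ⟨428, 0, -3688, 6, 17, 338, 1242826, 0, 0, 0, 0, 0, 0⟩))))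
    (.leaf (.box ⟨355, 0, -2048, 12, 23, 207, 428887, 0, 0, 0, 0, 0, 0⟩ ⟨0, 0, 0, 0, 0, 0, 499893, 0, 0, 0, 0, 0, 0⟩ ⟨0, 0, 0, 0, 0, 0, 499893, 0, 0, 0, 0, 0, 0⟩ ⟨0, 0, 0, 0, 0, 0, 599075, 0, 0, 0, 0, 0, 0⟩ ⟨0, 0, 0, 0, 0, 0, 599075, 0, 0, 0, 0, 0, 0⟩ ⟨337, 0, -2048, 7, 13, 207, 747355, 0, 0, 0, 0, 0, 0⟩)))
    (.s1
    (.s2
    (.s0
    (.leaf (.box ⟨250, 0, -2048, 7, 15, 186, 461563, 0, 0, 0, 0, 0, 0⟩ ⟨0, 0, 0, 0, 0, 0, 537954, 0, 0, 0, 0, 0, 0⟩ ⟨0, 0, 0, 0, 0, 0, 537954, 0, 0, 0, 0, 0, 0⟩ ⟨0, 0, 0, 0, 0, 0, 644644, 0, 0, 0, 0, 0, 0⟩ ⟨0, 0, 0, 0, 0, 0, 644644, 0, 0, 0, 0, 0, 0⟩ ⟨369, 0, -3079, 6, 13, 280, 804122, 0, 0, 0, 0, 0, 0⟩))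
    (.leaf (.box ⟨238, 0, -2064, 6, 17, 197, 523033, 0, 0, 0, 0, 0, 0⟩ ⟨0, 0, 0, 0, 0, 0, 609600, 0, 0, 0, 0, 0, 0⟩ ⟨0, 0, 0, 0, 0, 0, 609600, 0, 0, 0, 0, 0, 0⟩ ⟨0, 0, 0, 0, 0, 0, 730504, 0, 0, 0, 0, 0, 0⟩ ⟨0, 0, 0, 0, 0, 0, 730504, 0, 0, 0, 0, 0, 0⟩ ⟨437, 0, -3810, 6, 18, 365, 911232, 0, 0, 0, 0, 0, 0⟩)))
    (.leaf (.box ⟨297, 0, -2048, 8, 12, 198, 478385, 0, 0, 0, 0, 0, 0⟩ ⟨0, 0, 0, 0, 0, 0, 557562, 0, 0, 0, 0, 0, 0⟩ ⟨0, 0, 0, 0, 0, 0, 557562, 0, 0, 0, 0, 0, 0⟩ ⟨0, 0, 0, 0, 0, 0, 668145, 0, 0, 0, 0, 0, 0⟩ ⟨0, 0, 0, 0, 0, 0, 668145, 0, 0, 0, 0, 0, 0⟩ ⟨394, 0, -2666, 6, 9, 258, 833445, 0, 0, 0, 0, 0, 0⟩)))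
    (.s2
    (.leaf (.box ⟨326, 0, -2048, 10, 16, 217, 444126, 0, 0, 0, 0, 0, 0⟩ ⟨0, 0, 0, 0, 0, 0, 517631, 0, 0, 0, 0, 0, 0⟩ ⟨0, 0, 0, 0, 0, 0, 517631, 0, 0, 0, 0, 0, 0⟩ ⟨0, 0, 0, 0, 0, 0, 620292, 0, 0, 0, 0, 0, 0⟩ ⟨0, 0, 0, 0, 0, 0, 620292, 0, 0, 0, 0, 0, 0⟩ ⟨354, 0, -2291, 6, 11, 243, 773747, 0, 0, 0, 0, 0, 0⟩))
    (.leaf (.box ⟨300, 0, -2048, 9, 12, 223, 457270, 0, 0, 0, 0, 0, 0⟩ ⟨0, 0, 0, 0, 0, 0, 532910, 0, 0, 0, 0, 0, 0⟩ ⟨0, 0, 0, 0, 0, 0, 532910, 0, 0, 0, 0, 0, 0⟩ ⟨0, 0, 0, 0, 0, 0, 638534, 0, 0, 0, 0, 0, 0⟩ ⟨0, 0, 0, 0, 0, 0, 638534, 0, 0, 0, 0, 0, 0⟩ ⟨343, 0, -2420, 6, 8, 264, 796376, 0, 0, 0, 0, 0, 0⟩))))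

/-- A piece of the tree. -/
noncomputable def tree81 : Tree LeafX :=
  .s2
    (.s1
    (.s0
    (.s3
    (.leaf (.box ⟨220, 0, -2048, 8, 25, 199, 541710, 0, 0, 0, 0, 0, 0⟩ ⟨0, 0, 0, 0, 0, 0, 631248, 0, 0, 0, 0, 0, 0⟩ ⟨0, 0, 0, 0, 0, 0, 631248, 0, 0, 0, 0, 0, 0⟩ ⟨0, 0, 0, 0, 0, 0, 756246, 0, 0, 0, 0, 0, 0⟩ ⟨0, 0, 0, 0, 0, 0, 756246, 0, 0, 0, 0, 0, 0⟩ ⟨284, 0, -2664, 6, 19, 259, 942970, 0, 0, 0, 0, 0, 0⟩))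
    (.leaf (.box ⟨252, 0, -2295, 6, 18, 223, 851118, 0, 0, 0, 0, 0, 0⟩ ⟨0, 0, 0, 0, 0, 0, 975622, 0, 0, 0, 0, 0, 0⟩ ⟨0, 0, 0, 0, 0, 0, 975622, 0, 0, 0, 0, 0, 0⟩ ⟨0, 0, 0, 0, 0, 0, 1142791, 0, 0, 0, 0, 0, 0⟩ ⟨0, 0, 0, 0, 0, 0, 1142791, 0, 0, 0, 0, 0, 0⟩ ⟨448, 0, -4090, 6, 20, 397, 1379094, 0, 0, 0, 0, 0, 0⟩)))
    (.s2
    (.leaf (.box ⟨212, 1, -2341, 6, 31, 239, 602849, 0, 0, 0, 0, 0, 0⟩ ⟨0, 0, 0, 0, 0, 0, 702514, 0, 0, 0, 0, 0, 0⟩ ⟨0, 0, 0, 0, 0, 0, 702514, 0, 0, 0, 0, 0, 0⟩ ⟨0, 0, 0, 0, 0, 0, 841660, 0, 0, 0, 0, 0, 0⟩ ⟨0, 0, 0, 0, 0, 0, 841660, 0, 0, 0, 0, 0, 0⟩ ⟨402, 1, -4191, 6, 32, 429, 1049539, 0, 0, 0, 0, 0, 0⟩))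
    (.leaf (.box ⟨262, 0, -2441, 6, 27, 254, 636418, 0, 0, 0, 0, 0, 0⟩ ⟨0, 0, 0, 0, 0, 0, 741650, 0, 0, 0, 0, 0, 0⟩ ⟨0, 0, 0, 0, 0, 0, 741650, 0, 0, 0, 0, 0, 0⟩ ⟨0, 0, 0, 0, 0, 0, 888577, 0, 0, 0, 0, 0, 0⟩ ⟨0, 0, 0, 0, 0, 0, 888577, 0, 0, 0, 0, 0, 0⟩ ⟨488, 0, -4569, 6, 29, 476, 1108099, 0, 0, 0, 0, 0, 0⟩))))
    (.s0
    (.leaf (.box ⟨248, 0, -2048, 8, 25, 219, 528947, 0, 0, 0, 0, 0, 0⟩ ⟨0, 0, 0, 0, 0, 0, 616468, 0, 0, 0, 0, 0, 0⟩ ⟨0, 0, 0, 0, 0, 0, 616468, 0, 0, 0, 0, 0, 0⟩ ⟨0, 0, 0, 0, 0, 0, 738694, 0, 0, 0, 0, 0, 0⟩ ⟨0, 0, 0, 0, 0, 0, 738694, 0, 0, 0, 0, 0, 0⟩ ⟨295, 0, -2496, 6, 18, 272, 921372, 0, 0, 0, 0, 0, 0⟩))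
    (.s3
    (.leaf (.box ⟨232, 0, -2048, 8, 26, 235, 592560, 0, 0, 0, 0, 0, 0⟩ ⟨0, 0, 0, 0, 0, 0, 690553, 0, 0, 0, 0, 0, 0⟩ ⟨0, 0, 0, 0, 0, 0, 690553, 0, 0, 0, 0, 0, 0⟩ ⟨0, 0, 0, 0, 0, 0, 827379, 0, 0, 0, 0, 0, 0⟩ ⟨0, 0, 0, 0, 0, 0, 827379, 0, 0, 0, 0, 0, 0⟩ ⟨311, 0, -2875, 6, 21, 330, 1031822, 0, 0, 0, 0, 0, 0⟩))
    (.leaf (.box ⟨292, 0, -2644, 6, 22, 304, 932117, 0, 0, 0, 0, 0, 0⟩ ⟨0, 0, 0, 0, 0, 0, 1068494, 0, 0, 0, 0, 0, 0⟩ ⟨0, 0, 0, 0, 0, 0, 1068494, 0, 0, 0, 0, 0, 0⟩ ⟨0, 0, 0, 0, 0, 0, 1251615, 0, 0, 0, 0, 0, 0⟩ ⟨0, 0, 0, 0, 0, 0, 1251615, 0, 0, 0, 0, 0, 0⟩ ⟨414, 0, -3776, 6, 19, 435, 1510486, 0, 0, 0, 0, 0, 0⟩)))))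
    (.s2
    (.s1
    (.s0
    (.leaf (.box ⟨289, 0, -2536, 6, 22, 256, 594386, 0, 0, 0, 0, 0, 0⟩ ⟨0, 0, 0, 0, 0, 0, 692757, 0, 0, 0, 0, 0, 0⟩ ⟨0, 0, 0, 0, 0, 0, 692757, 0, 0, 0, 0, 0, 0⟩ ⟨0, 0, 0, 0, 0, 0, 830147, 0, 0, 0, 0, 0, 0⟩ ⟨0, 0, 0, 0, 0, 0, 830147, 0, 0, 0, 0, 0, 0⟩ ⟨501, 0, -4448, 6, 22, 450, 1035511, 0, 0, 0, 0, 0, 0⟩))
    (.leaf (.box ⟨328, 0, -2840, 6, 24, 305, 675696, 0, 0, 0, 0, 0, 0⟩ ⟨0, 0, 0, 0, 0, 0, 787509, 0, 0, 0, 0, 0, 0⟩ ⟨0, 0, 0, 0, 0, 0, 787509, 0, 0, 0, 0, 0, 0⟩ ⟨0, 0, 0, 0, 0, 0, 943664, 0, 0, 0, 0, 0, 0⟩ ⟨0, 0, 0, 0, 0, 0, 943664, 0, 0, 0, 0, 0, 0⟩ ⟨623, 0, -5390, 6, 26, 579, 1177063, 0, 0, 0, 0, 0, 0⟩)))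
    (.s0
    (.leaf (.box ⟨302, 0, -2648, 6, 24, 300, 578259, 0, 0, 0, 0, 0, 0⟩ ⟨0, 0, 0, 0, 0, 0, 673991, 0, 0, 0, 0, 0, 0⟩ ⟨0, 0, 0, 0, 0, 0, 673991, 0, 0, 0, 0, 0, 0⟩ ⟨0, 0, 0, 0, 0, 0, 807709, 0, 0, 0, 0, 0, 0⟩ ⟨0, 0, 0, 0, 0, 0, 807709, 0, 0, 0, 0, 0, 0⟩ ⟨438, 0, -3871, 6, 20, 440, 1007616, 0, 0, 0, 0, 0, 0⟩))
    (.leaf (.box ⟨364, 0, -3296, 6, 30, 395, 662071, 0, 0, 0, 0, 0, 0⟩ ⟨0, 0, 0, 0, 0, 0, 771680, 0, 0, 0, 0, 0, 0⟩ ⟨0, 0, 0, 0, 0, 0, 771680, 0, 0, 0, 0, 0, 0⟩ ⟨0, 0, 0, 0, 0, 0, 924781, 0, 0, 0, 0, 0, 0⟩ ⟨0, 0, 0, 0, 0, 0, 924781, 0, 0, 0, 0, 0, 0⟩ ⟨583, 0, -5408, 6, 28, 648, 1153668, 0, 0, 0, 0, 0, 0⟩))))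
    (.leaf (.box ⟨454, -1, -2048, 9, 14, 234, 611070, 0, 0, 0, 0, 0, 0⟩ ⟨0, 0, 0, 0, 0, 0, 712222, 0, 0, 0, 0, 0, 0⟩ ⟨0, 0, 0, 0, 0, 0, 712222, 0, 0, 0, 0, 0, 0⟩ ⟨0, 0, 0, 0, 0, 0, 853505, 0, 0, 0, 0, 0, 0⟩ ⟨0, 0, 0, 0, 0, 0, 853505, 0, 0, 0, 0, 0, 0⟩ ⟨534, 0, -2481, 6, 10, 283, 1064709, 0, 0, 0, 0, 0, 0⟩)))

/-- A piece of the tree. -/
noncomputable def tree82 : Tree LeafX :=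
  .s0
    (.s0
    (.leaf (.box ⟨1143, -1, -2048, 32, 0, 268, 271701, 0, 0, 0, 0, 24714689787, 0⟩ ⟨0, 0, 0, 0, 0, 0, 316617, 0, 0, 0, 0, 0, 0⟩ ⟨0, 0, 0, 0, 0, 0, 316617, 0, 0, 0, 0, 0, 0⟩ ⟨0, 0, 0, 0, 0, 0, 379325, 0, 0, 0, 0, 0, 0⟩ ⟨0, 0, 0, 0, 0, 0, 379325, 0, 0, 0, 0, 0, 0⟩ ⟨1133, -1, -2048, 19, 0, 270, 473005, 0, 0, 0, 0, 25595563911, 0⟩))
    (.s2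
    (.leaf (.box ⟨576, -2, -2048, 15, 17, 245, 344712, 0, 0, 0, 0, 0, 0⟩ ⟨0, 0, 0, 0, 0, 0, 401754, 0, 0, 0, 0, 0, 0⟩ ⟨0, 0, 0, 0, 0, 0, 401754, 0, 0, 0, 0, 0, 0⟩ ⟨0, 0, 0, 0, 0, 0, 481416, 0, 0, 0, 0, 0, 0⟩ ⟨0, 0, 0, 0, 0, 0, 481416, 0, 0, 0, 0, 0, 0⟩ ⟨563, -1, -2048, 9, 10, 247, 600483, 0, 0, 0, 0, 0, 0⟩))
    (.leaf (.box ⟨522, 0, -2048, 18, 7, 259, 337122, 0, 0, 0, 0, 27702204282, 0⟩ ⟨0, 0, 0, 0, 0, 0, 392852, 0, 0, 0, 0, 0, 0⟩ ⟨0, 0, 0, 0, 0, 0, 392852, 0, 0, 0, 0, 0, 0⟩ ⟨0, 0, 0, 0, 0, 0, 470657, 0, 0, 0, 0, 0, 0⟩ ⟨0, 0, 0, 0, 0, 0, 470657, 0, 0, 0, 0, 0, 0⟩ ⟨447, 0, -2048, 10, 4, 254, 586890, 0, 0, 0, 0, 27528290707, 0⟩))))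
    (.s2
    (.s0
    (.leaf (.box ⟨504, -1, -2048, 13, 25, 252, 423953, 0, 0, 0, 0, 0, 0⟩ ⟨0, 0, 0, 0, 0, 0, 494197, 0, 0, 0, 0, 0, 0⟩ ⟨0, 0, 0, 0, 0, 0, 494197, 0, 0, 0, 0, 0, 0⟩ ⟨0, 0, 0, 0, 0, 0, 592341, 0, 0, 0, 0, 0, 0⟩ ⟨0, 0, 0, 0, 0, 0, 592341, 0, 0, 0, 0, 0, 0⟩ ⟨508, -1, -2048, 9, 14, 253, 739125, 0, 0, 0, 0, 0, 0⟩))
    (.s3
    (.leaf (.box ⟨386, -1, -2048, 11, 29, 264, 524296, 0, 0, 0, 0, 0, 0⟩ ⟨0, 0, 0, 0, 0, 0, 611148, 0, 0, 0, 0, 0, 0⟩ ⟨0, 0, 0, 0, 0, 0, 611148, 0, 0, 0, 0, 0, 0⟩ ⟨0, 0, 0, 0, 0, 0, 732488, 0, 0, 0, 0, 0, 0⟩ ⟨0, 0, 0, 0, 0, 0, 732488, 0, 0, 0, 0, 0, 0⟩ ⟨427, -1, -2048, 8, 17, 270, 913946, 0, 0, 0, 0, 0, 0⟩))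
    (.leaf (.box ⟨388, -1, -2048, 8, 19, 267, 826736, 0, 0, 0, 0, 0, 0⟩ ⟨0, 0, 0, 0, 0, 0, 947832, 0, 0, 0, 0, 0, 0⟩ ⟨0, 0, 0, 0, 0, 0, 947832, 0, 0, 0, 0, 0, 0⟩ ⟨0, 0, 0, 0, 0, 0, 1110489, 0, 0, 0, 0, 0, 0⟩ ⟨0, 0, 0, 0, 0, 0, 1110489, 0, 0, 0, 0, 0, 0⟩ ⟨585, 0, -3146, 6, 18, 410, 1340539, 0, 0, 0, 0, 0, 0⟩))))
    (.s2
    (.s0
    (.leaf (.box ⟨430, -1, -2048, 11, 19, 261, 436397, 0, 0, 0, 0, 0, 0⟩ ⟨0, 0, 0, 0, 0, 0, 508660, 0, 0, 0, 0, 0, 0⟩ ⟨0, 0, 0, 0, 0, 0, 508660, 0, 0, 0, 0, 0, 0⟩ ⟨0, 0, 0, 0, 0, 0, 609602, 0, 0, 0, 0, 0, 0⟩ ⟨0, 0, 0, 0, 0, 0, 609602, 0, 0, 0, 0, 0, 0⟩ ⟨423, 0, -2048, 7, 11, 262, 760527, 0, 0, 0, 0, 0, 0⟩))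
    (.leaf (.box ⟨343, 0, -2048, 9, 23, 271, 573057, 0, 0, 0, 0, 0, 0⟩ ⟨0, 0, 0, 0, 0, 0, 667968, 0, 0, 0, 0, 0, 0⟩ ⟨0, 0, 0, 0, 0, 0, 667968, 0, 0, 0, 0, 0, 0⟩ ⟨0, 0, 0, 0, 0, 0, 800558, 0, 0, 0, 0, 0, 0⟩ ⟨0, 0, 0, 0, 0, 0, 800558, 0, 0, 0, 0, 0, 0⟩ ⟨365, 0, -2129, 6, 14, 282, 998820, 0, 0, 0, 0, 0, 0⟩)))
    (.s2
    (.leaf (.box ⟨592, -1, -2048, 17, 22, 286, 446498, 0, 0, 0, 0, 15485727929, 0⟩ ⟨0, 0, 0, 0, 0, 0, 520351, 0, 0, 0, 0, 0, 0⟩ ⟨0, 0, 0, 0, 0, 0, 520351, 0, 0, 0, 0, 0, 0⟩ ⟨0, 0, 0, 0, 0, 0, 623477, 0, 0, 0, 0, 0, 0⟩ ⟨0, 0, 0, 0, 0, 0, 623477, 0, 0, 0, 0, 0, 0⟩ ⟨638, 0, -2048, 12, 13, 292, 777581, 0, 0, 0, 0, 13156567958, 0⟩))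
    (.leaf (.skip 8 0)))))

/-- A piece of the tree. -/
noncomputable def tree83 : Tree LeafX :=
  .s1
    (.s2
    (.s0
    (.s1
    (.leaf (.box ⟨2048, -6, 1023, 21, 3, 133, 264508, 0, 0, 0, 0, 0, 0⟩ ⟨0, 0, 0, 0, 0, 0, 308246, 0, 0, 0, 0, 0, 0⟩ ⟨0, 0, 0, 0, 0, 0, 308246, 0, 0, 0, 0, 0, 0⟩ ⟨0, 0, 0, 0, 0, 0, 369314, 0, 0, 0, 0, 0, 0⟩ ⟨0, 0, 0, 0, 0, 0, 369314, 0, 0, 0, 0, 0, 0⟩ ⟨2048, -4, 1038, 13, 2, 133, 460556, 0, 0, 0, 0, 0, 0⟩))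
    (.leaf (.box ⟨2048, -40, 991, 27, -3, 129, 279385, 0, 0, 0, 0, 0, 0⟩ ⟨0, 0, 0, 0, 0, 0, 325746, 0, 0, 0, 0, 0, 0⟩ ⟨0, 0, 0, 0, 0, 0, 325746, 0, 0, 0, 0, 0, 0⟩ ⟨0, 0, 0, 0, 0, 0, 390552, 0, 0, 0, 0, 0, 0⟩ ⟨0, 0, 0, 0, 0, 0, 390552, 0, 0, 0, 0, 0, 0⟩ ⟨2048, -23, 1037, 15, -2, 132, 487549, 0, 0, 0, 0, 0, 0⟩)))
    (.s1
    (.leaf (.box ⟨2048, -4, 1136, 15, 17, 296, 311978, 0, 0, 0, 0, 0, 0⟩ ⟨0, 0, 0, 0, 0, 0, 363562, 0, 0, 0, 0, 0, 0⟩ ⟨0, 0, 0, 0, 0, 0, 363562, 0, 0, 0, 0, 0, 0⟩ ⟨0, 0, 0, 0, 0, 0, 435584, 0, 0, 0, 0, 0, 0⟩ ⟨0, 0, 0, 0, 0, 0, 435584, 0, 0, 0, 0, 0, 0⟩ ⟨2048, -2, 1156, 9, 10, 298, 543189, 0, 0, 0, 0, 0, 0⟩))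
    (.leaf (.box ⟨2048, -21, 1015, 19, 17, 359, 336312, 0, 0, 0, 0, 0, 0⟩ ⟨0, 0, 0, 0, 0, 0, 392065, 0, 0, 0, 0, 0, 0⟩ ⟨0, 0, 0, 0, 0, 0, 392065, 0, 0, 0, 0, 0, 0⟩ ⟨0, 0, 0, 0, 0, 0, 469975, 0, 0, 0, 0, 0, 0⟩ ⟨0, 0, 0, 0, 0, 0, 469975, 0, 0, 0, 0, 0, 0⟩ ⟨2048, -12, 1053, 11, 10, 361, 586529, 0, 0, 0, 0, 0, 0⟩))))
    (.s0
    (.s1
    (.leaf (.box ⟨2048, -14, 552, 15, 6, 118, 229564, 0, 0, 0, 0, 0, 0⟩ ⟨0, 0, 0, 0, 0, 0, 267524, 0, 0, 0, 0, 0, 0⟩ ⟨0, 0, 0, 0, 0, 0, 267524, 0, 0, 0, 0, 0, 0⟩ ⟨0, 0, 0, 0, 0, 0, 320523, 0, 0, 0, 0, 0, 0⟩ ⟨0, 0, 0, 0, 0, 0, 320523, 0, 0, 0, 0, 0, 0⟩ ⟨2048, -8, 564, 8, 3, 118, 399710, 0, 0, 0, 0, 0, 0⟩))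
    (.leaf (.box ⟨2048, -64, 283, 26, 4, 127, 259326, 0, 0, 0, 0, 0, 0⟩ ⟨0, 0, 0, 0, 0, 0, 302379, 0, 0, 0, 0, 0, 0⟩ ⟨0, 0, 0, 0, 0, 0, 302379, 0, 0, 0, 0, 0, 0⟩ ⟨0, 0, 0, 0, 0, 0, 362571, 0, 0, 0, 0, 0, 0⟩ ⟨0, 0, 0, 0, 0, 0, 362571, 0, 0, 0, 0, 0, 0⟩ ⟨2048, -36, 299, 15, 2, 128, 452683, 0, 0, 0, 0, 0, 0⟩)))
    (.s1
    (.s2
    (.leaf (.box ⟨2048, -11, 1096, 13, 13, 254, 297435, 0, 0, 0, 0, 0, 0⟩ ⟨0, 0, 0, 0, 0, 0, 346621, 0, 0, 0, 0, 0, 0⟩ ⟨0, 0, 0, 0, 0, 0, 346621, 0, 0, 0, 0, 0, 0⟩ ⟨0, 0, 0, 0, 0, 0, 415298, 0, 0, 0, 0, 0, 0⟩ ⟨0, 0, 0, 0, 0, 0, 415298, 0, 0, 0, 0, 0, 0⟩ ⟨2048, -6, 1166, 8, 7, 247, 517912, 0, 0, 0, 0, 0, 0⟩))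
    (.leaf (.box ⟨2048, -14, 755, 14, 7, 167, 284325, 0, 0, 0, 0, 0, 0⟩ ⟨0, 0, 0, 0, 0, 0, 331370, 0, 0, 0, 0, 0, 0⟩ ⟨0, 0, 0, 0, 0, 0, 331370, 0, 0, 0, 0, 0, 0⟩ ⟨0, 0, 0, 0, 0, 0, 397070, 0, 0, 0, 0, 0, 0⟩ ⟨0, 0, 0, 0, 0, 0, 397070, 0, 0, 0, 0, 0, 0⟩ ⟨2048, -6, 754, 6, 5, 166, 495265, 0, 0, 0, 0, 0, 0⟩)))
    (.leaf (.box ⟨2048, -45, 431, 26, 15, 268, 320842, 0, 0, 0, 0, 0, 0⟩ ⟨0, 0, 0, 0, 0, 0, 374120, 0, 0, 0, 0, 0, 0⟩ ⟨0, 0, 0, 0, 0, 0, 374120, 0, 0, 0, 0, 0, 0⟩ ⟨0, 0, 0, 0, 0, 0, 448616, 0, 0, 0, 0, 0, 0⟩ ⟨0, 0, 0, 0, 0, 0, 448616, 0, 0, 0, 0, 0, 0⟩ ⟨2048, -26, 449, 15, 8, 266, 560155, 0, 0, 0, 0, 0, 0⟩)))))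
    (.s0
    (.s2
    (.leaf (.box ⟨2048, -85, 88, 62, -1, 90, 209069, 0, 0, 0, 0, 0, 0⟩ ⟨0, 0, 0, 0, 0, 0, 243582, 0, 0, 0, 0, 0, 0⟩ ⟨0, 0, 0, 0, 0, 0, 243582, 0, 0, 0, 0, 0, 0⟩ ⟨0, 0, 0, 0, 0, 0, 291743, 0, 0, 0, 0, 0, 0⟩ ⟨0, 0, 0, 0, 0, 0, 291743, 0, 0, 0, 0, 0, 0⟩ ⟨2048, -52, 96, 38, -1, 95, 363640, 0, 0, 0, 0, 0, 0⟩))
    (.leaf (.box ⟨2048, -123, -13, 59, -7, 64, 228770, 0, 0, 0, 0, 0, 0⟩ ⟨0, 0, 0, 0, 0, 0, 266563, 0, 0, 0, 0, 0, 0⟩ ⟨0, 0, 0, 0, 0, 0, 266563, 0, 0, 0, 0, 0, 0⟩ ⟨0, 0, 0, 0, 0, 0, 319312, 0, 0, 0, 0, 0, 0⟩ ⟨0, 0, 0, 0, 0, 0, 319312, 0, 0, 0, 0, 0, 0⟩ ⟨2048, -76, -14, 36, -4, 67, 398088, 0, 0, 0, 0, 0, 0⟩)))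
    (.leaf (.box ⟨2048, -135, -668, 92, 25, 284, 328446, 0, 0, 0, 0, 0, 0⟩ ⟨0, 0, 0, 0, 0, 0, 382953, 0, 0, 0, 0, 0, 0⟩ ⟨0, 0, 0, 0, 0, 0, 382953, 0, 0, 0, 0, 0, 0⟩ ⟨0, 0, 0, 0, 0, 0, 459151, 0, 0, 0, 0, 0, 0⟩ ⟨0, 0, 0, 0, 0, 0, 459151, 0, 0, 0, 0, 0, 0⟩ ⟨2048, -78, -650, 53, 14, 286, 573202, 0, 0, 0, 0, 0, 0⟩)))

/-- A piece of the tree. -/
noncomputable def tree84 : Tree LeafX :=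
  .s0
    (.s2
    (.s0
    (.s1
    (.leaf (.box ⟨2048, -11, -531, 21, 34, 396, 350890, 0, 0, 0, 0, 0, 0⟩ ⟨0, 0, 0, 0, 0, 0, 408985, 0, 0, 0, 0, 0, 0⟩ ⟨0, 0, 0, 0, 0, 0, 408985, 0, 0, 0, 0, 0, 0⟩ ⟨0, 0, 0, 0, 0, 0, 490132, 0, 0, 0, 0, 0, 0⟩ ⟨0, 0, 0, 0, 0, 0, 490132, 0, 0, 0, 0, 0, 0⟩ ⟨2048, -6, -505, 12, 20, 401, 611451, 0, 0, 0, 0, 0, 0⟩))
    (.leaf (.box ⟨2048, -19, -199, 19, 41, 515, 380690, 0, 0, 0, 0, 0, 0⟩ ⟨0, 0, 0, 0, 0, 0, 443887, 0, 0, 0, 0, 0, 0⟩ ⟨0, 0, 0, 0, 0, 0, 443887, 0, 0, 0, 0, 0, 0⟩ ⟨0, 0, 0, 0, 0, 0, 532242, 0, 0, 0, 0, 0, 0⟩ ⟨0, 0, 0, 0, 0, 0, 532242, 0, 0, 0, 0, 0, 0⟩ ⟨2048, -11, -165, 11, 24, 523, 664512, 0, 0, 0, 0, 0, 0⟩)))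
    (.leaf (.box ⟨2048, -21, -1254, 31, 62, 464, 381656, 0, 0, 0, 0, 0, 0⟩ ⟨0, 0, 0, 0, 0, 0, 444915, 0, 0, 0, 0, 0, 0⟩ ⟨0, 0, 0, 0, 0, 0, 444915, 0, 0, 0, 0, 0, 0⟩ ⟨0, 0, 0, 0, 0, 0, 533309, 0, 0, 0, 0, 0, 0⟩ ⟨0, 0, 0, 0, 0, 0, 533309, 0, 0, 0, 0, 0, 0⟩ ⟨2048, -14, -1363, 21, 31, 460, 665535, 0, 0, 0, 0, 0, 0⟩)))
    (.leaf (.box ⟨2048, -27, -1695, 36, 44, 387, 323031, 0, 0, 0, 0, 0, 0⟩ ⟨0, 0, 0, 0, 0, 0, 376549, 0, 0, 0, 0, 0, 0⟩ ⟨0, 0, 0, 0, 0, 0, 376549, 0, 0, 0, 0, 0, 0⟩ ⟨0, 0, 0, 0, 0, 0, 451321, 0, 0, 0, 0, 0, 0⟩ ⟨0, 0, 0, 0, 0, 0, 451321, 0, 0, 0, 0, 0, 0⟩ ⟨2048, -16, -1665, 22, 25, 385, 563146, 0, 0, 0, 0, 0, 0⟩)))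
    (.s2
    (.s0
    (.s0
    (.leaf (.box ⟨1692, -17, -2048, 32, 68, 513, 428908, 0, 0, 0, 0, 0, 0⟩ ⟨0, 0, 0, 0, 0, 0, 500042, 0, 0, 0, 0, 0, 0⟩ ⟨0, 0, 0, 0, 0, 0, 500042, 0, 0, 0, 0, 0, 0⟩ ⟨0, 0, 0, 0, 0, 0, 599462, 0, 0, 0, 0, 0, 0⟩ ⟨0, 0, 0, 0, 0, 0, 599462, 0, 0, 0, 0, 0, 0⟩ ⟨1702, -10, -2048, 19, 40, 523, 748227, 0, 0, 0, 0, 0, 0⟩))
    (.s1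
    (.leaf (.box ⟨1154, -6, -2048, 22, 61, 419, 455006, 0, 0, 0, 0, 0, 0⟩ ⟨0, 0, 0, 0, 0, 0, 530244, 0, 0, 0, 0, 0, 0⟩ ⟨0, 0, 0, 0, 0, 0, 530244, 0, 0, 0, 0, 0, 0⟩ ⟨0, 0, 0, 0, 0, 0, 635292, 0, 0, 0, 0, 0, 0⟩ ⟨0, 0, 0, 0, 0, 0, 635292, 0, 0, 0, 0, 0, 0⟩ ⟨1204, -3, -2048, 12, 34, 404, 792245, 0, 0, 0, 0, 0, 0⟩))
    (.leaf (.box ⟨1268, -11, -2048, 19, 73, 558, 475610, 0, 0, 0, 0, 0, 0⟩ ⟨0, 0, 0, 0, 0, 0, 554447, 0, 0, 0, 0, 0, 0⟩ ⟨0, 0, 0, 0, 0, 0, 554447, 0, 0, 0, 0, 0, 0⟩ ⟨0, 0, 0, 0, 0, 0, 664612, 0, 0, 0, 0, 0, 0⟩ ⟨0, 0, 0, 0, 0, 0, 664612, 0, 0, 0, 0, 0, 0⟩ ⟨1274, -7, -2048, 12, 42, 567, 829410, 0, 0, 0, 0, 0, 0⟩))))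
    (.s1
    (.s2
    (.s3
    (.s1
    (.leaf (.box ⟨489, 0, -2048, 18, 69, 393, 479924, 0, 0, 0, 0, 0, 0⟩ ⟨0, 0, 0, 0, 0, 0, 559243, 0, 0, 0, 0, 0, 0⟩ ⟨0, 0, 0, 0, 0, 0, 559243, 0, 0, 0, 0, 0, 0⟩ ⟨0, 0, 0, 0, 0, 0, 669971, 0, 0, 0, 0, 0, 0⟩ ⟨0, 0, 0, 0, 0, 0, 669971, 0, 0, 0, 0, 0, 0⟩ ⟨546, 0, -2048, 10, 39, 382, 835370, 0, 0, 0, 0, 0, 0⟩))
    (.leaf (.box ⟨674, -3, -2048, 20, 74, 447, 486007, 0, 0, 0, 0, 0, 0⟩ ⟨0, 0, 0, 0, 0, 0, 566421, 0, 0, 0, 0, 0, 0⟩ ⟨0, 0, 0, 0, 0, 0, 566421, 0, 0, 0, 0, 0, 0⟩ ⟨0, 0, 0, 0, 0, 0, 678722, 0, 0, 0, 0, 0, 0⟩ ⟨0, 0, 0, 0, 0, 0, 678722, 0, 0, 0, 0, 0, 0⟩ ⟨682, -2, -2048, 12, 43, 454, 846563, 0, 0, 0, 0, 0, 0⟩)))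
    (.s1
    (.leaf (.box ⟨541, 0, -2048, 12, 47, 411, 753877, 0, 0, 0, 0, 0, 0⟩ ⟨0, 0, 0, 0, 0, 0, 864153, 0, 0, 0, 0, 0, 0⟩ ⟨0, 0, 0, 0, 0, 0, 864153, 0, 0, 0, 0, 0, 0⟩ ⟨0, 0, 0, 0, 0, 0, 1012219, 0, 0, 0, 0, 0, 0⟩ ⟨0, 0, 0, 0, 0, 0, 1012219, 0, 0, 0, 0, 0, 0⟩ ⟨602, 0, -2048, 7, 28, 397, 1221516, 0, 0, 0, 0, 0, 0⟩))
    (.leaf (.box ⟨758, -2, -2048, 14, 50, 472, 765073, 0, 0, 0, 0, 0, 0⟩ ⟨0, 0, 0, 0, 0, 0, 877049, 0, 0, 0, 0, 0, 0⟩ ⟨0, 0, 0, 0, 0, 0, 877049, 0, 0, 0, 0, 0, 0⟩ ⟨0, 0, 0, 0, 0, 0, 1027420, 0, 0, 0, 0, 0, 0⟩ ⟨0, 0, 0, 0, 0, 0, 1027420, 0, 0, 0, 0, 0, 0⟩ ⟨758, -1, -2048, 9, 31, 476, 1240025, 0, 0, 0, 0, 0, 0⟩))))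
    (.s3
    (.leaf (.box ⟨474, -3, -2048, 15, 55, 358, 488038, 0, 0, 0, 0, 0, 0⟩ ⟨0, 0, 0, 0, 0, 0, 568837, 0, 0, 0, 0, 0, 0⟩ ⟨0, 0, 0, 0, 0, 0, 568837, 0, 0, 0, 0, 0, 0⟩ ⟨0, 0, 0, 0, 0, 0, 681697, 0, 0, 0, 0, 0, 0⟩ ⟨0, 0, 0, 0, 0, 0, 681697, 0, 0, 0, 0, 0, 0⟩ ⟨495, -2, -2048, 9, 31, 358, 850426, 0, 0, 0, 0, 0, 0⟩))
    (.leaf (.box ⟨526, -2, -2048, 10, 36, 365, 768924, 0, 0, 0, 0, 0, 0⟩ ⟨0, 0, 0, 0, 0, 0, 881508, 0, 0, 0, 0, 0, 0⟩ ⟨0, 0, 0, 0, 0, 0, 881508, 0, 0, 0, 0, 0, 0⟩ ⟨0, 0, 0, 0, 0, 0, 1032715, 0, 0, 0, 0, 0, 0⟩ ⟨0, 0, 0, 0, 0, 0, 1032715, 0, 0, 0, 0, 0, 0⟩ ⟨525, -1, -2048, 6, 22, 367, 1246536, 0, 0, 0, 0, 0, 0⟩))))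
    (.leaf (.box ⟨1016, -13, -2048, 30, 83, 561, 500497, 0, 0, 0, 0, 0, 0⟩ ⟨0, 0, 0, 0, 0, 0, 583438, 0, 0, 0, 0, 0, 0⟩ ⟨0, 0, 0, 0, 0, 0, 583438, 0, 0, 0, 0, 0, 0⟩ ⟨0, 0, 0, 0, 0, 0, 699328, 0, 0, 0, 0, 0, 0⟩ ⟨0, 0, 0, 0, 0, 0, 699328, 0, 0, 0, 0, 0, 0⟩ ⟨1121, -7, -2048, 16, 43, 513, 872668, 0, 0, 0, 0, 0, 0⟩))))
    (.s1
    (.s0
    (.leaf (.box ⟨556, -4, -2048, 12, 41, 325, 428673, 0, 0, 0, 0, 0, 0⟩ ⟨0, 0, 0, 0, 0, 0, 499793, 0, 0, 0, 0, 0, 0⟩ ⟨0, 0, 0, 0, 0, 0, 499793, 0, 0, 0, 0, 0, 0⟩ ⟨0, 0, 0, 0, 0, 0, 599203, 0, 0, 0, 0, 0, 0⟩ ⟨0, 0, 0, 0, 0, 0, 599203, 0, 0, 0, 0, 0, 0⟩ ⟨552, -3, -2048, 8, 23, 328, 747979, 0, 0, 0, 0, 0, 0⟩))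
    (.leaf (.box ⟨378, -3, -2048, 12, 45, 329, 499686, 0, 0, 0, 0, 0, 0⟩ ⟨0, 0, 0, 0, 0, 0, 582535, 0, 0, 0, 0, 0, 0⟩ ⟨0, 0, 0, 0, 0, 0, 582535, 0, 0, 0, 0, 0, 0⟩ ⟨0, 0, 0, 0, 0, 0, 698318, 0, 0, 0, 0, 0, 0⟩ ⟨0, 0, 0, 0, 0, 0, 698318, 0, 0, 0, 0, 0, 0⟩ ⟨362, -2, -2048, 7, 26, 331, 871542, 0, 0, 0, 0, 0, 0⟩)))
    (.leaf (.box ⟨519, -12, -2048, 24, 57, 398, 464673, 0, 0, 0, 0, 0, 0⟩ ⟨0, 0, 0, 0, 0, 0, 541984, 0, 0, 0, 0, 0, 0⟩ ⟨0, 0, 0, 0, 0, 0, 541984, 0, 0, 0, 0, 0, 0⟩ ⟨0, 0, 0, 0, 0, 0, 650153, 0, 0, 0, 0, 0, 0⟩ ⟨0, 0, 0, 0, 0, 0, 650153, 0, 0, 0, 0, 0, 0⟩ ⟨525, -7, -2048, 14, 33, 401, 812266, 0, 0, 0, 0, 0, 0⟩))))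

/-- A piece of the tree. -/
noncomputable def tree85 : Tree LeafX :=
  .s0
    (.leaf (.box ⟨2048, -65, -1607, 63, 53, 403, 419101, 0, 0, 0, 0, 0, 0⟩ ⟨0, 0, 0, 0, 0, 0, 489027, 0, 0, 0, 0, 0, 0⟩ ⟨0, 0, 0, 0, 0, 0, 489027, 0, 0, 0, 0, 0, 0⟩ ⟨0, 0, 0, 0, 0, 0, 586958, 0, 0, 0, 0, 0, 0⟩ ⟨0, 0, 0, 0, 0, 0, 586958, 0, 0, 0, 0, 0, 0⟩ ⟨2048, -37, -1586, 36, 30, 403, 733934, 0, 0, 0, 0, 0, 0⟩))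
    (.s2
    (.leaf (.box ⟨1496, -39, -2048, 53, 91, 598, 500660, 0, 0, 0, 0, 0, 0⟩ ⟨0, 0, 0, 0, 0, 0, 583884, 0, 0, 0, 0, 0, 0⟩ ⟨0, 0, 0, 0, 0, 0, 583884, 0, 0, 0, 0, 0, 0⟩ ⟨0, 0, 0, 0, 0, 0, 700291, 0, 0, 0, 0, 0, 0⟩ ⟨0, 0, 0, 0, 0, 0, 700291, 0, 0, 0, 0, 0, 0⟩ ⟨1519, -23, -2048, 31, 52, 607, 874671, 0, 0, 0, 0, 0, 0⟩))
    (.s1
    (.leaf (.box ⟨336, -20, -2048, 31, 67, 449, 529876, 0, 0, 0, 0, 0, 0⟩ ⟨0, 0, 0, 0, 0, 0, 618330, 0, 0, 0, 0, 0, 0⟩ ⟨0, 0, 0, 0, 0, 0, 618330, 0, 0, 0, 0, 0, 0⟩ ⟨0, 0, 0, 0, 0, 0, 742234, 0, 0, 0, 0, 0, 0⟩ ⟨0, 0, 0, 0, 0, 0, 742234, 0, 0, 0, 0, 0, 0⟩ ⟨357, -13, -2048, 19, 38, 453, 928237, 0, 0, 0, 0, 0, 0⟩))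
    (.leaf (.box ⟨305, -19, -2048, 29, 73, 486, 604581, 0, 0, 0, 0, 0, 0⟩ ⟨0, 0, 0, 0, 0, 0, 705788, 0, 0, 0, 0, 0, 0⟩ ⟨0, 0, 0, 0, 0, 0, 705788, 0, 0, 0, 0, 0, 0⟩ ⟨0, 0, 0, 0, 0, 0, 847691, 0, 0, 0, 0, 0, 0⟩ ⟨0, 0, 0, 0, 0, 0, 847691, 0, 0, 0, 0, 0, 0⟩ ⟨309, -11, -2048, 17, 42, 491, 1061015, 0, 0, 0, 0, 0, 0⟩))))

/-- A piece of the tree. -/
noncomputable def tree86 : Tree LeafX :=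
  .s1
    (.s0
    (.s2
    (.leaf (.box ⟨2048, -57, 252, 29, 8, 112, 199715, 0, 0, 0, 0, 0, 0⟩ ⟨0, 0, 0, 0, 0, 0, 232756, 0, 0, 0, 0, 0, 0⟩ ⟨0, 0, 0, 0, 0, 0, 232756, 0, 0, 0, 0, 0, 0⟩ ⟨0, 0, 0, 0, 0, 0, 278896, 0, 0, 0, 0, 0, 0⟩ ⟨0, 0, 0, 0, 0, 0, 278896, 0, 0, 0, 0, 0, 0⟩ ⟨2048, -35, 254, 17, 4, 109, 347852, 0, 0, 0, 0, 0, 0⟩))
    (.s2
    (.leaf (.box ⟨2048, -35, 527, 21, 2, 65, 186610, 0, 0, 0, 0, 0, 0⟩ ⟨0, 0, 0, 0, 0, 0, 217504, 0, 0, 0, 0, 0, 0⟩ ⟨0, 0, 0, 0, 0, 0, 217504, 0, 0, 0, 0, 0, 0⟩ ⟨0, 0, 0, 0, 0, 0, 260654, 0, 0, 0, 0, 0, 0⟩ ⟨0, 0, 0, 0, 0, 0, 260654, 0, 0, 0, 0, 0, 0⟩ ⟨2048, -19, 541, 12, 1, 66, 325164, 0, 0, 0, 0, 0, 0⟩))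
    (.s2
    (.leaf (.box ⟨2048, -30, 572, 21, -1, 46, 180523, 0, 0, 0, 0, 0, 0⟩ ⟨0, 0, 0, 0, 0, 0, 210422, 0, 0, 0, 0, 0, 0⟩ ⟨0, 0, 0, 0, 0, 0, 210422, 0, 0, 0, 0, 0, 0⟩ ⟨0, 0, 0, 0, 0, 0, 252190, 0, 0, 0, 0, 0, 0⟩ ⟨0, 0, 0, 0, 0, 0, 252190, 0, 0, 0, 0, 0, 0⟩ ⟨2048, -17, 574, 11, -1, 46, 314646, 0, 0, 0, 0, 0, 0⟩))
    (.s2
    (.leaf (.box ⟨2048, -31, 568, 23, -2, 39, 177596, 0, 0, 0, 0, 0, 0⟩ ⟨0, 0, 0, 0, 0, 0, 207018, 0, 0, 0, 0, 0, 0⟩ ⟨0, 0, 0, 0, 0, 0, 207018, 0, 0, 0, 0, 0, 0⟩ ⟨0, 0, 0, 0, 0, 0, 248122, 0, 0, 0, 0, 0, 0⟩ ⟨0, 0, 0, 0, 0, 0, 248122, 0, 0, 0, 0, 0, 0⟩ ⟨2048, -18, 570, 13, -1, 38, 309593, 0, 0, 0, 0, 0, 0⟩))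
    (.leaf (.box ⟨2048, -32, 546, 25, -2, 33, 174747, 0, 0, 0, 0, 0, 0⟩ ⟨0, 0, 0, 0, 0, 0, 203704, 0, 0, 0, 0, 0, 0⟩ ⟨0, 0, 0, 0, 0, 0, 203704, 0, 0, 0, 0, 0, 0⟩ ⟨0, 0, 0, 0, 0, 0, 244164, 0, 0, 0, 0, 0, 0⟩ ⟨0, 0, 0, 0, 0, 0, 244164, 0, 0, 0, 0, 0, 0⟩ ⟨2048, -19, 561, 14, -1, 34, 304678, 0, 0, 0, 0, 0, 0⟩))))))
    (.s0
    (.leaf (.box ⟨2048, -45, 1099, 28, -2, 143, 251072, 0, 0, 0, 0, 0, 0⟩ ⟨0, 0, 0, 0, 0, 0, 292686, 0, 0, 0, 0, 0, 0⟩ ⟨0, 0, 0, 0, 0, 0, 292686, 0, 0, 0, 0, 0, 0⟩ ⟨0, 0, 0, 0, 0, 0, 350835, 0, 0, 0, 0, 0, 0⟩ ⟨0, 0, 0, 0, 0, 0, 350835, 0, 0, 0, 0, 0, 0⟩ ⟨2048, -27, 1133, 17, -1, 144, 437818, 0, 0, 0, 0, 0, 0⟩))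
    (.leaf (.box ⟨2048, -27, 4, 32, 5, 155, 255203, 0, 0, 0, 0, 3169954402, 0⟩ ⟨0, 0, 0, 0, 0, 0, 297422, 0, 0, 0, 0, 0, 0⟩ ⟨0, 0, 0, 0, 0, 0, 297422, 0, 0, 0, 0, 0, 0⟩ ⟨0, 0, 0, 0, 0, 0, 356378, 0, 0, 0, 0, 0, 0⟩ ⟨0, 0, 0, 0, 0, 0, 356378, 0, 0, 0, 0, 0, 0⟩ ⟨2048, -16, -50, 19, 3, 150, 444485, 0, 0, 0, 0, 3217440475, 0⟩))))
    (.s0
    (.s2
    (.leaf (.box ⟨2048, -126, -50, 61, -9, 62, 243974, 0, 0, 0, 0, 0, 0⟩ ⟨0, 0, 0, 0, 0, 0, 284298, 0, 0, 0, 0, 0, 0⟩ ⟨0, 0, 0, 0, 0, 0, 284298, 0, 0, 0, 0, 0, 0⟩ ⟨0, 0, 0, 0, 0, 0, 340590, 0, 0, 0, 0, 0, 0⟩ ⟨0, 0, 0, 0, 0, 0, 340590, 0, 0, 0, 0, 0, 0⟩ ⟨2048, -76, -58, 36, -6, 65, 424678, 0, 0, 0, 0, 0, 0⟩))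
    (.leaf (.box ⟨2048, -69, -57, 38, -6, 37, 254684, 0, 0, 0, 0, 0, 0⟩ ⟨0, 0, 0, 0, 0, 0, 296791, 0, 0, 0, 0, 0, 0⟩ ⟨0, 0, 0, 0, 0, 0, 296791, 0, 0, 0, 0, 0, 0⟩ ⟨0, 0, 0, 0, 0, 0, 355579, 0, 0, 0, 0, 0, 0⟩ ⟨0, 0, 0, 0, 0, 0, 355579, 0, 0, 0, 0, 0, 0⟩ ⟨2048, -41, -60, 22, -3, 36, 443408, 0, 0, 0, 0, 0, 0⟩)))
    (.s1
    (.leaf (.box ⟨2048, -50, -334, 32, 5, 166, 352265, 0, 0, 0, 0, 0, 0⟩ ⟨0, 0, 0, 0, 0, 0, 411002, 0, 0, 0, 0, 0, 0⟩ ⟨0, 0, 0, 0, 0, 0, 411002, 0, 0, 0, 0, 0, 0⟩ ⟨0, 0, 0, 0, 0, 0, 493246, 0, 0, 0, 0, 0, 0⟩ ⟨0, 0, 0, 0, 0, 0, 493246, 0, 0, 0, 0, 0, 0⟩ ⟨2048, -28, -331, 18, 3, 167, 616639, 0, 0, 0, 0, 0, 0⟩))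
    (.s1
    (.leaf (.box ⟨2048, -45, -283, 32, -3, 86, 373097, 0, 0, 0, 0, 0, 0⟩ ⟨0, 0, 0, 0, 0, 0, 435443, 0, 0, 0, 0, 0, 0⟩ ⟨0, 0, 0, 0, 0, 0, 435443, 0, 0, 0, 0, 0, 0⟩ ⟨0, 0, 0, 0, 0, 0, 522806, 0, 0, 0, 0, 0, 0⟩ ⟨0, 0, 0, 0, 0, 0, 522806, 0, 0, 0, 0, 0, 0⟩ ⟨2048, -25, -283, 18, -1, 86, 654021, 0, 0, 0, 0, 0, 0⟩))
    (.leaf (.box ⟨2048, -39, -157, 34, -6, 37, 329097, 0, 0, 0, 0, 0, 0⟩ ⟨0, 0, 0, 0, 0, 0, 384001, 0, 0, 0, 0, 0, 0⟩ ⟨0, 0, 0, 0, 0, 0, 384001, 0, 0, 0, 0, 0, 0⟩ ⟨0, 0, 0, 0, 0, 0, 460893, 0, 0, 0, 0, 0, 0⟩ ⟨0, 0, 0, 0, 0, 0, 460893, 0, 0, 0, 0, 0, 0⟩ ⟨2048, -23, -157, 20, -3, 37, 576286, 0, 0, 0, 0, 0, 0⟩)))))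

theorem parts3 :
    (runPathS conQ supQ (fun n Qs i d x => leafR conQ seg n Qs i d x) [.d0 false, .d1 false, .d2 true, .d0 false, .d1 false, .d2 true, .d1 false, .d0 false, .d1 false, .d0 true, .d2 true, .d1 false, .d2 true, .d2 true, .d2 true, .d2 true, .d0 false, .d1 false, .d1 false, .d0 false, .d3 true, .d2 true, .d1 false, .d0 false, .d3 true, .d0 false, .d3 false, .d3 true] tree60 0 0 0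
      (joinS (lay.B * lay.size) rootQ) = true) ∧
    (runPathS conQ supQ (fun n Qs i d x => leafR conQ seg n Qs i d x) [.d0 false, .d1 false, .d2 true, .d0 false, .d1 false, .d2 true, .d1 false, .d0 false, .d1 false, .d0 true, .d2 true, .d1 false, .d2 true, .d2 true, .d2 true, .d2 true, .d0 false, .d1 false, .d1 false, .d0 false, .d3 true, .d2 true, .d1 false, .d0 false, .d3 true, .d0 false, .d3 true] tree61 0 0 0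
      (joinS (lay.B * lay.size) rootQ) = true) ∧
    (runPathS conQ supQ (fun n Qs i d x => leafR conQ seg n Qs i d x) [.d0 false, .d1 false, .d2 true, .d0 false, .d1 false, .d2 true, .d1 false, .d0 false, .d1 false, .d0 true, .d2 true, .d1 false, .d2 true, .d2 true, .d2 true, .d2 true, .d0 false, .d1 false, .d1 false, .d0 false, .d3 true, .d2 true, .d1 false, .d0 false, .d3 true, .d0 true] tree62 0 0 0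
      (joinS (lay.B * lay.size) rootQ) = true) ∧
    (runPathS conQ supQ (fun n Qs i d x => leafR conQ seg n Qs i d x) [.d0 false, .d1 false, .d2 true, .d0 false, .d1 false, .d2 true, .d1 false, .d0 false, .d1 false, .d0 true, .d2 true, .d1 false, .d2 true, .d2 true, .d2 true, .d2 true, .d0 false, .d1 false, .d1 false, .d0 false, .d3 true, .d2 true, .d1 false, .d0 true] tree63 0 0 0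
      (joinS (lay.B * lay.size) rootQ) = true) ∧
    (runPathS conQ supQ (fun n Qs i d x => leafR conQ seg n Qs i d x) [.d0 false, .d1 false, .d2 true, .d0 false, .d1 false, .d2 true, .d1 false, .d0 false, .d1 false, .d0 true, .d2 true, .d1 false, .d2 true, .d2 true, .d2 true, .d2 true, .d0 false, .d1 false, .d1 false, .d0 false, .d3 true, .d2 true, .d1 true] tree64 0 0 0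
      (joinS (lay.B * lay.size) rootQ) = true) ∧
    (runPathS conQ supQ (fun n Qs i d x => leafR conQ seg n Qs i d x) [.d0 false, .d1 false, .d2 true, .d0 false, .d1 false, .d2 true, .d1 false, .d0 false, .d1 false, .d0 true, .d2 true, .d1 false, .d2 true, .d2 true, .d2 true, .d2 true, .d0 false, .d1 false, .d1 false, .d0 true] tree65 0 0 0
      (joinS (lay.B * lay.size) rootQ) = true) ∧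
    (runPathS conQ supQ (fun n Qs i d x => leafR conQ seg n Qs i d x) [.d0 false, .d1 false, .d2 true, .d0 false, .d1 false, .d2 true, .d1 false, .d0 false, .d1 false, .d0 true, .d2 true, .d1 false, .d2 true, .d2 true, .d2 true, .d2 true, .d0 false, .d1 false, .d1 true] tree66 0 0 0
      (joinS (lay.B * lay.size) rootQ) = true) ∧
    (runPathS conQ supQ (fun n Qs i d x => leafR conQ seg n Qs i d x) [.d0 false, .d1 false, .d2 true, .d0 false, .d1 false, .d2 true, .d1 false, .d0 false, .d1 false, .d0 true, .d2 true, .d1 false, .d2 true, .d2 true, .d2 true, .d2 true, .d0 false, .d1 true] tree67 0 0 0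
      (joinS (lay.B * lay.size) rootQ) = true) ∧
    (runPathS conQ supQ (fun n Qs i d x => leafR conQ seg n Qs i d x) [.d0 false, .d1 false, .d2 true, .d0 false, .d1 false, .d2 true, .d1 false, .d0 false, .d1 false, .d0 true, .d2 true, .d1 false, .d2 true, .d2 true, .d2 true, .d2 true, .d0 true] tree68 0 0 0
      (joinS (lay.B * lay.size) rootQ) = true) ∧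
    (runPathS conQ supQ (fun n Qs i d x => leafR conQ seg n Qs i d x) [.d0 false, .d1 false, .d2 true, .d0 false, .d1 false, .d2 true, .d1 false, .d0 false, .d1 false, .d0 true, .d2 true, .d1 true] tree69 0 0 0
      (joinS (lay.B * lay.size) rootQ) = true) ∧
    (runPathS conQ supQ (fun n Qs i d x => leafR conQ seg n Qs i d x) [.d0 false, .d1 false, .d2 true, .d0 false, .d1 false, .d2 true, .d1 false, .d0 false, .d1 true] tree70 0 0 0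
      (joinS (lay.B * lay.size) rootQ) = true) ∧
    (runPathS conQ supQ (fun n Qs i d x => leafR conQ seg n Qs i d x) [.d0 false, .d1 false, .d2 true, .d0 false, .d1 false, .d2 true, .d1 false, .d0 true] tree71 0 0 0
      (joinS (lay.B * lay.size) rootQ) = true) ∧
    (runPathS conQ supQ (fun n Qs i d x => leafR conQ seg n Qs i d x) [.d0 false, .d1 false, .d2 true, .d0 false, .d1 false, .d2 true, .d1 true] tree72 0 0 0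
      (joinS (lay.B * lay.size) rootQ) = true) ∧
    (runPathS conQ supQ (fun n Qs i d x => leafR conQ seg n Qs i d x) [.d0 false, .d1 false, .d2 true, .d0 false, .d1 true] tree73 0 0 0
      (joinS (lay.B * lay.size) rootQ) = true) ∧
    (runPathS conQ supQ (fun n Qs i d x => leafR conQ seg n Qs i d x) [.d0 false, .d1 false, .d2 true, .d0 true, .d1 false, .d2 false] tree74 0 0 0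
      (joinS (lay.B * lay.size) rootQ) = true) ∧
    (runPathS conQ supQ (fun n Qs i d x => leafR conQ seg n Qs i d x) [.d0 false, .d1 false, .d2 true, .d0 true, .d1 false, .d2 true, .d0 false, .d0 false] tree75 0 0 0
      (joinS (lay.B * lay.size) rootQ) = true) ∧
    (runPathS conQ supQ (fun n Qs i d x => leafR conQ seg n Qs i d x) [.d0 false, .d1 false, .d2 true, .d0 true, .d1 false, .d2 true, .d0 false, .d0 true, .d1 false] tree76 0 0 0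
      (joinS (lay.B * lay.size) rootQ) = true) ∧
    (runPathS conQ supQ (fun n Qs i d x => leafR conQ seg n Qs i d x) [.d0 false, .d1 false, .d2 true, .d0 true, .d1 false, .d2 true, .d0 false, .d0 true, .d1 true] tree77 0 0 0
      (joinS (lay.B * lay.size) rootQ) = true) ∧
    (runPathS conQ supQ (fun n Qs i d x => leafR conQ seg n Qs i d x) [.d0 false, .d1 false, .d2 true, .d0 true, .d1 false, .d2 true, .d0 true] tree78 0 0 0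
      (joinS (lay.B * lay.size) rootQ) = true) ∧
    (runPathS conQ supQ (fun n Qs i d x => leafR conQ seg n Qs i d x) [.d0 false, .d1 false, .d2 true, .d0 true, .d1 true, .d1 false, .d0 false] tree79 0 0 0
      (joinS (lay.B * lay.size) rootQ) = true) ∧
    (runPathS conQ supQ (fun n Qs i d x => leafR conQ seg n Qs i d x) [.d0 false, .d1 false, .d2 true, .d0 true, .d1 true, .d1 false, .d0 true, .d0 false] tree80 0 0 0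
      (joinS (lay.B * lay.size) rootQ) = true) ∧
    (runPathS conQ supQ (fun n Qs i d x => leafR conQ seg n Qs i d x) [.d0 false, .d1 false, .d2 true, .d0 true, .d1 true, .d1 false, .d0 true, .d0 true] tree81 0 0 0
      (joinS (lay.B * lay.size) rootQ) = true) ∧
    (runPathS conQ supQ (fun n Qs i d x => leafR conQ seg n Qs i d x) [.d0 false, .d1 false, .d2 true, .d0 true, .d1 true, .d1 true] tree82 0 0 0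
      (joinS (lay.B * lay.size) rootQ) = true) ∧
    (runPathS conQ supQ (fun n Qs i d x => leafR conQ seg n Qs i d x) [.d0 false, .d1 true, .d2 false, .d0 false] tree83 0 0 0
      (joinS (lay.B * lay.size) rootQ) = true) ∧
    (runPathS conQ supQ (fun n Qs i d x => leafR conQ seg n Qs i d x) [.d0 false, .d1 true, .d2 false, .d0 true, .d1 false] tree84 0 0 0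
      (joinS (lay.B * lay.size) rootQ) = true) ∧
    (runPathS conQ supQ (fun n Qs i d x => leafR conQ seg n Qs i d x) [.d0 false, .d1 true, .d2 false, .d0 true, .d1 true] tree85 0 0 0
      (joinS (lay.B * lay.size) rootQ) = true) ∧
    (runPathS conQ supQ (fun n Qs i d x => leafR conQ seg n Qs i d x) [.d0 false, .d1 true, .d2 true, .d0 false] tree86 0 0 0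
      (joinS (lay.B * lay.size) rootQ) = true) :=
  ⟨by decide +kernel,
  by decide +kernel,
  by decide +kernel,
  by decide +kernel,
  by decide +kernel,
  by decide +kernel,
  by decide +kernel,
  by decide +kernel,
  by decide +kernel,
  by decide +kernel,
  by decide +kernel,
  by decide +kernel,
  by decide +kernel,
  by decide +kernel,
  by decide +kernel,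
  by decide +kernel,
  by decide +kernel,
  by decide +kernel,
  by decide +kernel,
  by decide +kernel,
  by decide +kernel,
  by decide +kernel,
  by decide +kernel,
  by decide +kernel,
  by decide +kernel,
  by decide +kernel,
  by decide +kernel⟩

end Vale.Agent.P098.Six.S22
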